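import Vale.Agent.P054.MathlibUsed
import Vale.Agent.P054.Bdl.B2
import Vale.Agent.P054.H438.G.Def
import Vale.Agent.P054.H343.Tri
attribute [-instance] ProperSMul.toContinuousSMul IsTopologicalTorsor.toContinuousSMul IdemSemiring.toCanonicallyOrderedAdd IdemSemiring.toMulLeftMono IdemSemiring.toMulRightMono AddQuantale.instAddLeftMono AddQuantale.instAddRightMono Quantale.instMulLeftMono Quantale.instMulRightMono FiniteDimensional.rclike_to_real IsScalarTower.complexToReal FiniteDimensional.complexToReal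

set_option linter.all false
set_option autoImplicit false

open Finset

/-! P054, Theorem G, local lemma, part A: (A1) heavy triangles, (A2), (A3) exchange of two flats. -/

namespace Vale.Agent.P054G

open Vale.Agent.P054K

/-- **heavy triangles**: all triangles of one type, equidistant from `p` -/
theorem tri_plane {E : Type*} [NormedAddCommGroup E] [InnerProductSpace ℝ E] (p a0 b0 c0 : E)
    (hab : a0 ≠ b0) (hbc : b0 ≠ c0) (hca : c0 ≠ a0) (h1 : ‖a0 - p‖ = ‖b0 - p‖)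
    (h2 : ‖a0 - p‖ = ‖c0 - p‖) :
    ∃ m : E, m ≠ 0 ∧ ((∀ a b c : E, a ≠ b → ‖a - p‖ = ‖b - p‖ → ‖a - p‖ = ‖c - p‖ →
        a - b ∈ Submodule.span ℝ {a0 - b0} → b - c ∈ Submodule.span ℝ {b0 - c0} →
        c - a ∈ Submodule.span ℝ {c0 - a0} →
        inner ℝ m (a - p) = 0 ∧ inner ℝ m (b - p) ≠ 0) ∨
      (∀ a b c : E, a ≠ b → ‖a - p‖ = ‖b - p‖ → ‖a - p‖ = ‖c - p‖ →
        a - b ∈ Submodule.span ℝ {a0 - b0} → b - c ∈ Submodule.span ℝ {b0 - c0} →
        c - a ∈ Submodule.span ℝ {c0 - a0} →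
        inner ℝ m (a - p) = 0 ∧ inner ℝ m (c - p) ≠ 0)) := by
  obtain ⟨w1, hw1⟩ : ∃ w1, w1 = a0 - b0 := ⟨_, rfl⟩
  obtain ⟨w3, hw3⟩ : ∃ w3, w3 = c0 - a0 := ⟨_, rfl⟩
  obtain ⟨w2, hw2⟩ : ∃ w2, w2 = b0 - c0 := ⟨_, rfl⟩
  have hsum : w1 + w2 + w3 = 0 := by rw [hw1, hw2, hw3]; abel
  have n1 : w1 ≠ 0 := by rw [hw1]; exact sub_ne_zero.mpr hab
  have n2 : w2 ≠ 0 := by rw [hw2]; exact sub_ne_zero.mpr hbc
  have n3 : w3 ≠ 0 := by rw [hw3]; exact sub_ne_zero.mpr hca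
  have q1 : ‖w1‖ ^ 2 ≠ 0 := by
    have : 0 < ‖w1‖ := norm_pos_iff.mpr n1
    positivity
  have q3 : ‖w3‖ ^ 2 ≠ 0 := by
    have : 0 < ‖w3‖ := norm_pos_iff.mpr n3
    positivity
  -- the two basic identities
  have id1 : ∀ (a b : E) (s : ℝ), s ≠ 0 → ‖a - p‖ = ‖b - p‖ → a - b = s • w1 →
      2 * inner ℝ (a - p) w1 = s * ‖w1‖ ^ 2 := by
    intro a b s hs h hab'
    have e1 : b - p = (a - p) - s • w1 := by rw [← hab']; abel
    have e2 : ‖b - p‖ ^ 2 = ‖a - p‖ ^ 2 - 2 * (s * inner ℝ (a - p) w1) + s ^ 2 * ‖w1‖ ^ 2 := by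
      rw [e1, norm_sub_sq_real, real_inner_smul_right, norm_smul, mul_pow, Real.norm_eq_abs, sq_abs]
    rw [← h] at e2
    have e3 : s * (2 * inner ℝ (a - p) w1) = s * (s * ‖w1‖ ^ 2) := by linarith
    exact mul_left_cancel₀ hs e3
  have id3 : ∀ (a c : E) (s : ℝ), s ≠ 0 → ‖a - p‖ = ‖c - p‖ → c - a = s • w3 →
      2 * inner ℝ (a - p) w3 = - (s * ‖w3‖ ^ 2) := by
    intro a c s hs h hca'
    have e1 : c - p = (a - p) + s • w3 := by rw [← hca']; abel
    have e2 : ‖c - p‖ ^ 2 = ‖a - p‖ ^ 2 + 2 * (s * inner ℝ (a - p) w3) + s ^ 2 * ‖w3‖ ^ 2 := by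
      rw [e1, norm_add_sq_real, real_inner_smul_right, norm_smul, mul_pow, Real.norm_eq_abs, sq_abs]
    rw [← h] at e2
    have e3 : s * (2 * inner ℝ (a - p) w3) = s * (- (s * ‖w3‖ ^ 2)) := by linarith
    exact mul_left_cancel₀ hs e3
  -- independence
  have indep : ∀ α β : ℝ, α • w1 + β • w3 = 0 → α = 0 ∧ β = 0 := by
    intro α β h
    have i1 := id1 a0 b0 1 one_ne_zero h1 (by rw [one_smul, hw1])
    have i3 := id3 a0 c0 1 one_ne_zero h2 (by rw [one_smul, hw3])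
    by_cases hβ : β = 0
    · rw [hβ, zero_smul, add_zero] at h
      exact ⟨(smul_eq_zero.mp h).resolve_right n1, hβ⟩
    · exfalso
      obtain ⟨lam, hlam⟩ : ∃ lam : ℝ, w3 = lam • w1 := by
        refine ⟨-(α / β), ?_⟩
        have : β • w3 = -(α • w1) := by
          rw [eq_neg_iff_add_eq_zero, add_comm]; exact h
        have h5 : w3 = (1 / β) • (β • w3) := by
          rw [smul_smul, one_div, inv_mul_cancel₀ hβ, one_smul]
        rw [h5, this, smul_neg, smul_smul, neg_smul]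
        congr 2
        ring
      have hl0 : lam ≠ 0 := by
        intro h0
        rw [h0, zero_smul] at hlam
        exact n3 hlam
      rw [hlam, real_inner_smul_right, norm_smul, mul_pow, Real.norm_eq_abs, sq_abs] at i3
      have e1 : lam * (‖w1‖ ^ 2) * (1 + lam) = 0 := by
        have : 2 * (lam * inner ℝ (a0 - p) w1) = lam * (2 * inner ℝ (a0 - p) w1) := by ring
        rw [this, i1] at i3
        linarith
      rcases mul_eq_zero.mp e1 with h6 | h6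
      · rcases mul_eq_zero.mp h6 with h7 | h7
        · exact hl0 h7
        · exact q1 h7
      · have h7 : lam = -1 := by linarith
        apply n2
        rw [hlam, h7, neg_smul, one_smul] at hsum
        have : w1 + w2 + -w1 = w2 := by abel
        rw [this] at hsum
        exact hsum
  -- the common scale
  have scale : ∀ a b c : E, a ≠ b → a - b ∈ Submodule.span ℝ {a0 - b0} →
      b - c ∈ Submodule.span ℝ {b0 - c0} → c - a ∈ Submodule.span ℝ {c0 - a0} →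
      ∃ s : ℝ, s ≠ 0 ∧ a - b = s • w1 ∧ c - a = s • w3 := by
    intro a b c hne ha hb hc
    obtain ⟨s1, hs1⟩ := Submodule.mem_span_singleton.mp ha
    obtain ⟨s2, hs2⟩ := Submodule.mem_span_singleton.mp hb
    obtain ⟨s3, hs3⟩ := Submodule.mem_span_singleton.mp hc
    rw [← hw1] at hs1
    rw [← hw2] at hs2
    rw [← hw3] at hs3
    have e1 : s1 • w1 + s2 • w2 + s3 • w3 = 0 := by rw [hs1, hs2, hs3]; abel
    have e2 : w2 = -w1 - w3 := by
      have : w1 + w2 + w3 = 0 := hsum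
      have h5 : w2 = (w1 + w2 + w3) - w1 - w3 := by abel
      rw [h5, this]; abel
    rw [e2] at e1
    have e3 : (s1 - s2) • w1 + (s3 - s2) • w3 = 0 := by
      rw [← e1, smul_sub, smul_neg, sub_smul, sub_smul]
      abel
    obtain ⟨e4, e5⟩ := indep _ _ e3
    have e6 : s1 = s2 := by linarith
    have e7 : s3 = s2 := by linarith
    refine ⟨s2, ?_, by rw [← hs1, e6], by rw [← hs3, e7]⟩
    intro h0
    rw [e6, h0, zero_smul] at hs1
    exact hne (sub_eq_zero.mp hs1.symm)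
  obtain ⟨m, hm⟩ : ∃ m : E, m = (1 / ‖w1‖ ^ 2) • w1 + (1 / ‖w3‖ ^ 2) • w3 := ⟨_, rfl⟩
  have hm0 : m ≠ 0 := by
    intro h0
    rw [hm] at h0
    have := (indep _ _ h0).1
    exact q1 (by
      have h5 := this
      rw [one_div, inv_eq_zero] at h5
      exact h5)
  have hma : ∀ a b c : E, a ≠ b → ‖a - p‖ = ‖b - p‖ → ‖a - p‖ = ‖c - p‖ →
        a - b ∈ Submodule.span ℝ {a0 - b0} → b - c ∈ Submodule.span ℝ {b0 - c0} →
        c - a ∈ Submodule.span ℝ {c0 - a0} → ∃ s : ℝ, s ≠ 0 ∧ inner ℝ m (a - p) = 0 ∧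
          inner ℝ m (b - p) = -(s * (1 + inner ℝ w1 w3 / ‖w3‖ ^ 2)) ∧
          inner ℝ m (c - p) = s * (1 + inner ℝ w1 w3 / ‖w1‖ ^ 2) := by
    intro a b c hne e1 e2 m1 m2 m3
    obtain ⟨s, hs, t1, t3⟩ := scale a b c hne m1 m2 m3
    have i1 := id1 a b s hs e1 t1
    have i3 := id3 a c s hs e2 t3
    have hz : inner ℝ m (a - p) = 0 := by
      rw [hm, inner_add_left, real_inner_smul_left, real_inner_smul_left,
        real_inner_comm (a - p) w1, real_inner_comm (a - p) w3]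
      have i1' : inner ℝ (a - p) w1 = s * ‖w1‖ ^ 2 / 2 := by linarith
      have i3' : inner ℝ (a - p) w3 = -(s * ‖w3‖ ^ 2 / 2) := by linarith
      rw [i1', i3']
      field_simp
      ring
    have k1 : inner ℝ m w1 = 1 + inner ℝ w1 w3 / ‖w3‖ ^ 2 := by
      rw [hm, inner_add_left, real_inner_smul_left, real_inner_smul_left,
        real_inner_self_eq_norm_sq, real_inner_comm w1 w3]
      field_simp
    have k3 : inner ℝ m w3 = 1 + inner ℝ w1 w3 / ‖w1‖ ^ 2 := by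
      rw [hm, inner_add_left, real_inner_smul_left, real_inner_smul_left,
        real_inner_self_eq_norm_sq]
      field_simp
      ring
    refine ⟨s, hs, hz, ?_, ?_⟩
    · rw [show b - p = (a - p) - (a - b) by abel, t1, inner_sub_right, hz, real_inner_smul_right, k1]
      ring
    · rw [show c - p = (a - p) + (c - a) by abel, t3, inner_add_right, hz, real_inner_smul_right, k3]
      ring
  refine ⟨m, hm0, ?_⟩
  by_cases hcase : 1 + inner ℝ w1 w3 / ‖w3‖ ^ 2 = 0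
  · right
    have hc2 : 1 + inner ℝ w1 w3 / ‖w1‖ ^ 2 ≠ 0 := by
      intro h5
      have e1 : inner ℝ w1 w3 = -‖w3‖ ^ 2 := by
        field_simp at hcase
        linarith
      have e2 : inner ℝ w1 w3 = -‖w1‖ ^ 2 := by
        field_simp at h5
        linarith
      apply n2
      have e3 : ‖w2‖ ^ 2 = 0 := by
        have h6 : w2 = -(w1 + w3) := by
          have h7 : w2 = (w1 + w2 + w3) - (w1 + w3) := by abel
          rw [h7, hsum, zero_sub]
        rw [h6, norm_neg, norm_add_sq_real]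
        linarith
      exact norm_eq_zero.mp (pow_eq_zero_iff (two_ne_zero)|>.mp e3)
    intro a b c hne e1 e2 m1 m2 m3
    obtain ⟨s, hs, z0, z1, z2⟩ := hma a b c hne e1 e2 m1 m2 m3
    refine ⟨z0, ?_⟩
    rw [z2]
    exact mul_ne_zero hs hc2
  · left
    intro a b c hne e1 e2 m1 m2 m3
    obtain ⟨s, hs, z0, z1, z2⟩ := hma a b c hne e1 e2 m1 m2 m3
    refine ⟨z0, ?_⟩
    rw [z1]
    exact neg_ne_zero.mpr (mul_ne_zero hs hcase)

/-! ### (A1) -/

theorem rf_sub_mem {d : ℕ} (w : EuclideanSpace ℝ (Fin d) × ℝ) (z : EuclideanSpace ℝ (Fin d)) :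
    z - rf w z ∈ Submodule.span ℝ {w.1} := by
  unfold rf
  rw [sub_sub_cancel]
  exact Submodule.smul_mem _ _ (Submodule.mem_span_singleton_self _)

theorem norm_rf {d : ℕ} (w : EuclideanSpace ℝ (Fin d) × ℝ) (p z : EuclideanSpace ℝ (Fin d))
    (h : w ∈ hyp p) : ‖rf w z - p‖ = ‖z - p‖ := by
  by_cases hw : w.1 = 0
  · unfold rf
    rw [hw, smul_zero, sub_zero]
  have h0 : ‖w.1‖ ^ 2 ≠ 0 := by
    have : 0 < ‖w.1‖ := norm_pos_iff.mpr hw
    positivity
  have h2 : 2 * inner ℝ w.1 p = w.2 := by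
    obtain ⟨u, c⟩ := w
    rw [mem_hyp] at h
    simp only
    rw [real_inner_comm]
    exact h
  have e1 : rf w z - p = rl w.1 (z - p) := by
    rw [rl_apply, inner_sub_right]
    unfold rf
    rw [← h2, mul_sub]
    abel
  rw [e1, rl_norm]

theorem span_rf {d : ℕ} (w : EuclideanSpace ℝ (Fin d) × ℝ) (a0 a : EuclideanSpace ℝ (Fin d))
    (h0 : a0 ≠ rf w a0) : a - rf w a ∈ Submodule.span ℝ {a0 - rf w a0} := by
  obtain ⟨s, hs⟩ := Submodule.mem_span_singleton.mp (rf_sub_mem w a)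
  obtain ⟨s0, hs0⟩ := Submodule.mem_span_singleton.mp (rf_sub_mem w a0)
  have hne : s0 ≠ 0 := by
    intro h
    rw [h, zero_smul] at hs0
    exact h0 (sub_eq_zero.mp hs0.symm)
  rw [Submodule.mem_span_singleton]
  refine ⟨s / s0, ?_⟩
  rw [← hs0, smul_smul, div_mul_cancel₀ _ hne, hs]

/-- (A1) triangle algebra -/
theorem refl_tri {d : ℕ} (p : EuclideanSpace ℝ (Fin d)) (w1 w2 w3 : EuclideanSpace ℝ (Fin d) × ℝ)
    (h1 : w1 ∈ hyp p) (h2 : w2 ∈ hyp p) (h3 : w3 ∈ hyp p) (n1 : w1 ≠ 0) :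
    ∃ m : EuclideanSpace ℝ (Fin d), m ≠ 0 ∧ ∃ w, (w = w1 ∨ w = w3) ∧
      ∀ a, a ≠ rf w1 a → rf w1 a ≠ rf w2 (rf w1 a) → rf w2 (rf w1 a) ≠ a →
        rf w3 a = rf w2 (rf w1 a) → inner ℝ m (a - p) = 0 ∧ inner ℝ m (rf w a - p) ≠ 0 := by
  by_cases hex : ∃ a, a ≠ rf w1 a ∧ rf w1 a ≠ rf w2 (rf w1 a) ∧ rf w2 (rf w1 a) ≠ a ∧
      rf w3 a = rf w2 (rf w1 a)
  · obtain ⟨a0, k1, k2, k3, k4⟩ := hex
    have k3' : a0 ≠ rf w3 a0 := by rw [k4]; exact k3.symm
    have k2' : rf w1 a0 ≠ rf w2 (rf w1 a0) := k2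
    obtain ⟨m, hm, hor⟩ := tri_plane p a0 (rf w1 a0) (rf w3 a0) k1 (by rw [k4]; exact k2) k3'.symm
      (norm_rf w1 p a0 h1).symm (norm_rf w3 p a0 h3).symm
    have hsp : ∀ a, a ≠ rf w1 a → rf w1 a ≠ rf w2 (rf w1 a) → rf w2 (rf w1 a) ≠ a →
        rf w3 a = rf w2 (rf w1 a) →
        a - rf w1 a ∈ Submodule.span ℝ {a0 - rf w1 a0} ∧
        rf w1 a - rf w3 a ∈ Submodule.span ℝ {rf w1 a0 - rf w3 a0} ∧
        rf w3 a - a ∈ Submodule.span ℝ {rf w3 a0 - a0} := by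
      intro a _ _ _ e4
      refine ⟨span_rf w1 a0 a k1, ?_, ?_⟩
      · rw [e4, k4]
        exact span_rf w2 (rf w1 a0) (rf w1 a) k2'
      · rw [← neg_sub a, ← neg_sub a0]
        have := span_rf w3 a0 a k3'
        rw [Submodule.mem_span_singleton] at this ⊢
        obtain ⟨c, hc⟩ := this
        exact ⟨c, by rw [smul_neg, hc]⟩
    refine ⟨m, hm, ?_⟩
    rcases hor with hor | hor
    · refine ⟨w1, Or.inl rfl, ?_⟩
      intro a e1 e2 e3 e4
      obtain ⟨s1, s2, s3⟩ := hsp a e1 e2 e3 e4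
      exact hor a (rf w1 a) (rf w3 a) e1 (norm_rf w1 p a h1).symm (norm_rf w3 p a h3).symm s1 s2 s3
    · refine ⟨w3, Or.inr rfl, ?_⟩
      intro a e1 e2 e3 e4
      obtain ⟨s1, s2, s3⟩ := hsp a e1 e2 e3 e4
      exact hor a (rf w1 a) (rf w3 a) e1 (norm_rf w1 p a h1).symm (norm_rf w3 p a h3).symm s1 s2 s3
  · refine ⟨w1.1, fst_ne_zero w1 p h1 n1, w1, Or.inl rfl, ?_⟩
    intro a e1 e2 e3 e4
    exact absurd ⟨a, e1, e2, e3, e4⟩ hex

/-! ### (A2), (A3) -/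

theorem rfp_eq_rf {d : ℕ} (w : EuclideanSpace ℝ (Fin d) × ℝ) (p z : EuclideanSpace ℝ (Fin d))
    (h : w ∈ hyp p) : rfp p w.1 z = rf w z := by
  have h2 : 2 * inner ℝ w.1 p = w.2 := by
    obtain ⟨u, c⟩ := w
    rw [mem_hyp] at h
    simp only
    rw [real_inner_comm]
    exact h
  unfold rfp rf
  rw [rl_apply, inner_sub_right, ← h2, mul_sub]
  abel

theorem exists_hyp {d : ℕ} (w : EuclideanSpace ℝ (Fin d) × ℝ) (hw : w.1 ≠ 0) :
    ∃ p, w ∈ hyp p := by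
  have h0 : ‖w.1‖ ^ 2 ≠ 0 := by
    have : 0 < ‖w.1‖ := norm_pos_iff.mpr hw
    positivity
  refine ⟨(w.2 / (2 * ‖w.1‖ ^ 2)) • w.1, ?_⟩
  obtain ⟨u, c⟩ := w
  rw [mem_hyp]
  simp only at h0 ⊢
  rw [real_inner_smul_left, real_inner_self_eq_norm_sq]
  field_simp

theorem rl_rl {E : Type*} [NormedAddCommGroup E] [InnerProductSpace ℝ E] (ν v : E) :
    rl ν (rl ν v) = v := by
  rcases eq_or_ne ν 0 with h0 | h0
  · subst h0
    simp [rl_apply]
  · have hn : ‖ν‖ ^ 2 ≠ 0 := by positivity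
    rw [rl_apply, rl_apply, inner_sub_right, real_inner_smul_right, real_inner_self_eq_norm_sq,
      div_mul_cancel₀ _ hn]
    have : 2 * (inner ℝ ν v - 2 * inner ℝ ν v) / ‖ν‖ ^ 2 = -(2 * inner ℝ ν v / ‖ν‖ ^ 2) := by ring
    rw [this, neg_smul, sub_neg_eq_add, sub_add_cancel]

/-- the exchange of two flats: directions -/
theorem map_dir {d : ℕ} (F1 F2 : AffineSubspace ℝ (EuclideanSpace ℝ (Fin d)))
    (z0 : EuclideanSpace ℝ (Fin d)) (hz0 : z0 ∈ F1) (w : EuclideanSpace ℝ (Fin d) × ℝ)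
    (hw : w.1 ≠ 0) (hF : ∀ z, z ∈ F1 ↔ rf w z ∈ F2) :
    F1.direction.map (rl w.1) = F2.direction := by
  obtain ⟨p, hp⟩ := exists_hyp w hw
  have hy : rf w z0 ∈ F2 := (hF z0).mp hz0
  apply le_antisymm
  · rintro _ ⟨v, hv, rfl⟩
    have h1 : z0 + v ∈ F1 := by
      have := AffineSubspace.vadd_mem_of_mem_direction hv hz0
      rwa [vadd_eq_add, add_comm] at this
    have h2 := (hF _).mp h1
    have h3 := AffineSubspace.vsub_mem_direction h2 hy
    rw [vsub_eq_sub, ← rfp_eq_rf w p _ hp, ← rfp_eq_rf w p _ hp, rfp_sub, add_sub_cancel_left] at h3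
    exact h3
  · intro v hv
    have h1 : rf w z0 + v ∈ F2 := by
      have := AffineSubspace.vadd_mem_of_mem_direction hv hy
      rwa [vadd_eq_add, add_comm] at this
    have h2 : rf w (rf w z0 + v) ∈ F1 := by
      rw [hF, rf_rf]; exact h1
    have h3 := AffineSubspace.vsub_mem_direction h2 hz0
    have h4 : rf w (rf w z0 + v) - z0 = rl w.1 v := by
      have h5 : rf w (rf w z0 + v) - rf w (rf w z0) = rl w.1 v := by
        rw [← rfp_eq_rf w p _ hp, ← rfp_eq_rf w p (rf w z0) hp, rfp_sub, add_sub_cancel_left]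
      rw [rf_rf] at h5
      exact h5
    rw [vsub_eq_sub, h4] at h3
    exact ⟨_, h3, rl_rl _ _⟩

/-- (A2') two different flats are exchanged by at most two mirrors -/
theorem two_mirrors {d : ℕ} (F1 F2 : AffineSubspace ℝ (EuclideanSpace ℝ (Fin d))) (hne : F1 ≠ F2)
    (z0 : EuclideanSpace ℝ (Fin d)) (hz0 : z0 ∈ F1) :
    ∃ v1 v2 : EuclideanSpace ℝ (Fin d) × ℝ, ∀ w : EuclideanSpace ℝ (Fin d) × ℝ, w.1 ≠ 0 →
      (∀ z, z ∈ F1 ↔ rf w z ∈ F2) →
      (v1.1 ≠ 0 ∧ Submodule.span ℝ {w} = Submodule.span ℝ {v1}) ∨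
      (v2.1 ≠ 0 ∧ Submodule.span ℝ {w} = Submodule.span ℝ {v2}) := by
  by_cases hex : ∃ w : EuclideanSpace ℝ (Fin d) × ℝ, w.1 ≠ 0 ∧ ∀ z, z ∈ F1 ↔ rf w z ∈ F2
  swap
  · refine ⟨0, 0, ?_⟩
    intro w hw hF
    exact absurd ⟨w, hw, hF⟩ hex
  obtain ⟨w0, hw0, hF0⟩ := hex
  -- a point of `F1` outside `F2`
  obtain ⟨f1, hf1, hf2⟩ : ∃ f1, f1 ∈ F1 ∧ f1 ∉ F2 := by
    by_contra hcon
    push Not at hcon
    apply hne
    apply le_antisymm
    · intro z hz; exact hcon z hz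
    · intro z hz
      have h1 : rf w0 z ∈ F1 := by rw [hF0, rf_rf]; exact hz
      exact (hF0 z).mpr (hcon _ h1)
  have hg2 : rf w0 f1 ∈ F2 := (hF0 f1).mp hf1
  have hdir0 := map_dir F1 F2 f1 hf1 w0 hw0 hF0
  have hdim : Module.finrank ℝ F1.direction = Module.finrank ℝ F2.direction := by
    rw [← hdir0]
    have hinj : Function.Injective (rl w0.1) := by
      intro a b hab
      rw [← rl_rl w0.1 a, hab, rl_rl]
    exact (LinearEquiv.finrank_eq (Submodule.equivMapOfInjective _ hinj _))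
  have hf : f1 - rf w0 f1 ∉ F2.direction := by
    intro h
    apply hf2
    have h3 := AffineSubspace.vadd_mem_of_mem_direction h hg2
    rwa [vadd_eq_add, sub_add_cancel] at h3
  obtain ⟨y1, y2, hy⟩ := swap_two hdim f1 (rf w0 f1) hf
  -- the mirror is determined by the image of `f1`
  have hdet : ∀ w : EuclideanSpace ℝ (Fin d) × ℝ, w.1 ≠ 0 → (∀ z, z ∈ F1 ↔ rf w z ∈ F2) →
      ∀ y, rf w f1 = y → (dualVec (f1, y)).1 ≠ 0 ∧
        Submodule.span ℝ {w} = Submodule.span ℝ {dualVec (f1, y)} := by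
    intro w hw hF y hwy
    have hn : ‖w.1‖ ^ 2 ≠ 0 := by
      have : 0 < ‖w.1‖ := norm_pos_iff.mpr hw
      positivity
    have hyF : y ∈ F2 := by rw [← hwy]; exact (hF f1).mp hf1
    have hne' : f1 ≠ y := by
      intro h; exact hf2 (by rw [h]; exact hyF)
    obtain ⟨c, hc⟩ : ∃ c : ℝ, c = (2 * inner ℝ w.1 f1 - w.2) / ‖w.1‖ ^ 2 := ⟨_, rfl⟩
    have e1 : f1 - y = c • w.1 := by
      rw [← hwy]
      unfold rf
      rw [sub_sub_cancel, hc]
    have hc0 : c ≠ 0 := by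
      intro h
      rw [h, zero_smul] at e1
      exact hne' (sub_eq_zero.mp e1)
    have e2 : ‖f1‖ ^ 2 - ‖y‖ ^ 2 = c * w.2 := by
      have e3 : y = f1 - c • w.1 := by rw [← e1]; abel
      rw [e3, norm_sub_sq_real, real_inner_smul_right, norm_smul, mul_pow, Real.norm_eq_abs,
        sq_abs, real_inner_comm w.1 f1]
      have e4 : c * ‖w.1‖ ^ 2 = 2 * inner ℝ w.1 f1 - w.2 := by
        rw [hc, div_mul_cancel₀ _ hn]
      have e5 : c ^ 2 * ‖w.1‖ ^ 2 = c * (2 * inner ℝ w.1 f1 - w.2) := by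
        rw [← e4]; ring
      rw [e5]; ring
    have e6 : dualVec (f1, y) = c • w := by
      unfold dualVec
      simp only
      rw [e1, e2]
      rfl
    refine ⟨?_, ?_⟩
    · rw [e6, Prod.smul_fst]
      exact smul_ne_zero hc0 hw
    · rw [e6]
      exact (Submodule.span_singleton_smul_eq (IsUnit.mk0 c hc0) w).symm
  refine ⟨dualVec (f1, y1), dualVec (f1, y2), ?_⟩
  intro w hw hF
  obtain ⟨p, hp⟩ := exists_hyp w hw
  have hdir := map_dir F1 F2 f1 hf1 w hw hF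
  have hm : rfp p w.1 f1 - rf w0 f1 ∈ F2.direction := by
    rw [rfp_eq_rf w p _ hp]
    have := AffineSubspace.vsub_mem_direction ((hF f1).mp hf1) hg2
    rwa [vsub_eq_sub] at this
  rcases hy p w.1 hdir hm with h | h
  · left
    rw [rfp_eq_rf w p _ hp] at h
    exact hdet w hw hF _ h
  · right
    rw [rfp_eq_rf w p _ hp] at h
    exact hdet w hw hF _ h

/-- (A2) -/
theorem three_mirrors {d : ℕ} (F1 F2 : AffineSubspace ℝ (EuclideanSpace ℝ (Fin d))) (hne : F1 ≠ F2)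
    (z0 : EuclideanSpace ℝ (Fin d)) (hz0 : z0 ∈ F1) (w1 w2 w3 : EuclideanSpace ℝ (Fin d) × ℝ)
    (n1 : w1.1 ≠ 0) (n2 : w2.1 ≠ 0) (n3 : w3.1 ≠ 0) (h1 : ∀ z, z ∈ F1 ↔ rf w1 z ∈ F2)
    (h2 : ∀ z, z ∈ F1 ↔ rf w2 z ∈ F2) (h3 : ∀ z, z ∈ F1 ↔ rf w3 z ∈ F2) :
    Submodule.span ℝ {w1} = Submodule.span ℝ {w2} ∨ Submodule.span ℝ {w1} = Submodule.span ℝ {w3} ∨
      Submodule.span ℝ {w2} = Submodule.span ℝ {w3} := by
  obtain ⟨v1, v2, hv⟩ := two_mirrors F1 F2 hne z0 hz0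
  rcases hv w1 n1 h1 with ⟨_, a1⟩ | ⟨_, a1⟩ <;> rcases hv w2 n2 h2 with ⟨_, a2⟩ | ⟨_, a2⟩ <;>
    rcases hv w3 n3 h3 with ⟨_, a3⟩ | ⟨_, a3⟩
  all_goals
    first
    | exact Or.inl (a1.trans a2.symm)
    | exact Or.inr (Or.inl (a1.trans a3.symm))
    | exact Or.inr (Or.inr (a2.trans a3.symm))

open scoped Classical in
/-- (A3) the centres that see two different flats exchanged -/
theorem swap_count {d : ℕ} (P : Finset (EuclideanSpace ℝ (Fin d))) (g : ℕ)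
    (hg : ∀ w : EuclideanSpace ℝ (Fin d) × ℝ, w.1 ≠ 0 → (P.filter (fun p => w ∈ hyp p)).card ≤ g)
    (F1 F2 : AffineSubspace ℝ (EuclideanSpace ℝ (Fin d))) (hne : F1 ≠ F2)
    (z0 : EuclideanSpace ℝ (Fin d)) (hz0 : z0 ∈ F1) :
    (P.filter (fun p => ∃ w ∈ hyp p, w.1 ≠ 0 ∧ ∀ z, z ∈ F1 ↔ rf w z ∈ F2)).card ≤ 2 * g := by
  obtain ⟨v1, v2, hv⟩ := two_mirrors F1 F2 hne z0 hz0
  have hb : ∀ v : EuclideanSpace ℝ (Fin d) × ℝ,
      (P.filter (fun p => v.1 ≠ 0 ∧ v ∈ hyp p)).card ≤ g := by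
    intro v
    by_cases h0 : v.1 = 0
    · have : P.filter (fun p => v.1 ≠ 0 ∧ v ∈ hyp p) = ∅ := by
        apply Finset.filter_eq_empty_iff.mpr
        intro p _ h
        exact h.1 h0
      rw [this, Finset.card_empty]
      exact Nat.zero_le _
    · refine (Finset.card_le_card ?_).trans (hg v h0)
      intro p hp
      rw [Finset.mem_filter] at hp ⊢
      exact ⟨hp.1, hp.2.2⟩
  have hsub : P.filter (fun p => ∃ w ∈ hyp p, w.1 ≠ 0 ∧ ∀ z, z ∈ F1 ↔ rf w z ∈ F2) ⊆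
      P.filter (fun p => v1.1 ≠ 0 ∧ v1 ∈ hyp p) ∪ P.filter (fun p => v2.1 ≠ 0 ∧ v2 ∈ hyp p) := by
    intro p hp
    rw [Finset.mem_filter] at hp
    obtain ⟨hpP, w, hw, hw1, hF⟩ := hp
    rw [Finset.mem_union, Finset.mem_filter, Finset.mem_filter]
    have hmem : ∀ v : EuclideanSpace ℝ (Fin d) × ℝ,
        Submodule.span ℝ {w} = Submodule.span ℝ {v} → v ∈ hyp p := by
      intro v hv
      have h1 : v ∈ Submodule.span ℝ {w} := by
        rw [hv]; exact Submodule.mem_span_singleton_self _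
      exact (Submodule.span_singleton_le_iff_mem w (hyp p)).mpr hw h1
    rcases hv w hw1 hF with ⟨a, b⟩ | ⟨a, b⟩
    · left; exact ⟨hpP, a, hmem _ b⟩
    · right; exact ⟨hpP, a, hmem _ b⟩
  refine (Finset.card_le_card hsub).trans ((Finset.card_union_le _ _).trans ?_)
  have h1 := hb v1
  have h2 := hb v2
  omega

end Vale.Agent.P054G
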