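import Vale.Agent.P054.MathlibUsed
import Vale.Agent.P054.Bdl.B2
import Vale.Agent.P054.H438.G.Rob2
attribute [-instance] ProperSMul.toContinuousSMul IsTopologicalTorsor.toContinuousSMul IdemSemiring.toCanonicallyOrderedAdd IdemSemiring.toMulLeftMono IdemSemiring.toMulRightMono AddQuantale.instAddLeftMono AddQuantale.instAddRightMono Quantale.instMulLeftMono Quantale.instMulRightMono FiniteDimensional.rclike_to_real IsScalarTower.complexToReal FiniteDimensional.complexToReal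

set_option linter.all false
set_option autoImplicit false

open Finset

/-! P054, Theorem G: the number of robust flats by the Elekes-Toth theorem. -/

namespace Vale.Agent.P054G

open Vale.Agent.P054K

/-- `U` contains a set of at least `ρ` points of `X` with at most half of it on any proper
subflat -/
def RobB {d : ℕ} (X : Finset (EuclideanSpace ℝ (Fin d))) (ρ : ℝ)
    (U : Submodule ℝ (EuclideanSpace ℝ (Fin d) × ℝ)) : Prop :=
  ∃ A ⊆ X, (∀ a ∈ A, lf a ∈ U) ∧ ρ ≤ A.card ∧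
    ∀ B : Submodule ℝ (EuclideanSpace ℝ (Fin d) × ℝ), B < U → 2 * mass A lf B ≤ A.card

theorem RobB.mono {d : ℕ} {A X : Finset (EuclideanSpace ℝ (Fin d))} {ρ ρ' : ℝ}
    {U : Submodule ℝ (EuclideanSpace ℝ (Fin d) × ℝ)} (hU : RobB A ρ U) (h : A ⊆ X)
    (hρ : ρ' ≤ ρ) : RobB X ρ' U := by
  obtain ⟨A', h1, h2, h3, h4⟩ := hU
  exact ⟨A', h1.trans h, h2, hρ.trans h3, h4⟩

open scoped Classical in
/-- extension: the robust flats through a given flat -/
theorem robA_ext {d : ℕ} (X : Finset (EuclideanSpace ℝ (Fin d))) (ρ : ℝ) (hρ : 0 < ρ) (k : ℕ) :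
    ∀ (G : Submodule ℝ (EuclideanSpace ℝ (Fin d) × ℝ)) (r : ℕ)
      (N : Finset (Submodule ℝ (EuclideanSpace ℝ (Fin d) × ℝ))),
      Module.finrank ℝ G + k = r → (∀ U ∈ N, Module.finrank ℝ U = r ∧ G ≤ U ∧ RobB X ρ U) →
      (N.card : ℝ) ≤ (2 * X.card / ρ) ^ k := by
  induction k with
  | zero =>
    intro G r N hr hN
    rw [pow_zero]
    have : N.card ≤ 1 := by
      rw [card_le_one]
      intro U hU U' hU'
      have h1 := hN U hU
      have h2 := hN U' hU'
      have e1 : G = U := Submodule.eq_of_le_of_finrank_eq h1.2.1 (by rw [h1.1]; omega)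
      have e2 : G = U' := Submodule.eq_of_le_of_finrank_eq h2.2.1 (by rw [h2.1]; omega)
      rw [← e1, ← e2]
    exact_mod_cast this
  | succ k ih =>
    intro G r N hr hN
    -- the points outside `G`
    have h1 : ∀ a ∈ X.filter (fun a => lf a ∉ G),
        ((N.filter (fun U => lf a ∈ U)).card : ℝ) ≤ (2 * X.card / ρ) ^ k := by
      intro a ha
      rw [mem_filter] at ha
      have hfr : Module.finrank ℝ (G ⊔ Submodule.span ℝ {lf a} :
          Submodule ℝ (EuclideanSpace ℝ (Fin d) × ℝ)) = Module.finrank ℝ G + 1 := by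
        apply le_antisymm
        · have e1 := Submodule.finrank_add_le_finrank_add_finrank G (Submodule.span ℝ {lf a})
          have e2 : Module.finrank ℝ (Submodule.span ℝ {lf a}) ≤ 1 := by
            have := finrank_span_le_card (R := ℝ) ({lf a} : Set (EuclideanSpace ℝ (Fin d) × ℝ))
            simpa using this
          omega
        · have e1 : G < G ⊔ Submodule.span ℝ {lf a} := by
            refine lt_of_le_of_ne le_sup_left ?_
            intro h
            apply ha.2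
            rw [h]
            exact Submodule.mem_sup_right (Submodule.mem_span_singleton_self _)
          exact Submodule.finrank_lt_finrank_of_lt e1
      apply ih (G ⊔ Submodule.span ℝ {lf a}) r
      · omega
      · intro U hU
        rw [mem_filter] at hU
        have e1 := hN U hU.1
        refine ⟨e1.1, ?_, e1.2.2⟩
        rw [sup_le_iff, Submodule.span_singleton_le_iff_mem]
        exact ⟨e1.2.1, hU.2⟩
    have h2 : ∀ U ∈ N, ρ / 2 ≤ ((X.filter (fun a => lf a ∉ G)).filter (fun a => lf a ∈ U)).card := by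
      intro U hU
      obtain ⟨e1, e2, A, hAX, hAU, hAρ, hAB⟩ := hN U hU
      have hlt : G < U := by
        refine lt_of_le_of_ne e2 ?_
        intro h
        rw [h] at hr
        omega
      have e3 := hAB G hlt
      have e4 : (A.card : ℝ) = mass A lf G + (A.filter (fun a => lf a ∉ G)).card := by
        unfold mass
        exact_mod_cast (card_filter_add_card_filter_not (s := A) (fun a => lf a ∈ G)).symm
      have e5 : (A.filter (fun a => lf a ∉ G)).card ≤
          ((X.filter (fun a => lf a ∉ G)).filter (fun a => lf a ∈ U)).card := by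
        apply card_le_card
        intro a ha
        rw [mem_filter] at ha
        rw [mem_filter, mem_filter]
        exact ⟨⟨hAX ha.1, ha.2⟩, hAU a ha.1⟩
      have e6 : ((A.filter (fun a => lf a ∉ G)).card : ℝ) ≤
          ((X.filter (fun a => lf a ∉ G)).filter (fun a => lf a ∈ U)).card := by exact_mod_cast e5
      linarith
    have h3 : (N.card : ℝ) * (ρ / 2) ≤ X.card * (2 * X.card / ρ) ^ k := by
      calc (N.card : ℝ) * (ρ / 2) = ∑ U ∈ N, ρ / 2 := by rw [sum_const, nsmul_eq_mul]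
        _ ≤ ∑ U ∈ N, (((X.filter (fun a => lf a ∉ G)).filter (fun a => lf a ∈ U)).card : ℝ) :=
            sum_le_sum h2
        _ = ∑ a ∈ X.filter (fun a => lf a ∉ G), ((N.filter (fun U => lf a ∈ U)).card : ℝ) := by
            norm_cast
            simp only [card_filter]
            rw [sum_comm]
        _ ≤ ∑ a ∈ X.filter (fun a => lf a ∉ G), (2 * X.card / ρ) ^ k := sum_le_sum h1
        _ = (X.filter (fun a => lf a ∉ G)).card * (2 * X.card / ρ) ^ k := by
            rw [sum_const, nsmul_eq_mul]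
        _ ≤ X.card * (2 * X.card / ρ) ^ k := by
            apply mul_le_mul_of_nonneg_right _ (by positivity)
            exact_mod_cast card_filter_le _ _
    rw [pow_succ]
    have h4 : (N.card : ℝ) = ((N.card : ℝ) * (ρ / 2)) * (2 / ρ) := by field_simp
    rw [h4]
    calc ((N.card : ℝ) * (ρ / 2)) * (2 / ρ) ≤ (X.card * (2 * X.card / ρ) ^ k) * (2 / ρ) :=
          mul_le_mul_of_nonneg_right h3 (by positivity)
      _ = (2 * X.card / ρ) ^ k * (2 * X.card / ρ) := by ring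

theorem lf_ne_zero {d : ℕ} (z : EuclideanSpace ℝ (Fin d)) : lf z ≠ 0 := by
  intro h
  have := congrArg Prod.snd h
  unfold lf at this
  simp at this

theorem mass_le_one {d : ℕ} (A : Finset (EuclideanSpace ℝ (Fin d)))
    (U : Submodule ℝ (EuclideanSpace ℝ (Fin d) × ℝ)) (hU : Module.finrank ℝ U ≤ 1) :
    mass A lf U ≤ 1 := by
  classical
  unfold mass
  have : (A.filter (fun i => lf i ∈ U)).card ≤ 1 := by
    rw [card_le_one]
    intro a ha b hb
    rw [mem_filter] at ha hb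
    by_contra hab
    have hli : LinearIndependent ℝ ![lf a, lf b] := by
      rw [LinearIndependent.pair_iff]
      intro s t hst
      unfold lf at hst
      rw [Prod.smul_mk, Prod.smul_mk, Prod.mk_add_mk, Prod.mk_eq_zero] at hst
      obtain ⟨h1, h2⟩ := hst
      simp only [smul_eq_mul, mul_one] at h2
      have h3 : t = -s := by linarith
      rw [h3, neg_smul, ← sub_eq_add_neg, ← smul_sub, smul_eq_zero] at h1
      rcases h1 with h1 | h1
      · rw [h3, h1]; simp
      · exact absurd (sub_eq_zero.mp h1) hab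
    have h2 : Submodule.span ℝ (Set.range ![lf a, lf b]) ≤ U := by
      rw [Submodule.span_le]
      rintro _ ⟨i, rfl⟩
      fin_cases i
      · exact ha.2
      · exact hb.2
    have h3 := Submodule.finrank_mono h2
    rw [finrank_span_eq_card hli, Fintype.card_fin] at h3
    omega
  exact_mod_cast this

/-- a nondegenerate rich flat inside a rich flat -/
theorem nondeg_sub {d : ℕ} (X : Finset (EuclideanSpace ℝ (Fin d))) (FF : ℝ) (hFF : 1 ≤ FF)
    (U : Submodule ℝ (EuclideanSpace ℝ (Fin d) × ℝ)) (r : ℕ) (hr : Module.finrank ℝ U = r)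
    (hbig : FF ^ r < mass X lf U) :
    ∃ G : Submodule ℝ (EuclideanSpace ℝ (Fin d) × ℝ), G ≤ U ∧ 2 ≤ Module.finrank ℝ G ∧
      Module.finrank ℝ G ≤ r ∧ mass X lf U ≤ FF ^ r * mass X lf G ∧
      ∀ B : Submodule ℝ (EuclideanSpace ℝ (Fin d) × ℝ), B < G → FF * mass X lf B ≤ mass X lf G := by
  classical
  have hFF0 : 0 < FF := by linarith
  set Q : ℕ → Prop := fun r' => ∃ G : Submodule ℝ (EuclideanSpace ℝ (Fin d) × ℝ), G ≤ U ∧
    Module.finrank ℝ G = r' ∧ mass X lf U ≤ FF ^ (r - r') * mass X lf G with hQ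
  have hQ0 : Q r := ⟨U, le_rfl, hr, by rw [Nat.sub_self, pow_zero, one_mul]⟩
  have hex : ∃ r', Q r' := ⟨_, hQ0⟩
  obtain ⟨G, hGle, hGr, hGm⟩ := Nat.find_spec hex
  set r' := Nat.find hex with hr'
  have hr'r : r' ≤ r := Nat.find_min' hex hQ0
  have hmin : ∀ r'' < r', ¬ Q r'' := fun r'' h => Nat.find_min hex h
  have hmG : 0 ≤ mass X lf G := by unfold mass; positivity
  have hGm' : mass X lf U ≤ FF ^ r * mass X lf G := by
    refine hGm.trans (mul_le_mul_of_nonneg_right ?_ hmG)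
    exact pow_le_pow_right₀ hFF (Nat.sub_le _ _)
  refine ⟨G, hGle, ?_, ?_, hGm', ?_⟩
  · by_contra hcon
    have h1 := mass_le_one X G (by omega)
    have h2 : FF ^ r * mass X lf G ≤ FF ^ r * 1 := mul_le_mul_of_nonneg_left h1 (by positivity)
    linarith
  · rw [hGr]; exact hr'r
  · intro B hB
    have h1 : Module.finrank ℝ B < r' := by
      rw [← hGr]
      exact Submodule.finrank_lt_finrank_of_lt hB
    have h2 := hmin _ h1
    rw [hQ] at h2
    push Not at h2
    have h3 := h2 B (hB.le.trans hGle) rfl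
    have h4 : FF ^ (r - Module.finrank ℝ B) = FF ^ (r - r') * FF ^ (r' - Module.finrank ℝ B) := by
      rw [← pow_add]
      congr 1
      omega
    have h5 : FF ^ 1 ≤ FF ^ (r' - Module.finrank ℝ B) := pow_le_pow_right₀ hFF (by omega)
    have h6 : 0 < FF ^ (r - r') := by positivity
    have h7 : 0 ≤ mass X lf B := by unfold mass; positivity
    have h8 : FF ^ (r - r') * (FF ^ (r' - Module.finrank ℝ B) * mass X lf B) ≤
        FF ^ (r - r') * mass X lf G := by
      rw [← mul_assoc, ← h4]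
      exact (h3.trans_le hGm).le
    have h9 := le_of_mul_le_mul_left h8 h6
    calc FF * mass X lf B = FF ^ 1 * mass X lf B := by rw [pow_one]
      _ ≤ FF ^ (r' - Module.finrank ℝ B) * mass X lf B := mul_le_mul_of_nonneg_right h5 h7
      _ ≤ _ := h9

open scoped Classical in
/-- **the number of robust flats** -/
theorem robA_count (d : ℕ) : ∃ (K : ℝ) (c : ℕ), 1 ≤ K ∧
    ∀ (X : Finset (EuclideanSpace ℝ (Fin d))) (r : ℕ) (ρ l : ℝ)
      (N : Finset (Submodule ℝ (EuclideanSpace ℝ (Fin d) × ℝ))), 2 ≤ r → r ≤ d →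
      (∀ U ∈ N, Module.finrank ℝ U = r ∧ RobB X ρ U) →
      20 * (Real.log ((X.card : ℝ) + 3) + 1) ≤ l → K * l ^ c * X.card ≤ ρ ^ 2 → K * l ^ c ≤ ρ →
      (N.card : ℝ) ≤ K * l ^ c * ((X.card : ℝ) / ρ) ^ (r - 1) := by
  obtain ⟨K00, c0, hK00', hET0⟩ := et_uniform d
  obtain ⟨K0, hK0'⟩ : ∃ K0 : ℝ, K0 = 2 * K00 := ⟨_, rfl⟩
  have hK02 : 2 ≤ K0 := by linarith
  have hK0 : 1 ≤ K0 := by linarith
  have hET : ∀ w, 2 ≤ w → w ≤ d → ETProp w K0 c0 := fun w h1 h2 =>
    et_mono hK00' (by linarith) le_rfl (hET0 w h1 h2)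
  obtain ⟨K, hK⟩ : ∃ K : ℝ, K = d * (2 * K0 * (K0 ^ (2 * d)) ^ (d + 2) * 2 ^ d) + K0 ^ (2 * d + 2) :=
    ⟨_, rfl⟩
  obtain ⟨c, hc⟩ : ∃ c : ℕ, c = c0 + c0 * (2 * d) * (d + 2) + c0 * (2 * d + 2) := ⟨_, rfl⟩
  have hK00 : 0 < K0 := by linarith
  have hKge : K0 ^ (2 * d + 2) ≤ K := by
    rw [hK]
    have : 0 ≤ (d:ℝ) * (2 * K0 * (K0 ^ (2 * d)) ^ (d + 2) * 2 ^ d) := by positivity
    linarith
  refine ⟨K, c, le_trans (one_le_pow₀ hK0) hKge, ?_⟩
  intro X r ρ l N hr2 hrd hN hl hρ2 hρ1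
  rcases N.eq_empty_or_nonempty with hNe | hNne
  · rw [hNe, card_empty]
    have hlog : 0 ≤ Real.log ((X.card : ℝ) + 3) := Real.log_nonneg (by
      have : (0:ℝ) ≤ X.card := Nat.cast_nonneg _
      linarith)
    have hl1 : 0 ≤ l := by linarith
    have hKp : 0 < K := lt_of_lt_of_le (by positivity) hKge
    have hρ0 : 0 ≤ ρ := le_trans (by positivity) hρ1
    simp only [Nat.cast_zero]
    positivity
  have hlog : 0 ≤ Real.log ((X.card : ℝ) + 3) := Real.log_nonneg (by
    have : (0:ℝ) ≤ X.card := Nat.cast_nonneg _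
    linarith)
  have hl1 : 1 ≤ l := by linarith
  have hl0 : 0 < l := by linarith
  obtain ⟨FF, hFF⟩ : ∃ FF : ℝ, FF = K0 * l ^ c0 := ⟨_, rfl⟩
  have hFF1 : 1 ≤ FF := by
    rw [hFF]; exact one_le_mul_of_one_le_of_one_le hK0 (one_le_pow₀ hl1)
  have hFF2 : 2 ≤ FF := by
    rw [hFF]
    calc (2:ℝ) = 2 * 1 := by norm_num
      _ ≤ K0 * l ^ c0 := mul_le_mul hK02 (one_le_pow₀ hl1) (by norm_num) (by linarith)
  have hFF0 : 0 < FF := by linarith
  -- `FF ^ (2 d + 2) ≤ K l ^ c`
  have hKFF : FF ^ (2 * d + 2) ≤ K * l ^ c := by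
    rw [hFF, mul_pow, ← pow_mul]
    apply mul_le_mul hKge _ (by positivity) (le_trans (by positivity) hKge)
    apply pow_le_pow_right₀ hl1
    rw [hc]
    exact Nat.le_add_left _ _
  have hρ0 : 0 < ρ := lt_of_lt_of_le (by positivity) (hKFF.trans hρ1)
  obtain ⟨x, hx⟩ : ∃ x : ℝ, x = X.card := ⟨_, rfl⟩
  rw [← hx] at hρ2 hl ⊢
  -- `ρ ≤ x`
  have hρx : ρ ≤ x := by
    obtain ⟨U, hU⟩ := hNne
    obtain ⟨_, A, hAX, _, hAρ, _⟩ := hN U hU
    rw [hx]
    refine hAρ.trans ?_
    exact_mod_cast card_le_card hAX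
  have hx0 : 0 < x := by linarith
  obtain ⟨ρ1, hρ1'⟩ : ∃ ρ1 : ℝ, ρ1 = ρ / FF ^ d := ⟨_, rfl⟩
  have hρ10 : 0 < ρ1 := by rw [hρ1']; positivity
  -- choice of `G`
  have hch : ∀ U ∈ N, ∃ G : Submodule ℝ (EuclideanSpace ℝ (Fin d) × ℝ), G ≤ U ∧
      2 ≤ Module.finrank ℝ G ∧ Module.finrank ℝ G ≤ r ∧ ρ1 ≤ mass X lf G ∧
      ∀ B : Submodule ℝ (EuclideanSpace ℝ (Fin d) × ℝ), B < G → FF * mass X lf B ≤ mass X lf G := by
    intro U hU
    obtain ⟨e1, A, hAX, hAU, hAρ, hAB⟩ := hN U hU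
    have hmU : ρ ≤ mass X lf U := by
      refine hAρ.trans ?_
      unfold mass
      norm_cast
      apply card_le_card
      intro a ha
      rw [mem_filter]
      exact ⟨hAX ha, hAU a ha⟩
    have hFFr : FF ^ r ≤ FF ^ d := pow_le_pow_right₀ hFF1 hrd
    have hlt : FF ^ r < mass X lf U := by
      refine lt_of_lt_of_le ?_ hmU
      refine lt_of_lt_of_le ?_ (hKFF.trans hρ1)
      exact pow_lt_pow_right₀ (by linarith) (by omega)
    obtain ⟨G, g1, g2, g3, g4, g5⟩ := nondeg_sub X FF hFF1 U r e1 hlt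
    refine ⟨G, g1, g2, g3, ?_, g5⟩
    rw [hρ1', div_le_iff₀ (by positivity)]
    have hmG : 0 ≤ mass X lf G := by unfold mass; positivity
    calc ρ ≤ mass X lf U := hmU
      _ ≤ FF ^ r * mass X lf G := g4
      _ ≤ FF ^ d * mass X lf G := mul_le_mul_of_nonneg_right hFFr hmG
      _ = mass X lf G * FF ^ d := mul_comm _ _
  choose! Gf hGf using hch
  -- the classes
  have hsplit : (N.card : ℝ) ≤ ∑ r1 ∈ Finset.Icc 2 r,
      ((N.filter (fun U => Module.finrank ℝ (Gf U) = r1)).card : ℝ) := by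
    have h1 : N = (Finset.Icc 2 r).biUnion (fun r1 => N.filter (fun U =>
        Module.finrank ℝ (Gf U) = r1)) := by
      ext U
      rw [mem_biUnion]
      constructor
      · intro hU
        have h2 := hGf U hU
        exact ⟨_, mem_Icc.mpr ⟨h2.2.1, h2.2.2.1⟩, mem_filter.mpr ⟨hU, rfl⟩⟩
      · rintro ⟨_, _, hU⟩
        exact (mem_filter.mp hU).1
    have h2 : N.card ≤ ∑ r1 ∈ Finset.Icc 2 r,
        (N.filter (fun U => Module.finrank ℝ (Gf U) = r1)).card := by
      conv_lhs => rw [h1]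
      exact card_biUnion_le
    exact_mod_cast h2
  have hkey : ∀ r1 ∈ Finset.Icc 2 r,
      ((N.filter (fun U => Module.finrank ℝ (Gf U) = r1)).card : ℝ) ≤
        (2 * FF * (FF ^ d) ^ (d + 2) * 2 ^ d) * (x / ρ) ^ (r - 1) := by
    intro r1 hr1
    rw [mem_Icc] at hr1
    obtain ⟨hr12, hr1r⟩ := hr1
    obtain ⟨N1, hN1⟩ : ∃ N1 : Finset (Submodule ℝ (EuclideanSpace ℝ (Fin d) × ℝ)),
      N1 = N.filter (fun U => Module.finrank ℝ (Gf U) = r1) := ⟨_, rfl⟩
    rw [← hN1]
    have hN1' : ∀ U ∈ N1, U ∈ N ∧ Module.finrank ℝ (Gf U) = r1 := by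
      intro U hU
      rw [hN1] at hU
      exact mem_filter.mp hU
    -- the number of `G`
    have hZ := hET r1 hr12 (by omega) (EuclideanSpace ℝ (Fin d) × ℝ) (EuclideanSpace ℝ (Fin d)) X
      lf 1 x ρ1 l (N1.image Gf) (fun i _ => lf_ne_zero i) (by
        intro i _
        apply mass_le_one
        have := finrank_span_le_card (R := ℝ) ({lf i} : Set (EuclideanSpace ℝ (Fin d) × ℝ))
        simpa using this) one_pos hx.ge hl (by
        rw [mul_one, ← hFF, hρ1', le_div_iff₀ (by positivity), ← pow_succ']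
        refine le_trans (pow_le_pow_right₀ hFF1 (by omega)) (hKFF.trans hρ1)) (by
        intro G hG
        rw [mem_image] at hG
        obtain ⟨U, hU, rfl⟩ := hG
        obtain ⟨hUN, hUr⟩ := hN1' U hU
        have h2 := hGf U hUN
        refine ⟨hUr, h2.2.2.2.1, ?_⟩
        intro B hB
        rw [← hFF]
        exact h2.2.2.2.2 B hB)
    rw [← hFF, mul_one] at hZ
    have hxρ1 : 1 ≤ x / ρ1 := by
      rw [le_div_iff₀ hρ10, one_mul, hρ1']
      refine le_trans (div_le_self hρ0.le (one_le_pow₀ hFF1)) hρx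
    have hZ2 : ((N1.image Gf).card : ℝ) ≤ 2 * FF * (x / ρ1) ^ (r1 - 1) := by
      refine hZ.trans ?_
      have e1 : x ^ r1 / ρ1 ^ (r1 + 1) ≤ (x / ρ1) ^ (r1 - 1) := by
        obtain ⟨k, hk⟩ : ∃ k, r1 = k + 1 := ⟨r1 - 1, by omega⟩
        rw [hk, Nat.add_sub_cancel, div_pow]
        rw [div_le_div_iff₀ (by positivity) (by positivity)]
        have e2 : x ≤ ρ1 ^ 2 := by
          rw [hρ1', div_pow, le_div_iff₀ (by positivity), ← pow_mul]
          calc x * FF ^ (d * 2) ≤ x * FF ^ (2 * d + 2) :=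
                mul_le_mul_of_nonneg_left (pow_le_pow_right₀ hFF1 (by omega)) hx0.le
            _ ≤ x * (K * l ^ c) := mul_le_mul_of_nonneg_left hKFF hx0.le
            _ = K * l ^ c * x := mul_comm _ _
            _ ≤ ρ ^ 2 := hρ2
        calc x ^ (k + 1) * ρ1 ^ k = x ^ k * ρ1 ^ k * x := by ring
          _ ≤ x ^ k * ρ1 ^ k * ρ1 ^ 2 := mul_le_mul_of_nonneg_left e2 (by positivity)
          _ = x ^ k * ρ1 ^ (k + 1 + 1) := by ring
      have e3 : x ^ (r1 - 1) / ρ1 ^ (r1 - 1) = (x / ρ1) ^ (r1 - 1) := by rw [div_pow]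
      rw [e3]
      calc FF * (x ^ r1 / ρ1 ^ (r1 + 1) + (x / ρ1) ^ (r1 - 1)) ≤
            FF * ((x / ρ1) ^ (r1 - 1) + (x / ρ1) ^ (r1 - 1)) :=
            mul_le_mul_of_nonneg_left (by linarith) hFF0.le
        _ = 2 * FF * (x / ρ1) ^ (r1 - 1) := by ring
    -- the flats over one `G`
    have hfib : ∀ G ∈ N1.image Gf, ((N1.filter (fun U => Gf U = G)).card : ℝ) ≤
        (2 * x / ρ) ^ (r - r1) := by
      intro G hG
      rw [mem_image] at hG
      obtain ⟨U0, hU0, hGU0⟩ := hG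
      have hGr := (hN1' U0 hU0).2
      rw [hGU0] at hGr
      rw [hx]
      apply robA_ext X ρ hρ0 (r - r1) G r
      · omega
      · intro U hU
        rw [mem_filter] at hU
        have h2 := hN1' U hU.1
        refine ⟨(hN U h2.1).1, ?_, (hN U h2.1).2⟩
        rw [← hU.2]
        exact (hGf U h2.1).1
    have hcount : (N1.card : ℝ) ≤ ((N1.image Gf).card : ℝ) * (2 * x / ρ) ^ (r - r1) := by
      rw [card_eq_sum_card_image Gf N1]
      push_cast
      calc ∑ G ∈ N1.image Gf, ((N1.filter (fun U => Gf U = G)).card : ℝ) ≤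
            ∑ _G ∈ N1.image Gf, (2 * x / ρ) ^ (r - r1) := sum_le_sum hfib
        _ = _ := by rw [sum_const, nsmul_eq_mul]
    have hxρ : 1 ≤ x / ρ := by rw [le_div_iff₀ hρ0, one_mul]; exact hρx
    have e4 : (x / ρ1) ^ (r1 - 1) ≤ (FF ^ d) ^ (d + 2) * (x / ρ) ^ (r1 - 1) := by
      have : x / ρ1 = FF ^ d * (x / ρ) := by rw [hρ1']; field_simp
      rw [this, mul_pow]
      apply mul_le_mul_of_nonneg_right _ (by positivity)
      exact pow_le_pow_right₀ (one_le_pow₀ hFF1) (by omega)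
    have e5 : (2 * x / ρ) ^ (r - r1) ≤ 2 ^ d * (x / ρ) ^ (r - r1) := by
      rw [mul_div_assoc, mul_pow]
      apply mul_le_mul_of_nonneg_right _ (by positivity)
      exact pow_le_pow_right₀ (by norm_num) (by omega)
    calc (N1.card : ℝ) ≤ ((N1.image Gf).card : ℝ) * (2 * x / ρ) ^ (r - r1) := hcount
      _ ≤ (2 * FF * (x / ρ1) ^ (r1 - 1)) * (2 * x / ρ) ^ (r - r1) :=
          mul_le_mul_of_nonneg_right hZ2 (by positivity)
      _ ≤ (2 * FF * ((FF ^ d) ^ (d + 2) * (x / ρ) ^ (r1 - 1))) * (2 ^ d * (x / ρ) ^ (r - r1)) := by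
          apply mul_le_mul _ e5 (by positivity) (by positivity)
          exact mul_le_mul_of_nonneg_left e4 (by positivity)
      _ = (2 * FF * (FF ^ d) ^ (d + 2) * 2 ^ d) * ((x / ρ) ^ (r1 - 1) * (x / ρ) ^ (r - r1)) := by
          ring
      _ = (2 * FF * (FF ^ d) ^ (d + 2) * 2 ^ d) * (x / ρ) ^ (r - 1) := by
          rw [← pow_add]
          congr 2
          omega
  have hsum : (N.card : ℝ) ≤ d * ((2 * FF * (FF ^ d) ^ (d + 2) * 2 ^ d) * (x / ρ) ^ (r - 1)) := by
    refine hsplit.trans ((sum_le_sum hkey).trans ?_)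
    rw [sum_const, nsmul_eq_mul]
    apply mul_le_mul_of_nonneg_right _ (by positivity)
    rw [Nat.card_Icc]
    exact_mod_cast (by omega : r + 1 - 2 ≤ d)
  refine hsum.trans ?_
  rw [← mul_assoc]
  apply mul_le_mul_of_nonneg_right _ (by positivity)
  -- the constant
  have e6 : (d:ℝ) * (2 * FF * (FF ^ d) ^ (d + 2) * 2 ^ d) =
      (d * (2 * K0 * (K0 ^ d) ^ (d + 2) * 2 ^ d)) * (l ^ c0 * (l ^ (c0 * d)) ^ (d + 2)) := by
    rw [hFF, mul_pow, ← pow_mul l, mul_pow]
    ring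
  rw [e6]
  have e7 : (d:ℝ) * (2 * K0 * (K0 ^ d) ^ (d + 2) * 2 ^ d) ≤ K := by
    rw [hK]
    have h1 : K0 ^ d ≤ K0 ^ (2 * d) := pow_le_pow_right₀ hK0 (by omega)
    have h2 : (K0 ^ d) ^ (d + 2) ≤ (K0 ^ (2 * d)) ^ (d + 2) := pow_le_pow_left₀ (by positivity) h1 _
    have h3 : (d:ℝ) * (2 * K0 * (K0 ^ d) ^ (d + 2) * 2 ^ d) ≤
        d * (2 * K0 * (K0 ^ (2 * d)) ^ (d + 2) * 2 ^ d) := by gcongr
    have h4 : 0 ≤ K0 ^ (2 * d + 2) := by positivity
    linarith
  have e8 : l ^ c0 * (l ^ (c0 * d)) ^ (d + 2) ≤ l ^ c := by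
    rw [← pow_mul, ← pow_add]
    apply pow_le_pow_right₀ hl1
    rw [hc]
    nlinarith [Nat.zero_le (c0 * d * (d + 2)), Nat.zero_le (c0 * (2 * d + 2))]
  exact mul_le_mul e7 e8 (by positivity) (le_trans (by positivity) hKge)

end Vale.Agent.P054G
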