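import Vale.Agent.P054.MathlibUsed
import Vale.Agent.P054.Bdl.B2
import Vale.Agent.P054.H343.G.RobET
attribute [-instance] ProperSMul.toContinuousSMul IsTopologicalTorsor.toContinuousSMul IdemSemiring.toCanonicallyOrderedAdd IdemSemiring.toMulLeftMono IdemSemiring.toMulRightMono AddQuantale.instAddLeftMono AddQuantale.instAddRightMono Quantale.instMulLeftMono Quantale.instMulRightMono FiniteDimensional.rclike_to_real IsScalarTower.complexToReal FiniteDimensional.complexToReal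

set_option linter.all false
set_option autoImplicit false

open Finset

/-! P054, Theorem G: the weighted number of robust flats. -/

namespace Vale.Agent.P054G

open Vale.Agent.P054K

theorem natlog_le (n : ℕ) (l : ℝ) (hl : 20 * (Real.log ((n : ℝ) + 3) + 1) ≤ l) :
    ((Nat.log 2 n + 1 : ℕ) : ℝ) ≤ l := by
  have hlog3 : 0 ≤ Real.log ((n : ℝ) + 3) := Real.log_nonneg (by
    have : (0:ℝ) ≤ n := Nat.cast_nonneg _
    linarith)
  rcases Nat.eq_zero_or_pos n with h0 | h0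
  · subst h0
    rw [Nat.log_zero_right]
    push_cast at *
    linarith
  · have h1 : 2 ^ Nat.log 2 n ≤ n := Nat.pow_log_le_self 2 (by omega)
    have h2 : ((2:ℝ)) ^ Nat.log 2 n ≤ n := by exact_mod_cast h1
    have h3 : Real.log ((2:ℝ) ^ Nat.log 2 n) ≤ Real.log ((n:ℝ) + 3) :=
      Real.log_le_log (by positivity) (by linarith)
    rw [Real.log_pow] at h3
    have h4 : (0.5:ℝ) ≤ Real.log 2 := by
      have := Real.log_two_gt_d9
      linarith
    have h5 : (0:ℝ) ≤ Nat.log 2 n := Nat.cast_nonneg _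
    have h6 : (Nat.log 2 n : ℝ) * 0.5 ≤ Nat.log 2 n * Real.log 2 := mul_le_mul_of_nonneg_left h4 h5
    push_cast
    linarith

open scoped Classical in
/-- total mass of the nondegenerate rich flats -/
theorem nondeg_sum {d : ℕ} {K0 : ℝ} {c0 : ℕ} (X : Finset (EuclideanSpace ℝ (Fin d))) (r1 : ℕ)
    (hr1 : 2 ≤ r1) (hET : ETProp r1 K0 c0) (ρ1 l FF : ℝ) (hFF : FF = K0 * l ^ c0) (hFF1 : 1 ≤ FF)
    (hl : 20 * (Real.log ((X.card : ℝ) + 3) + 1) ≤ l) (hρ1 : FF ≤ ρ1) (hx : (X.card : ℝ) ≤ ρ1 ^ 2)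
    (Z : Finset (Submodule ℝ (EuclideanSpace ℝ (Fin d) × ℝ)))
    (hZ : ∀ G ∈ Z, Module.finrank ℝ G = r1 ∧ ρ1 ≤ mass X lf G ∧
      ∀ B : Submodule ℝ (EuclideanSpace ℝ (Fin d) × ℝ), B < G → FF * mass X lf B ≤ mass X lf G) :
    ∑ G ∈ Z, mass X lf G ≤ l * (4 * FF * X.card * ((X.card : ℝ) / ρ1) ^ (r1 - 2)) := by
  obtain ⟨x, hx'⟩ : ∃ x : ℝ, x = X.card := ⟨_, rfl⟩
  rw [← hx'] at hx
  have hFF0 : 0 < FF := by linarith
  have hρ10 : 0 < ρ1 := by linarith
  have hx0 : 0 ≤ x := by rw [hx']; positivity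
  -- level of a flat
  obtain ⟨lv, hlv⟩ : ∃ lv : Submodule ℝ (EuclideanSpace ℝ (Fin d) × ℝ) → ℕ,
      lv = fun G => Nat.log 2 (X.filter (fun a => lf a ∈ G)).card := ⟨_, rfl⟩
  have hmassG : ∀ G, mass X lf G = ((X.filter (fun a => lf a ∈ G)).card : ℝ) := fun G => rfl
  have hlvle : ∀ G, lv G ∈ range (Nat.log 2 X.card + 1) := by
    intro G
    rw [mem_range, hlv]
    simp only
    have := Nat.log_mono_right (b := 2) (card_filter_le X (fun a => lf a ∈ G))
    omega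
  have hsplit : ∑ G ∈ Z, mass X lf G = ∑ j ∈ range (Nat.log 2 X.card + 1),
      ∑ G ∈ Z.filter (fun G => lv G = j), mass X lf G := by
    rw [Finset.sum_fiberwise_of_maps_to]
    intro G _
    exact hlvle G
  have hlev : ∀ j ∈ range (Nat.log 2 X.card + 1),
      ∑ G ∈ Z.filter (fun G => lv G = j), mass X lf G ≤
        4 * FF * x * (x / ρ1) ^ (r1 - 2) := by
    intro j _
    obtain ⟨ρ', hρ'⟩ : ∃ ρ' : ℝ, ρ' = max (2 ^ j) ρ1 := ⟨_, rfl⟩
    have hρ'1 : ρ1 ≤ ρ' := by rw [hρ']; exact le_max_right _ _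
    have hρ'2 : (2:ℝ) ^ j ≤ ρ' := by rw [hρ']; exact le_max_left _ _
    have hρ'0 : 0 < ρ' := by linarith
    have hZj : ∀ G ∈ Z.filter (fun G => lv G = j), Module.finrank ℝ G = r1 ∧ ρ' ≤ mass X lf G ∧
        mass X lf G ≤ 2 * ρ' ∧ ∀ B : Submodule ℝ (EuclideanSpace ℝ (Fin d) × ℝ), B < G →
          FF * mass X lf B ≤ mass X lf G := by
      intro G hG
      rw [mem_filter] at hG
      obtain ⟨hGZ, hGj⟩ := hG
      obtain ⟨h1, h2, h3⟩ := hZ G hGZ
      have hpos : 0 < (X.filter (fun a => lf a ∈ G)).card := by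
        have : (0:ℝ) < mass X lf G := lt_of_lt_of_le hρ10 h2
        rw [hmassG] at this
        exact_mod_cast this
      rw [hlv] at hGj
      simp only at hGj
      have h4 : 2 ^ j ≤ (X.filter (fun a => lf a ∈ G)).card := by
        rw [← hGj]; exact Nat.pow_log_le_self 2 (by omega)
      have h5 : (X.filter (fun a => lf a ∈ G)).card < 2 ^ (j + 1) := by
        rw [← hGj]; exact Nat.lt_pow_succ_log_self (by norm_num) _
      refine ⟨h1, ?_, ?_, h3⟩
      · rw [hρ']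
        apply max_le _ h2
        rw [hmassG]
        exact_mod_cast h4
      · rw [hmassG]
        have h6 : ((X.filter (fun a => lf a ∈ G)).card : ℝ) ≤ 2 ^ (j + 1) := by exact_mod_cast h5.le
        rw [pow_succ] at h6
        linarith
    have hcount := hET (EuclideanSpace ℝ (Fin d) × ℝ) (EuclideanSpace ℝ (Fin d)) X
      lf 1 x ρ' l (Z.filter (fun G => lv G = j)) (fun i _ => lf_ne_zero i) (by
        intro i _
        apply mass_le_one
        have := finrank_span_le_card (R := ℝ) ({lf i} : Set (EuclideanSpace ℝ (Fin d) × ℝ))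
        simpa using this) one_pos hx'.ge (by rw [hx']; exact hl) (by
        rw [mul_one, ← hFF]
        linarith) (by
        intro G hG
        obtain ⟨h1, h2, _, h3⟩ := hZj G hG
        refine ⟨h1, h2, ?_⟩
        intro B hB
        rw [← hFF]
        exact h3 B hB)
    rw [← hFF, mul_one] at hcount
    have e1 : x ^ r1 / ρ' ^ (r1 + 1) ≤ (x / ρ') ^ (r1 - 1) := by
      obtain ⟨k, hk⟩ : ∃ k, r1 = k + 1 := ⟨r1 - 1, by omega⟩
      rw [hk, Nat.add_sub_cancel, div_pow]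
      rw [div_le_div_iff₀ (by positivity) (by positivity)]
      have e2 : x ≤ ρ' ^ 2 := hx.trans (pow_le_pow_left₀ hρ10.le hρ'1 2)
      calc x ^ (k + 1) * ρ' ^ k = x ^ k * ρ' ^ k * x := by ring
        _ ≤ x ^ k * ρ' ^ k * ρ' ^ 2 := mul_le_mul_of_nonneg_left e2 (by positivity)
        _ = x ^ k * ρ' ^ (k + 1 + 1) := by ring
    have e3 : x ^ (r1 - 1) / ρ' ^ (r1 - 1) = (x / ρ') ^ (r1 - 1) := by rw [div_pow]
    rw [e3] at hcount
    have e4 : ((Z.filter (fun G => lv G = j)).card : ℝ) ≤ 2 * FF * (x / ρ') ^ (r1 - 1) := by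
      refine hcount.trans ?_
      calc FF * (x ^ r1 / ρ' ^ (r1 + 1) + (x / ρ') ^ (r1 - 1)) ≤
            FF * ((x / ρ') ^ (r1 - 1) + (x / ρ') ^ (r1 - 1)) :=
            mul_le_mul_of_nonneg_left (by linarith) hFF0.le
        _ = 2 * FF * (x / ρ') ^ (r1 - 1) := by ring
    calc ∑ G ∈ Z.filter (fun G => lv G = j), mass X lf G ≤
          ∑ _G ∈ Z.filter (fun G => lv G = j), 2 * ρ' :=
          sum_le_sum (fun G hG => (hZj G hG).2.2.1)
      _ = (Z.filter (fun G => lv G = j)).card * (2 * ρ') := by rw [sum_const, nsmul_eq_mul]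
      _ ≤ (2 * FF * (x / ρ') ^ (r1 - 1)) * (2 * ρ') :=
          mul_le_mul_of_nonneg_right e4 (by positivity)
      _ = 4 * FF * x * (x / ρ') ^ (r1 - 2) := by
          obtain ⟨k, hk⟩ : ∃ k, r1 = k + 2 := ⟨r1 - 2, by omega⟩
          rw [hk, Nat.add_sub_cancel, show k + 2 - 1 = k + 1 by omega, pow_succ]
          field_simp
          ring
      _ ≤ 4 * FF * x * (x / ρ1) ^ (r1 - 2) := by
          apply mul_le_mul_of_nonneg_left _ (by positivity)
          apply pow_le_pow_left₀ (by positivity)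
          exact div_le_div_of_nonneg_left hx0 hρ10 hρ'1
  rw [hsplit]
  refine (sum_le_sum hlev).trans ?_
  rw [sum_const, card_range, nsmul_eq_mul, ← hx']
  apply mul_le_mul_of_nonneg_right (natlog_le _ _ hl) (by positivity)

open scoped Classical in
/-- **the weighted number of robust flats** -/
theorem robA_weight (d : ℕ) : ∃ (K : ℝ) (c : ℕ), 1 ≤ K ∧
    ∀ (X : Finset (EuclideanSpace ℝ (Fin d))) (r : ℕ) (ρ l : ℝ)
      (N : Finset (Submodule ℝ (EuclideanSpace ℝ (Fin d) × ℝ))), 2 ≤ r → r ≤ d →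
      (∀ U ∈ N, Module.finrank ℝ U = r ∧ RobB X ρ U) →
      20 * (Real.log ((X.card : ℝ) + 3) + 1) ≤ l → K * l ^ c * X.card ≤ ρ ^ 2 → K * l ^ c ≤ ρ →
      ∑ U ∈ N, mass X lf U ≤ K * l ^ c * (X.card * ((X.card : ℝ) / ρ) ^ (r - 2)) := by
  obtain ⟨K00, c0, hK00', hET0⟩ := et_uniform d
  obtain ⟨K0, hK0'⟩ : ∃ K0 : ℝ, K0 = 2 * K00 := ⟨_, rfl⟩
  have hK02 : 2 ≤ K0 := by linarith
  have hK0 : 1 ≤ K0 := by linarith
  have hET : ∀ w, 2 ≤ w → w ≤ d → ETProp w K0 c0 := fun w h1 h2 =>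
    et_mono hK00' (by linarith) le_rfl (hET0 w h1 h2)
  obtain ⟨K, hK⟩ : ∃ K : ℝ, K = d * (4 * K0 * K0 ^ d * (K0 ^ d) ^ d * 2 ^ d) + K0 ^ (2 * d + 2) :=
    ⟨_, rfl⟩
  obtain ⟨c, hc⟩ : ∃ c : ℕ, c = (c0 + c0 * d + c0 * d * d + 1) + c0 * (2 * d + 2) := ⟨_, rfl⟩
  have hK00 : 0 < K0 := by linarith
  have hKge : K0 ^ (2 * d + 2) ≤ K := by
    rw [hK]
    have : 0 ≤ (d:ℝ) * (4 * K0 * K0 ^ d * (K0 ^ d) ^ d * 2 ^ d) := by positivity
    linarith
  refine ⟨K, c, le_trans (one_le_pow₀ hK0) hKge, ?_⟩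
  intro X r ρ l N hr2 hrd hN hl hρ2 hρ1
  have hlog : 0 ≤ Real.log ((X.card : ℝ) + 3) := Real.log_nonneg (by
    have : (0:ℝ) ≤ X.card := Nat.cast_nonneg _
    linarith)
  have hl1 : 1 ≤ l := by linarith
  have hl0 : 0 < l := by linarith
  rcases N.eq_empty_or_nonempty with hNe | hNne
  · rw [hNe, sum_empty]
    have hKp : 0 < K := lt_of_lt_of_le (by positivity) hKge
    have hρ0 : 0 ≤ ρ := le_trans (by positivity) hρ1
    positivity
  obtain ⟨FF, hFF⟩ : ∃ FF : ℝ, FF = K0 * l ^ c0 := ⟨_, rfl⟩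
  have hFF1 : 1 ≤ FF := by
    rw [hFF]; exact one_le_mul_of_one_le_of_one_le hK0 (one_le_pow₀ hl1)
  have hFF2 : 2 ≤ FF := by
    rw [hFF]
    calc (2:ℝ) = 2 * 1 := by norm_num
      _ ≤ K0 * l ^ c0 := mul_le_mul hK02 (one_le_pow₀ hl1) (by norm_num) (by linarith)
  have hFF0 : 0 < FF := by linarith
  have hKFF : FF ^ (2 * d + 2) ≤ K * l ^ c := by
    rw [hFF, mul_pow, ← pow_mul]
    apply mul_le_mul hKge _ (by positivity) (le_trans (by positivity) hKge)
    apply pow_le_pow_right₀ hl1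
    rw [hc]
    exact Nat.le_add_left _ _
  have hρ0 : 0 < ρ := lt_of_lt_of_le (by positivity) (hKFF.trans hρ1)
  obtain ⟨x, hx⟩ : ∃ x : ℝ, x = X.card := ⟨_, rfl⟩
  rw [← hx] at hρ2 ⊢
  have hρx : ρ ≤ x := by
    obtain ⟨U, hU⟩ := hNne
    obtain ⟨_, A, hAX, _, hAρ, _⟩ := hN U hU
    rw [hx]
    refine hAρ.trans ?_
    exact_mod_cast card_le_card hAX
  have hx0 : 0 < x := by linarith
  obtain ⟨ρ1, hρ1'⟩ : ∃ ρ1 : ℝ, ρ1 = ρ / FF ^ d := ⟨_, rfl⟩
  have hρ10 : 0 < ρ1 := by rw [hρ1']; positivity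
  have hFFρ1 : FF ≤ ρ1 := by
    rw [hρ1', le_div_iff₀ (by positivity), ← pow_succ']
    exact le_trans (pow_le_pow_right₀ hFF1 (by omega)) (hKFF.trans hρ1)
  have hxρ12 : x ≤ ρ1 ^ 2 := by
    rw [hρ1', div_pow, le_div_iff₀ (by positivity), ← pow_mul]
    calc x * FF ^ (d * 2) ≤ x * FF ^ (2 * d + 2) :=
          mul_le_mul_of_nonneg_left (pow_le_pow_right₀ hFF1 (by omega)) hx0.le
      _ ≤ x * (K * l ^ c) := mul_le_mul_of_nonneg_left hKFF hx0.le
      _ = K * l ^ c * x := mul_comm _ _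
      _ ≤ ρ ^ 2 := hρ2
  -- choice of `G`
  have hch : ∀ U ∈ N, ∃ G : Submodule ℝ (EuclideanSpace ℝ (Fin d) × ℝ), G ≤ U ∧
      2 ≤ Module.finrank ℝ G ∧ Module.finrank ℝ G ≤ r ∧ ρ1 ≤ mass X lf G ∧
      mass X lf U ≤ FF ^ d * mass X lf G ∧
      ∀ B : Submodule ℝ (EuclideanSpace ℝ (Fin d) × ℝ), B < G → FF * mass X lf B ≤ mass X lf G := by
    intro U hU
    obtain ⟨e1, A, hAX, hAU, hAρ, hAB⟩ := hN U hU
    have hmU : ρ ≤ mass X lf U := by
      refine hAρ.trans ?_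
      unfold mass
      norm_cast
      apply card_le_card
      intro a ha
      rw [mem_filter]
      exact ⟨hAX ha, hAU a ha⟩
    have hFFr : FF ^ r ≤ FF ^ d := pow_le_pow_right₀ hFF1 hrd
    have hlt : FF ^ r < mass X lf U := by
      refine lt_of_lt_of_le ?_ hmU
      refine lt_of_lt_of_le ?_ (hKFF.trans hρ1)
      exact pow_lt_pow_right₀ (by linarith) (by omega)
    obtain ⟨G, g1, g2, g3, g4, g5⟩ := nondeg_sub X FF hFF1 U r e1 hlt
    have hmG : 0 ≤ mass X lf G := by unfold mass; positivity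
    have g4' : mass X lf U ≤ FF ^ d * mass X lf G :=
      g4.trans (mul_le_mul_of_nonneg_right hFFr hmG)
    refine ⟨G, g1, g2, g3, ?_, g4', g5⟩
    rw [hρ1', div_le_iff₀ (by positivity)]
    calc ρ ≤ mass X lf U := hmU
      _ ≤ FF ^ d * mass X lf G := g4'
      _ = mass X lf G * FF ^ d := mul_comm _ _
  choose! Gf hGf using hch
  have hmass0 : ∀ G : Submodule ℝ (EuclideanSpace ℝ (Fin d) × ℝ), 0 ≤ mass X lf G := by
    intro G; unfold mass; positivity
  -- the classes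
  have hsplit : ∑ U ∈ N, mass X lf U = ∑ r1 ∈ Finset.Icc 2 r,
      ∑ U ∈ N.filter (fun U => Module.finrank ℝ (Gf U) = r1), mass X lf U := by
    rw [Finset.sum_fiberwise_of_maps_to]
    intro U hU
    have h2 := hGf U hU
    exact mem_Icc.mpr ⟨h2.2.1, h2.2.2.1⟩
  have hxρ : 1 ≤ x / ρ := by rw [le_div_iff₀ hρ0, one_mul]; exact hρx
  have hkey : ∀ r1 ∈ Finset.Icc 2 r,
      ∑ U ∈ N.filter (fun U => Module.finrank ℝ (Gf U) = r1), mass X lf U ≤
        (4 * FF * FF ^ d * (FF ^ d) ^ d * 2 ^ d * l) * (x * (x / ρ) ^ (r - 2)) := by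
    intro r1 hr1
    rw [mem_Icc] at hr1
    obtain ⟨hr12, hr1r⟩ := hr1
    obtain ⟨N1, hN1⟩ : ∃ N1 : Finset (Submodule ℝ (EuclideanSpace ℝ (Fin d) × ℝ)),
      N1 = N.filter (fun U => Module.finrank ℝ (Gf U) = r1) := ⟨_, rfl⟩
    rw [← hN1]
    have hN1' : ∀ U ∈ N1, U ∈ N ∧ Module.finrank ℝ (Gf U) = r1 := by
      intro U hU
      rw [hN1] at hU
      exact mem_filter.mp hU
    have hZ := nondeg_sum X r1 hr12 (hET r1 hr12 (by omega)) ρ1 l FF hFF hFF1 hl hFFρ1
      (by rw [← hx]; exact hxρ12) (N1.image Gf) (by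
        intro G hG
        rw [mem_image] at hG
        obtain ⟨U, hU, rfl⟩ := hG
        obtain ⟨hUN, hUr⟩ := hN1' U hU
        have h2 := hGf U hUN
        exact ⟨hUr, h2.2.2.2.1, h2.2.2.2.2.2⟩)
    rw [← hx] at hZ
    -- the flats over one `G`
    have hfib : ∀ G ∈ N1.image Gf, ((N1.filter (fun U => Gf U = G)).card : ℝ) ≤
        (2 * x / ρ) ^ (r - r1) := by
      intro G hG
      rw [mem_image] at hG
      obtain ⟨U0, hU0, hGU0⟩ := hG
      have hGr := (hN1' U0 hU0).2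
      rw [hGU0] at hGr
      rw [hx]
      apply robA_ext X ρ hρ0 (r - r1) G r
      · omega
      · intro U hU
        rw [mem_filter] at hU
        have h2 := hN1' U hU.1
        refine ⟨(hN U h2.1).1, ?_, (hN U h2.1).2⟩
        rw [← hU.2]
        exact (hGf U h2.1).1
    have hsum1 : ∑ U ∈ N1, mass X lf U ≤
        FF ^ d * ((2 * x / ρ) ^ (r - r1) * ∑ G ∈ N1.image Gf, mass X lf G) := by
      calc ∑ U ∈ N1, mass X lf U ≤ ∑ U ∈ N1, FF ^ d * mass X lf (Gf U) :=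
            sum_le_sum (fun U hU => (hGf U (hN1' U hU).1).2.2.2.2.1)
        _ = FF ^ d * ∑ U ∈ N1, mass X lf (Gf U) := by rw [mul_sum]
        _ = FF ^ d * ∑ G ∈ N1.image Gf, ∑ U ∈ N1.filter (fun U => Gf U = G), mass X lf (Gf U) := by
            congr 1
            rw [Finset.sum_fiberwise_of_maps_to]
            intro U hU
            exact mem_image_of_mem _ hU
        _ ≤ FF ^ d * ∑ G ∈ N1.image Gf, (2 * x / ρ) ^ (r - r1) * mass X lf G := by
            apply mul_le_mul_of_nonneg_left _ (by positivity)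
            apply sum_le_sum
            intro G hG
            have h3 : ∑ U ∈ N1.filter (fun U => Gf U = G), mass X lf (Gf U) =
                (N1.filter (fun U => Gf U = G)).card * mass X lf G := by
              rw [sum_congr rfl (g := fun _ => mass X lf G) (by
                intro U hU
                rw [(mem_filter.mp hU).2]), sum_const, nsmul_eq_mul]
            rw [h3]
            exact mul_le_mul_of_nonneg_right (hfib G hG) (hmass0 G)
        _ = _ := by rw [← mul_sum]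
    have e4 : (x / ρ1) ^ (r1 - 2) ≤ (FF ^ d) ^ d * (x / ρ) ^ (r1 - 2) := by
      have : x / ρ1 = FF ^ d * (x / ρ) := by rw [hρ1']; field_simp
      rw [this, mul_pow]
      apply mul_le_mul_of_nonneg_right _ (by positivity)
      exact pow_le_pow_right₀ (one_le_pow₀ hFF1) (by omega)
    have e5 : (2 * x / ρ) ^ (r - r1) ≤ 2 ^ d * (x / ρ) ^ (r - r1) := by
      rw [mul_div_assoc, mul_pow]
      apply mul_le_mul_of_nonneg_right _ (by positivity)
      exact pow_le_pow_right₀ (by norm_num) (by omega)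
    calc ∑ U ∈ N1, mass X lf U ≤
          FF ^ d * ((2 * x / ρ) ^ (r - r1) * ∑ G ∈ N1.image Gf, mass X lf G) := hsum1
      _ ≤ FF ^ d * ((2 ^ d * (x / ρ) ^ (r - r1)) *
            (l * (4 * FF * x * ((FF ^ d) ^ d * (x / ρ) ^ (r1 - 2))))) := by
          apply mul_le_mul_of_nonneg_left _ (by positivity)
          apply mul_le_mul e5 _ (sum_nonneg (fun G _ => hmass0 G)) (by positivity)
          refine hZ.trans ?_
          apply mul_le_mul_of_nonneg_left _ hl0.le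
          exact mul_le_mul_of_nonneg_left e4 (by positivity)
      _ = (4 * FF * FF ^ d * (FF ^ d) ^ d * 2 ^ d * l) *
            (x * ((x / ρ) ^ (r1 - 2) * (x / ρ) ^ (r - r1))) := by ring
      _ = (4 * FF * FF ^ d * (FF ^ d) ^ d * 2 ^ d * l) * (x * (x / ρ) ^ (r - 2)) := by
          rw [← pow_add]
          congr 3
          omega
  rw [hsplit]
  refine (sum_le_sum hkey).trans ?_
  rw [sum_const, nsmul_eq_mul, ← mul_assoc]
  apply mul_le_mul_of_nonneg_right _ (by positivity)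
  have h8 : ((Finset.Icc 2 r).card : ℝ) ≤ d := by
    rw [Nat.card_Icc]
    exact_mod_cast (by omega : r + 1 - 2 ≤ d)
  refine (mul_le_mul_of_nonneg_right h8 (by positivity)).trans ?_
  have e6 : (d:ℝ) * (4 * FF * FF ^ d * (FF ^ d) ^ d * 2 ^ d * l) =
      (d * (4 * K0 * K0 ^ d * (K0 ^ d) ^ d * 2 ^ d)) *
        (l ^ c0 * l ^ (c0 * d) * l ^ (c0 * d * d) * l ^ 1) := by
    rw [hFF, mul_pow, ← pow_mul l, mul_pow, ← pow_mul l (c0 * d), pow_one]
    ring
  rw [e6]
  have e7 : (d:ℝ) * (4 * K0 * K0 ^ d * (K0 ^ d) ^ d * 2 ^ d) ≤ K := by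
    rw [hK]
    have h4 : 0 ≤ K0 ^ (2 * d + 2) := by positivity
    linarith
  have e8 : l ^ c0 * l ^ (c0 * d) * l ^ (c0 * d * d) * l ^ 1 ≤ l ^ c := by
    rw [← pow_add, ← pow_add, ← pow_add]
    apply pow_le_pow_right₀ hl1
    rw [hc]
    exact Nat.le_add_right _ _
  exact mul_le_mul e7 e8 (by positivity) (le_trans (by positivity) hKge)

end Vale.Agent.P054G
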