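import Vale.Agent.P054.MathlibUsed
import Vale.Agent.P054.R2.H524.CountA
import Vale.Agent.P054.H343.G.RobW
attribute [-instance] ProperSMul.toContinuousSMul IsTopologicalTorsor.toContinuousSMul IdemSemiring.toCanonicallyOrderedAdd IdemSemiring.toMulLeftMono IdemSemiring.toMulRightMono AddQuantale.instAddLeftMono AddQuantale.instAddRightMono Quantale.instMulLeftMono Quantale.instMulRightMono FiniteDimensional.rclike_to_real IsScalarTower.complexToReal FiniteDimensional.complexToReal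

set_option linter.all false
set_option autoImplicit false

open Finset

/-! P054, Theorem G: all patterns of a bad centre. -/

namespace Vale.Agent.P054G

open Vale.Agent.P054K

/-- the pattern map of a bad centre -/
theorem pat_map {d : ℕ} (X : Finset (EuclideanSpace ℝ (Fin d))) (η : ℝ)
    (p : EuclideanSpace ℝ (Fin d)) (h : Bad X η p) :
    ∃ (G : Finset (EuclideanSpace ℝ (Fin d)))
      (T : Finset (Submodule ℝ (EuclideanSpace ℝ (Fin d) × ℝ) ×
        Submodule ℝ (EuclideanSpace ℝ (Fin d) × ℝ) × Submodule ℝ (EuclideanSpace ℝ (Fin d) × ℝ)))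
      (f : EuclideanSpace ℝ (Fin d) → Submodule ℝ (EuclideanSpace ℝ (Fin d) × ℝ) ×
        Submodule ℝ (EuclideanSpace ℝ (Fin d) × ℝ) × Submodule ℝ (EuclideanSpace ℝ (Fin d) × ℝ)),
      G ⊆ X ∧ (X.card : ℝ) ≤ 8 * G.card ∧ (T.card : ℝ) ≤ η ^ 3 ∧ (∀ a ∈ G, f a ∈ T) ∧
      ∀ a' ∈ G, ∃ w1 ∈ hyp p, ∃ w2 ∈ hyp p, ∃ w3 ∈ hyp p, w1 ≠ 0 ∧ w2 ≠ 0 ∧ w3 ≠ 0 ∧
        ∀ a ∈ G, f a = f a' → Follows X w1 w2 w3 a := by
  classical
  obtain ⟨H, hH, hHp, hg⟩ := h
  have hgood : ∀ a ∈ good X H, ∃ b ∈ X, ∃ c ∈ X, a ≠ b ∧ b ≠ c ∧ c ≠ a ∧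
      dl a b ∈ H ∧ dl b c ∈ H ∧ dl c a ∈ H := by
    intro a ha
    unfold good at ha
    exact (mem_filter.mp ha).2
  choose! fb hfb fc hfc hab hbc hca l1 l2 l3 using hgood
  obtain ⟨f, hf⟩ : ∃ f : EuclideanSpace ℝ (Fin d) → Submodule ℝ (EuclideanSpace ℝ (Fin d) × ℝ) ×
      Submodule ℝ (EuclideanSpace ℝ (Fin d) × ℝ) ×
      Submodule ℝ (EuclideanSpace ℝ (Fin d) × ℝ), f =
    fun a => (dl a (fb a), dl (fb a) (fc a), dl (fc a) a) := ⟨_, rfl⟩
  have hle : ∀ (a b : EuclideanSpace ℝ (Fin d)), dl a b ∈ H → dualVec (a, b) ∈ hyp p := by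
    intro a b hab
    exact hHp _ hab (Submodule.mem_span_singleton_self _)
  refine ⟨good X H, H ×ˢ H ×ˢ H, f, ?_, hg, ?_, ?_, ?_⟩
  · unfold good
    exact filter_subset _ _
  · rw [card_product, card_product]
    push_cast
    have hH0 : (0:ℝ) ≤ H.card := by positivity
    calc (H.card:ℝ) * (H.card * H.card) = (H.card:ℝ) ^ 3 := by ring
      _ ≤ η ^ 3 := pow_le_pow_left₀ hH0 hH 3
  · intro a ha
    rw [hf]
    simp only [mem_product]
    exact ⟨l1 a ha, l2 a ha, l3 a ha⟩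
  · intro a' ha'g
    refine ⟨dualVec (a', fb a'), hle _ _ (l1 a' ha'g), dualVec (fb a', fc a'),
      hle _ _ (l2 a' ha'g), dualVec (fc a', a'), hle _ _ (l3 a' ha'g),
      dualVec_ne_zero _ (hab a' ha'g), dualVec_ne_zero _ (hbc a' ha'g),
      dualVec_ne_zero _ (hca a' ha'g), ?_⟩
    intro a hag haτ
    rw [hf] at haτ
    simp only [Prod.mk.injEq] at haτ
    obtain ⟨e1, e2, e3⟩ := haτ
    exact follows_of_triangle X a (fb a) (fc a) a' (fb a') (fc a') (hfb a hag) (hfc a hag)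
      (hab a hag) (hbc a hag) (hca a hag) (hab a' ha'g) (hbc a' ha'g) (hca a' ha'g) e1 e2 e3

/-- the data attached to a flat of a bad centre -/
def Dat {d : ℕ} (X : Finset (EuclideanSpace ℝ (Fin d))) (θ : ℝ) (r : ℕ)
    (p : EuclideanSpace ℝ (Fin d)) (U : Submodule ℝ (EuclideanSpace ℝ (Fin d) × ℝ)) : Prop :=
  ∃ (w1 w2 w3 : EuclideanSpace ℝ (Fin d) × ℝ), w1 ∈ hyp p ∧ w2 ∈ hyp p ∧
      w3 ∈ hyp p ∧ w1 ≠ 0 ∧ w2 ≠ 0 ∧ w3 ≠ 0 ∧
      w2 ∉ Submodule.span ℝ {w1} ∧ w3 ∉ Submodule.span ℝ {w1} ∧ w3 ∉ Submodule.span ℝ {w2} ∧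
      RobA X θ r U ∧ RobA X θ r (U.map (rfL w1)) ∧ RobA X θ r (U.map (rfL w3)) ∧
      (U.map (rfL w1)).map (rfL w2) = U.map (rfL w3) ∧
      (U.map (rfL w1) ≠ U ∨ U.map (rfL w3) ≠ U) ∧ (r = d → ∃ m, m ≠ 0 ∧ U = hf m p)

/-- the flat of one pattern -/
theorem dat_of_pattern {d : ℕ} (X A : Finset (EuclideanSpace ℝ (Fin d))) (hAX : A ⊆ X) (θ : ℝ)
    (hθ0 : 0 < θ) (hθ : θ ≤ (A.card : ℝ) / 2 ^ d) (hAcard : 2 ^ d < A.card)
    (p : EuclideanSpace ℝ (Fin d)) (w1 w2 w3 : EuclideanSpace ℝ (Fin d) × ℝ) (h1 : w1 ∈ hyp p)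
    (h2 : w2 ∈ hyp p) (h3 : w3 ∈ hyp p) (n1 : w1 ≠ 0) (n2 : w2 ≠ 0) (n3 : w3 ≠ 0)
    (hA : ∀ a ∈ A, Follows X w1 w2 w3 a) :
    ∃ (r : ℕ) (U : Submodule ℝ (EuclideanSpace ℝ (Fin d) × ℝ)), 2 ≤ r ∧ r ≤ d ∧
      (A.card : ℝ) / 2 ^ d ≤ mass A lf U ∧ Dat X θ r p U := by
  classical
  have hAne : A.Nonempty := by
    rw [← card_pos]
    have : 0 < 2 ^ d := by positivity
    omega
  obtain ⟨a0, ha0⟩ := hAne
  have hA0 := hA a0 ha0
  obtain ⟨-, -, f3, f4, f5, f6⟩ := hA0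
  have hs12 : w2 ∉ Submodule.span ℝ {w1} := by
    intro hc
    have e := rf_of_span w2 w1 n2 n1 hc (rf w1 a0)
    rw [rf_rf, f3] at e
    exact f6 e
  have hs13 : w3 ∉ Submodule.span ℝ {w1} := by
    intro hc
    exact f5 (rf_of_span w3 w1 n3 n1 hc a0).symm
  have hs23 : w3 ∉ Submodule.span ℝ {w2} := by
    intro hc
    have e := rf_of_span w3 w2 n3 n2 hc a0
    rw [← f3] at e
    have e2 := congrArg (rf w2) e
    rw [rf_rf, rf_rf] at e2
    exact f4 e2.symm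
  obtain ⟨m, hm, w, hw, hmA⟩ := refl_tri p w1 w2 w3 h1 h2 h3 n1
  have hmA' : ∀ a ∈ A, inner ℝ m (a - p) = 0 ∧ inner ℝ m (rf w a - p) ≠ 0 := by
    intro a ha
    obtain ⟨-, -, g3, g4, g5, g6⟩ := hA a ha
    exact hmA a g4 (by rw [g3]; exact g5) (by rw [g3]; exact g6) g3.symm
  obtain ⟨r, U, hr2, hrd, hU0, hRob⟩ := min_flatA A (hf m p) (finrank_hf m p hm).le
    (fun a ha => (lf_mem_hf m p a).mpr (hmA' a ha).1) hAcard
  have hRobA : RobA A θ r U := hRob.mono (Finset.Subset.refl A) hθ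
  have hRobR := hRobA.toRob hθ0.le
  obtain ⟨a1, ha1, ha1U⟩ := hRobR.nonempty (by omega) (by positivity)
  have hwne : U.map (rfL w) ≠ U := by
    intro hc
    have e1 : lf (rf w a1) ∈ U := by
      rw [← hc, ← rfL_lf]
      exact Submodule.mem_map_of_mem ha1U
    exact (hmA' a1 ha1).2 ((lf_mem_hf m p _).mp (hU0 e1))
  have hmass : (A.card : ℝ) / 2 ^ d ≤ mass A lf U := by
    obtain ⟨_, A', hA'A, hA'U, hA'c, _⟩ := hRob
    refine hA'c.trans ?_
    unfold mass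
    norm_cast
    apply card_le_card
    intro a ha
    rw [mem_filter]
    exact ⟨hA'A ha, hA'U a ha⟩
  refine ⟨r, U, hr2, hrd, hmass, w1, w2, w3, h1, h2, h3, n1, n2, n3, hs12, hs13, hs23,
    hRobA.mono hAX le_rfl, robA_map A X _ r U w1 hRobA (fun a ha => (hA a ha).1),
    robA_map A X _ r U w3 hRobA (fun a ha => (hA a ha).2.1),
    map_pattern A _ r U hRobR (by positivity) w1 w2 w3 (fun a ha => (hA a ha).2.2.1), ?_, ?_⟩
  · rcases hw with rfl | rfl
    · exact Or.inl hwne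
    · exact Or.inr hwne
  · intro hr
    refine ⟨m, hm, ?_⟩
    apply Submodule.eq_of_le_of_finrank_eq hU0
    rw [finrank_hf m p hm, hRob.1, hr]

/-- **the flats of a bad centre**: their total mass is at least `#X / 2 ^ (d + 4)` -/
theorem bad_flats {d : ℕ} (X : Finset (EuclideanSpace ℝ (Fin d))) (η : ℝ) (hη : 0 < η)
    (hX : 2 ^ (d + 4) * η ^ 3 < X.card) (p : EuclideanSpace ℝ (Fin d)) (hp : Bad X η p) :
    ∃ 𝒰 : Finset (Submodule ℝ (EuclideanSpace ℝ (Fin d) × ℝ)),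
      (X.card : ℝ) / 2 ^ (d + 4) ≤ ∑ U ∈ 𝒰, mass X lf U ∧
      ∀ U ∈ 𝒰, ∃ r, 2 ≤ r ∧ r ≤ d ∧ Dat X ((X.card : ℝ) / (2 ^ (d + 4) * η ^ 3)) r p U := by
  classical
  obtain ⟨G, T, f, hGX, hXG, hT, hfT, hpat⟩ := pat_map X η p hp
  have hXpos : (0:ℝ) < X.card := lt_of_le_of_lt (by positivity) hX
  have hη3 : 0 < η ^ 3 := by positivity
  obtain ⟨θ, hθ⟩ : ∃ θ : ℝ, θ = (X.card : ℝ) / (2 ^ (d + 4) * η ^ 3) := ⟨_, rfl⟩
  rw [← hθ]
  have hθ0 : 0 < θ := by rw [hθ]; positivity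
  -- big patterns
  obtain ⟨Tb, hTb⟩ : ∃ Tb : Finset (Submodule ℝ (EuclideanSpace ℝ (Fin d) × ℝ) ×
        Submodule ℝ (EuclideanSpace ℝ (Fin d) × ℝ) × Submodule ℝ (EuclideanSpace ℝ (Fin d) × ℝ)),
      Tb = T.filter (fun τ => (X.card : ℝ) / (16 * η ^ 3) ≤ (G.filter (fun a => f a = τ)).card) :=
    ⟨_, rfl⟩
  have hsum : (X.card : ℝ) / 16 ≤ ∑ τ ∈ Tb, ((G.filter (fun a => f a = τ)).card : ℝ) := by
    have h1 : (G.card : ℝ) = ∑ τ ∈ T, ((G.filter (fun a => f a = τ)).card : ℝ) := by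
      exact_mod_cast card_eq_sum_card_fiberwise hfT
    have h2 : ∑ τ ∈ T, ((G.filter (fun a => f a = τ)).card : ℝ) =
        ∑ τ ∈ Tb, ((G.filter (fun a => f a = τ)).card : ℝ) +
        ∑ τ ∈ T.filter (fun τ => ¬ (X.card : ℝ) / (16 * η ^ 3) ≤
          (G.filter (fun a => f a = τ)).card), ((G.filter (fun a => f a = τ)).card : ℝ) := by
      rw [hTb, sum_filter_add_sum_filter_not]
    have h3 : ∑ τ ∈ T.filter (fun τ => ¬ (X.card : ℝ) / (16 * η ^ 3) ≤
          (G.filter (fun a => f a = τ)).card), ((G.filter (fun a => f a = τ)).card : ℝ) ≤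
        (X.card : ℝ) / 16 := by
      calc _ ≤ ∑ _τ ∈ T.filter (fun τ => ¬ (X.card : ℝ) / (16 * η ^ 3) ≤
          (G.filter (fun a => f a = τ)).card), (X.card : ℝ) / (16 * η ^ 3) := by
            apply sum_le_sum
            intro τ hτ
            have := (mem_filter.mp hτ).2
            push Not at this
            exact this.le
        _ = ((T.filter (fun τ => ¬ (X.card : ℝ) / (16 * η ^ 3) ≤
          (G.filter (fun a => f a = τ)).card)).card : ℝ) * ((X.card : ℝ) / (16 * η ^ 3)) := by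
            rw [sum_const, nsmul_eq_mul]
        _ ≤ η ^ 3 * ((X.card : ℝ) / (16 * η ^ 3)) := by
            apply mul_le_mul_of_nonneg_right _ (by positivity)
            refine le_trans ?_ hT
            exact_mod_cast card_filter_le _ _
        _ = (X.card : ℝ) / 16 := by field_simp
    linarith
  -- the flats
  have hch : ∀ τ ∈ Tb, ∃ U : Submodule ℝ (EuclideanSpace ℝ (Fin d) × ℝ),
      ((G.filter (fun a => f a = τ)).card : ℝ) / 2 ^ d ≤ mass (G.filter (fun a => f a = τ)) lf U ∧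
      ∃ r, 2 ≤ r ∧ r ≤ d ∧ Dat X θ r p U := by
    intro τ hτ
    rw [hTb, mem_filter] at hτ
    have hbig := hτ.2
    have hpos : (0:ℝ) < (G.filter (fun a => f a = τ)).card :=
      lt_of_lt_of_le (by positivity) hbig
    have hne : (G.filter (fun a => f a = τ)).Nonempty := by
      rw [← card_pos]
      exact_mod_cast hpos
    obtain ⟨a', ha'⟩ := hne
    rw [mem_filter] at ha'
    obtain ⟨w1, h1, w2, h2, w3, h3, n1, n2, n3, hfol⟩ := hpat a' ha'.1
    have hθA : θ ≤ ((G.filter (fun a => f a = τ)).card : ℝ) / 2 ^ d := by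
      rw [hθ, le_div_iff₀ (by positivity)]
      refine le_trans (le_of_eq ?_) hbig
      rw [pow_add]
      field_simp
      norm_num
    have hcard : 2 ^ d < (G.filter (fun a => f a = τ)).card := by
      have e1 : (1:ℝ) < θ := by
        rw [hθ, lt_div_iff₀ (by positivity), one_mul]
        exact hX
      have e2 : (1:ℝ) < ((G.filter (fun a => f a = τ)).card : ℝ) / 2 ^ d := lt_of_lt_of_le e1 hθA
      rw [lt_div_iff₀ (by positivity), one_mul] at e2
      exact_mod_cast e2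
    obtain ⟨r, U, hr2, hrd, hm, hD⟩ := dat_of_pattern X (G.filter (fun a => f a = τ))
      ((filter_subset _ _).trans hGX) θ hθ0 hθA hcard p w1 w2 w3 h1 h2 h3 n1 n2 n3 (by
        intro a ha
        rw [mem_filter] at ha
        exact hfol a ha.1 (ha.2.trans ha'.2.symm))
    exact ⟨U, hm, r, hr2, hrd, hD⟩
  choose! Uf hUf1 hUf2 using hch
  refine ⟨Tb.image Uf, ?_, ?_⟩
  · have h1 : (X.card : ℝ) / 2 ^ (d + 4) ≤
        ∑ τ ∈ Tb, mass (G.filter (fun a => f a = τ)) lf (Uf τ) := by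
      calc (X.card : ℝ) / 2 ^ (d + 4) = ((X.card : ℝ) / 16) / 2 ^ d := by
            rw [pow_add, div_div]
            congr 1
            ring
        _ ≤ (∑ τ ∈ Tb, ((G.filter (fun a => f a = τ)).card : ℝ)) / 2 ^ d :=
            div_le_div_of_nonneg_right hsum (by positivity)
        _ = ∑ τ ∈ Tb, ((G.filter (fun a => f a = τ)).card : ℝ) / 2 ^ d := by rw [sum_div]
        _ ≤ _ := sum_le_sum hUf1
    refine h1.trans ?_
    rw [← sum_fiberwise_of_maps_to (s := Tb) (t := Tb.image Uf) (g := Uf)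
      (fun τ hτ => mem_image_of_mem _ hτ)]
    apply sum_le_sum
    intro U _
    -- disjoint pieces
    have h2 : ∑ τ ∈ Tb.filter (fun τ => Uf τ = U), mass (G.filter (fun a => f a = τ)) lf (Uf τ) =
        ((∑ τ ∈ Tb.filter (fun τ => Uf τ = U),
          ((G.filter (fun a => f a = τ)).filter (fun a => lf a ∈ U)).card : ℕ) : ℝ) := by
      push_cast
      apply sum_congr rfl
      intro τ hτ
      rw [(mem_filter.mp hτ).2]
      rfl
    rw [h2]
    unfold mass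
    norm_cast
    rw [← card_biUnion]
    · apply card_le_card
      intro a ha
      rw [mem_biUnion] at ha
      obtain ⟨τ, _, ha⟩ := ha
      rw [mem_filter, mem_filter] at ha
      rw [mem_filter]
      exact ⟨hGX ha.1.1, ha.2⟩
    · intro τ _ τ' _ hne
      change Disjoint _ _
      rw [disjoint_left]
      intro a ha ha'
      rw [mem_filter, mem_filter] at ha ha'
      exact hne (ha.1.2.symm.trans ha'.1.2)
  · intro U hU
    rw [mem_image] at hU
    obtain ⟨τ, hτ, rfl⟩ := hU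
    exact hUf2 τ hτ

end Vale.Agent.P054G
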