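import Vale.Agent.P054.MathlibUsed
import Vale.Agent.P054.H343.G.PatW
attribute [-instance] ProperSMul.toContinuousSMul IsTopologicalTorsor.toContinuousSMul IdemSemiring.toCanonicallyOrderedAdd IdemSemiring.toMulLeftMono IdemSemiring.toMulRightMono AddQuantale.instAddLeftMono AddQuantale.instAddRightMono Quantale.instMulLeftMono Quantale.instMulRightMono FiniteDimensional.rclike_to_real IsScalarTower.complexToReal FiniteDimensional.complexToReal

set_option linter.all false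
set_option autoImplicit false

open Finset

/-! P054, Theorem G: the number of bad centres, with multiplicity. -/

namespace Vale.Agent.P054G

open Vale.Agent.P054K

open scoped Classical in
/-- centres on a robust hyperplane -/
theorem dat_top {d : ℕ} (P X : Finset (EuclideanSpace ℝ (Fin d))) (θ M1 : ℝ) (hM1 : 0 ≤ M1)
    (hg1 : ∀ p0 v : EuclideanSpace ℝ (Fin d), v ≠ 0 →
      ((P.filter (fun z => inner ℝ v (z - p0) = 0)).card : ℝ) ≤ M1)
    (U : Submodule ℝ (EuclideanSpace ℝ (Fin d) × ℝ)) :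
    ((P.filter (fun p => Dat X θ d p U)).card : ℝ) ≤ M1 := by
  rcases (P.filter (fun p => Dat X θ d p U)).eq_empty_or_nonempty with h0 | ⟨p0, hp0⟩
  · rw [h0, card_empty]
    simpa using hM1
  · rw [mem_filter] at hp0
    obtain ⟨_, w1, w2, w3, _, _, _, _, _, _, _, _, _, _, _, _, _, _, hd⟩ := hp0
    obtain ⟨m, hm, hUm⟩ := hd rfl
    refine le_trans ?_ (hg1 p0 m hm)
    norm_cast
    apply card_le_card
    intro p hp
    rw [mem_filter] at hp ⊢
    refine ⟨hp.1, ?_⟩
    obtain ⟨_, v1, v2, v3, _, _, _, _, _, _, _, _, _, _, _, _, _, _, hd'⟩ := hp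
    obtain ⟨m', hm', hUm'⟩ := hd' rfl
    have h1 : lf p ∈ U := by
      rw [hUm', lf_mem_hf, sub_self, inner_zero_right]
    rw [hUm, lf_mem_hf] at h1
    exact h1

open scoped Classical in
/-- centres of a small robust flat, pairs of flats -/
theorem dat_pairs {d : ℕ} (P X : Finset (EuclideanSpace ℝ (Fin d))) (θ M1 : ℝ) (hθ0 : 0 < θ)
    (hM1 : 0 ≤ M1) (r : ℕ) (hr2 : 2 ≤ r)
    (hg1 : ∀ p0 v : EuclideanSpace ℝ (Fin d), v ≠ 0 →
      ((P.filter (fun z => inner ℝ v (z - p0) = 0)).card : ℝ) ≤ M1)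
    (U : Submodule ℝ (EuclideanSpace ℝ (Fin d) × ℝ)) :
    ((P.filter (fun p => Dat X θ r p U)).card : ℝ) ≤ 2 * (robsA X θ r).card * M1 := by
  obtain ⟨L, hL2, hL⟩ := mirror_fun d
  have hθ2 : 0 < θ / 2 := by positivity
  let S1 : Submodule ℝ (EuclideanSpace ℝ (Fin d) × ℝ) →
      Finset (Submodule ℝ (EuclideanSpace ℝ (Fin d) × ℝ)) := fun U' =>
    (L U U').filter (fun D => ((P.filter (fun p => D ≤ hyp p)).card : ℝ) ≤ M1)
  have hcov : P.filter (fun p => Dat X θ r p U) ⊆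
      (robsA X θ r).biUnion fun U' => (S1 U').biUnion fun D => P.filter (fun p => D ≤ hyp p) := by
    intro p hp
    rw [mem_filter] at hp
    obtain ⟨hpP, w1, w2, w3, h1, h2, h3, n1, n2, n3, hs12, hs13, hs23, R1, R2, R3, hmap, hne, _⟩ := hp
    have m1 := fst_ne_zero w1 p h1 n1
    have m3 := fst_ne_zero w3 p h3 n3
    have hz : ∃ z, z ∈ FU U := by
      obtain ⟨a, _, ha⟩ := (R1.toRob hθ0.le).nonempty (by omega) hθ2
      exact ⟨a, ha⟩
    have hFne : ∀ U2 : Submodule ℝ (EuclideanSpace ℝ (Fin d) × ℝ),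
        RobA X θ r U2 → U ≠ U2 → FU U ≠ FU U2 := fun U2 a2 hne' =>
      FU_ne (R1.toRob hθ0.le) (a2.toRob hθ0.le) hθ2 hθ2 hne'
    have key : ∀ w : EuclideanSpace ℝ (Fin d) × ℝ, w ∈ hyp p → w.1 ≠ 0 →
        RobA X θ r (U.map (rfL w)) → U.map (rfL w) ≠ U →
        p ∈ (robsA X θ r).biUnion fun U' => (S1 U').biUnion fun D =>
          P.filter (fun p => D ≤ hyp p) := by
      intro w hw hw1 hR hne'
      have hmem : Submodule.span ℝ {w} ∈ L U (U.map (rfL w)) :=
        hL _ _ w hw1 rfl (hFne _ hR (Ne.symm hne')) hz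
      rw [mem_biUnion]
      refine ⟨U.map (rfL w), (mem_robsA hθ0).mpr hR, ?_⟩
      rw [mem_biUnion]
      refine ⟨Submodule.span ℝ {w}, mem_filter.mpr ⟨hmem, ?_⟩, ?_⟩
      · refine le_trans ?_ (hg1 p w.1 hw1)
        norm_cast
        apply card_le_card
        intro z hz'
        rw [mem_filter] at hz' ⊢
        refine ⟨hz'.1, ?_⟩
        have e1 : w ∈ hyp z := hz'.2 (Submodule.mem_span_singleton_self w)
        obtain ⟨u, c⟩ := w
        rw [mem_hyp] at e1 hw
        simp only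
        rw [inner_sub_right, real_inner_comm z u, real_inner_comm p u]
        linarith
      · rw [mem_filter, Submodule.span_singleton_le_iff_mem]
        exact ⟨hpP, hw⟩
    rcases hne with h | h
    · exact key w1 h1 m1 R2 h
    · exact key w3 h3 m3 R3 h
  have h1 : ((((robsA X θ r).biUnion fun U' => (S1 U').biUnion fun D =>
      P.filter (fun p => D ≤ hyp p)).card : ℕ) : ℝ) ≤ (robsA X θ r).card * (2 * M1) := by
    apply card_biUnion_le_real
    intro U' _
    have h2 : (((S1 U').card : ℕ) : ℝ) ≤ 2 := by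
      exact_mod_cast (card_filter_le _ _).trans (hL2 U U')
    calc _ ≤ ((S1 U').card : ℝ) * M1 :=
          card_biUnion_le_real _ _ M1 (fun D hD => (mem_filter.mp hD).2)
      _ ≤ 2 * M1 := mul_le_mul_of_nonneg_right h2 hM1
  have h2 : ((P.filter (fun p => Dat X θ r p U)).card : ℝ) ≤
      ((((robsA X θ r).biUnion fun U' => (S1 U').biUnion fun D =>
      P.filter (fun p => D ≤ hyp p)).card : ℕ) : ℝ) := by
    exact_mod_cast card_le_card hcov
  refine (h2.trans h1).trans (le_of_eq ?_)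
  ring

open scoped Classical in
/-- centres of a small robust flat, triples of flats -/
theorem dat_triples {d : ℕ} (P X : Finset (EuclideanSpace ℝ (Fin d))) (θ M2 : ℝ) (hθ0 : 0 < θ)
    (hM2 : 0 ≤ M2) (r : ℕ) (hr2 : 2 ≤ r)
    (hg2 : ∀ D : Submodule ℝ (EuclideanSpace ℝ (Fin d) × ℝ), Module.finrank ℝ D = 2 →
      ((P.filter (fun p => D ≤ hyp p)).card : ℝ) ≤ M2)
    (U : Submodule ℝ (EuclideanSpace ℝ (Fin d) × ℝ)) :
    ((P.filter (fun p => Dat X θ r p U)).card : ℝ) ≤ (robsA X θ r).card ^ 2 * (12 * M2) := by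
  obtain ⟨L, hL2, hL⟩ := mirror_fun d
  have hθ2 : 0 < θ / 2 := by positivity
  let S3 : Submodule ℝ (EuclideanSpace ℝ (Fin d) × ℝ) × Submodule ℝ (EuclideanSpace ℝ (Fin d) × ℝ) →
      Finset (Submodule ℝ (EuclideanSpace ℝ (Fin d) × ℝ)) := fun T =>
    (((L U T.1 ×ˢ L T.1 T.2) ∪ (L U T.1 ×ˢ L U T.2) ∪
      (L T.1 T.2 ×ˢ L U T.2)).image (fun q => q.1 ⊔ q.2)).filter
      (fun D => ((P.filter (fun p => D ≤ hyp p)).card : ℝ) ≤ M2)
  have hS3 : ∀ T, ((S3 T).card : ℝ) ≤ 12 := by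
    intro T
    have h1 : (S3 T).card ≤ 12 := by
      calc (S3 T).card ≤ _ := card_filter_le _ _
        _ ≤ _ := card_image_le
        _ ≤ _ := (card_union_le _ _).trans (Nat.add_le_add_right (card_union_le _ _) _)
        _ ≤ 2 * 2 + 2 * 2 + 2 * 2 := by
          rw [card_product, card_product, card_product]
          exact Nat.add_le_add (Nat.add_le_add (Nat.mul_le_mul (hL2 _ _) (hL2 _ _))
            (Nat.mul_le_mul (hL2 _ _) (hL2 _ _))) (Nat.mul_le_mul (hL2 _ _) (hL2 _ _))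
        _ = 12 := by norm_num
    exact_mod_cast h1
  have hcov : P.filter (fun p => Dat X θ r p U) ⊆
      (robsA X θ r ×ˢ robsA X θ r).biUnion fun T =>
          (S3 T).biUnion fun D => P.filter (fun p => D ≤ hyp p) := by
    intro p hp
    rw [mem_filter] at hp
    obtain ⟨hpP, w1, w2, w3, h1, h2, h3, n1, n2, n3, hs12, hs13, hs23, R1, R2, R3, hmap, hne, _⟩ := hp
    have m1 := fst_ne_zero w1 p h1 n1
    have m2 := fst_ne_zero w2 p h2 n2
    have m3 := fst_ne_zero w3 p h3 n3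
    have hz : ∀ U' : Submodule ℝ (EuclideanSpace ℝ (Fin d) × ℝ), RobA X θ r U' →
        ∃ z, z ∈ FU U' := by
      intro U' hU'
      obtain ⟨a, _, ha⟩ := (hU'.toRob hθ0.le).nonempty (by omega) hθ2
      exact ⟨a, ha⟩
    have hFne : ∀ U1 U2 : Submodule ℝ (EuclideanSpace ℝ (Fin d) × ℝ), RobA X θ r U1 →
        RobA X θ r U2 → U1 ≠ U2 → FU U1 ≠ FU U2 := fun U1 U2 a1 a2 hne' =>
      FU_ne (a1.toRob hθ0.le) (a2.toRob hθ0.le) hθ2 hθ2 hne'
    have hspan : ∀ w : EuclideanSpace ℝ (Fin d) × ℝ, w ∈ hyp p → Submodule.span ℝ {w} ≤ hyp p := by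
      intro w hw
      rw [Submodule.span_singleton_le_iff_mem]
      exact hw
    have e12 : U.map (rfL w1) ≠ U → Submodule.span ℝ {w1} ∈ L U (U.map (rfL w1)) := fun hne' =>
      hL _ _ w1 m1 rfl (hFne _ _ R1 R2 (Ne.symm hne')) (hz _ R1)
    have e13 : U.map (rfL w3) ≠ U → Submodule.span ℝ {w3} ∈ L U (U.map (rfL w3)) := fun hne' =>
      hL _ _ w3 m3 rfl (hFne _ _ R1 R3 (Ne.symm hne')) (hz _ R1)
    have e23 : U.map (rfL w1) ≠ U.map (rfL w3) →
        Submodule.span ℝ {w2} ∈ L (U.map (rfL w1)) (U.map (rfL w3)) := fun hne' =>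
      hL _ _ w2 m2 hmap (hFne _ _ R2 R3 hne') (hz _ R2)
    rw [mem_biUnion]
    refine ⟨(U.map (rfL w1), U.map (rfL w3)), ?_, ?_⟩
    · rw [mem_product]
      exact ⟨(mem_robsA hθ0).mpr R2, (mem_robsA hθ0).mpr R3⟩
    rw [mem_biUnion]
    have fin : ∀ w w' : EuclideanSpace ℝ (Fin d) × ℝ, w ∈ hyp p → w' ∈ hyp p → w ≠ 0 →
        w' ∉ Submodule.span ℝ {w} →
        (Submodule.span ℝ {w}, Submodule.span ℝ {w'}) ∈
          ((L U (U.map (rfL w1)) ×ˢ L (U.map (rfL w1)) (U.map (rfL w3))) ∪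
            (L U (U.map (rfL w1)) ×ˢ L U (U.map (rfL w3))) ∪
            (L (U.map (rfL w1)) (U.map (rfL w3)) ×ˢ L U (U.map (rfL w3)))) →
        ∃ D ∈ S3 (U.map (rfL w1), U.map (rfL w3)), p ∈ P.filter (fun p => D ≤ hyp p) := by
      intro w w' hw hw' hw0 hww hmem
      refine ⟨Submodule.span ℝ {w} ⊔ Submodule.span ℝ {w'}, ?_, ?_⟩
      · refine mem_filter.mpr ⟨mem_image.mpr ⟨_, hmem, rfl⟩, ?_⟩
        exact card_of_finrank P M2 hg2 _ w w'
          (Submodule.mem_sup_left (Submodule.mem_span_singleton_self w))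
          (Submodule.mem_sup_right (Submodule.mem_span_singleton_self w')) hw0 hww
      · rw [mem_filter]
        exact ⟨hpP, sup_le (hspan w hw) (hspan w' hw')⟩
    by_cases c12 : U.map (rfL w1) = U
    · -- then `U.map w3 ≠ U`
      have c13 : U.map (rfL w3) ≠ U := by
        rcases hne with h | h
        · exact absurd c12 h
        · exact h
      have c23 : U.map (rfL w1) ≠ U.map (rfL w3) := by
        rw [c12]
        exact c13.symm
      refine fin w2 w3 h2 h3 n2 hs23 ?_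
      rw [mem_union, mem_union, mem_product, mem_product, mem_product]
      exact Or.inr ⟨e23 c23, e13 c13⟩
    · by_cases c13 : U.map (rfL w3) = U
      · have c23 : U.map (rfL w1) ≠ U.map (rfL w3) := by
          rw [c13]
          exact c12
        refine fin w1 w2 h1 h2 n1 hs12 ?_
        rw [mem_union, mem_union, mem_product, mem_product, mem_product]
        exact Or.inl (Or.inl ⟨e12 c12, e23 c23⟩)
      · refine fin w1 w3 h1 h3 n1 hs13 ?_
        rw [mem_union, mem_union, mem_product, mem_product, mem_product]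
        exact Or.inl (Or.inr ⟨e12 c12, e13 c13⟩)
  have h1 : ((((robsA X θ r ×ˢ robsA X θ r).biUnion fun T =>
        (S3 T).biUnion fun D => P.filter (fun p => D ≤ hyp p)).card : ℕ) : ℝ) ≤
      (robsA X θ r ×ˢ robsA X θ r).card * (12 * M2) := by
    apply card_biUnion_le_real
    intro T _
    calc _ ≤ ((S3 T).card : ℝ) * M2 :=
          card_biUnion_le_real _ _ M2 (fun D hD => (mem_filter.mp hD).2)
      _ ≤ 12 * M2 := mul_le_mul_of_nonneg_right (hS3 T) hM2
  have h2 : ((P.filter (fun p => Dat X θ r p U)).card : ℝ) ≤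
      ((((robsA X θ r ×ˢ robsA X θ r).biUnion fun T =>
        (S3 T).biUnion fun D => P.filter (fun p => D ≤ hyp p)).card : ℕ) : ℝ) := by
    exact_mod_cast card_le_card hcov
  refine (h2.trans h1).trans (le_of_eq ?_)
  rw [card_product]
  push_cast
  ring

open scoped Classical in
/-- **few bad centres, with multiplicity** -/
theorem bad_countW {d : ℕ} (hd : 2 ≤ d) (P X : Finset (EuclideanSpace ℝ (Fin d)))
    (η W M1 : ℝ) (Bf : ℕ → ℝ) (hη : 1 ≤ η) (hX : 2 ^ (d + 4) * η ^ 3 < X.card) (hW : 1 ≤ W)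
    (hM1 : 0 ≤ M1) (hBf : ∀ r, 0 ≤ Bf r)
    (hS : ∀ r, 2 ≤ r → r ≤ d → ∀ N : Finset (Submodule ℝ (EuclideanSpace ℝ (Fin d) × ℝ)),
      (∀ U ∈ N, RobA X ((X.card : ℝ) / (2 ^ (d + 4) * η ^ 3)) r U) →
        ∑ U ∈ N, mass X lf U ≤ W * (X.card * (2 ^ (d + 4) * η ^ 3) ^ (r - 2)))
    (hg1 : ∀ p0 v : EuclideanSpace ℝ (Fin d), v ≠ 0 →
      ((P.filter (fun z => inner ℝ v (z - p0) = 0)).card : ℝ) ≤ M1)
    (hB : ∀ r, 2 ≤ r → r < d → ∀ U : Submodule ℝ (EuclideanSpace ℝ (Fin d) × ℝ),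
      ((P.filter (fun p => Dat X ((X.card : ℝ) / (2 ^ (d + 4) * η ^ 3)) r p U)).card : ℝ) ≤ Bf r) :
    ((P.filter (fun p => Bad X η p)).card : ℝ) ≤
      2 ^ (d + 4) * (∑ r ∈ Finset.Ico 2 d, W * (2 ^ (d + 4) * η ^ 3) ^ (r - 2) * Bf r +
        W * (2 ^ (d + 4) * η ^ 3) ^ (d - 2) * M1) := by
  have hη0 : 0 < η := by linarith
  have hη3 : 0 < η ^ 3 := by positivity
  have hXpos : (0:ℝ) < X.card := lt_of_le_of_lt (by positivity) hX
  obtain ⟨κ, hκ⟩ : ∃ κ : ℝ, κ = 2 ^ (d + 4) * η ^ 3 := ⟨_, rfl⟩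
  obtain ⟨θ, hθ⟩ : ∃ θ : ℝ, θ = (X.card : ℝ) / κ := ⟨_, rfl⟩
  have hκ0 : 0 < κ := by rw [hκ]; positivity
  have hθ0 : 0 < θ := by rw [hθ]; positivity
  rw [← hκ, ← hθ] at hS hB
  rw [← hκ]
  obtain ⟨Pb, hPb⟩ : ∃ Pb : Finset (EuclideanSpace ℝ (Fin d)),
    Pb = P.filter (fun p => Bad X η p) := ⟨_, rfl⟩
  rw [← hPb]
  have hm0 : ∀ U : Submodule ℝ (EuclideanSpace ℝ (Fin d) × ℝ), 0 ≤ mass X lf U := by
    intro U; unfold mass; positivity
  -- lower bound for one centre
  have hone : ∀ p ∈ Pb, (X.card : ℝ) / 2 ^ (d + 4) ≤ ∑ r ∈ Finset.Icc 2 d,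
      ∑ U ∈ (robsA X θ r).filter (fun U => Dat X θ r p U), mass X lf U := by
    intro p hp
    rw [hPb, mem_filter] at hp
    obtain ⟨𝒰, h1, h2⟩ := bad_flats X η hη0 hX p hp.2
    rw [← hκ, ← hθ] at h2
    refine h1.trans ?_
    have h3 : 𝒰 ⊆ (Finset.Icc 2 d).biUnion (fun r => (robsA X θ r).filter (fun U => Dat X θ r p U)) := by
      intro U hU
      obtain ⟨r, hr2, hrd, hD⟩ := h2 U hU
      rw [mem_biUnion]
      refine ⟨r, mem_Icc.mpr ⟨hr2, hrd⟩, mem_filter.mpr ⟨?_, hD⟩⟩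
      rw [mem_robsA hθ0]
      obtain ⟨w1, w2, w3, _, _, _, _, _, _, _, _, _, hR, _⟩ := hD
      exact hR
    calc ∑ U ∈ 𝒰, mass X lf U ≤
          ∑ U ∈ (Finset.Icc 2 d).biUnion (fun r => (robsA X θ r).filter (fun U => Dat X θ r p U)),
            mass X lf U := sum_le_sum_of_subset_of_nonneg h3 (fun U _ _ => hm0 U)
      _ ≤ _ := by
          apply le_of_eq
          apply sum_biUnion
          intro r _ r' _ hne
          change Disjoint _ _
          rw [disjoint_left]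
          intro U hU hU'
          rw [mem_filter, mem_robsA hθ0] at hU hU'
          exact hne (hU.1.1.symm.trans hU'.1.1)
  -- double counting
  have hdc : (Pb.card : ℝ) * ((X.card : ℝ) / 2 ^ (d + 4)) ≤ ∑ r ∈ Finset.Icc 2 d,
      ∑ U ∈ robsA X θ r, ((P.filter (fun p => Dat X θ r p U)).card : ℝ) * mass X lf U := by
    calc (Pb.card : ℝ) * ((X.card : ℝ) / 2 ^ (d + 4)) =
          ∑ _p ∈ Pb, (X.card : ℝ) / 2 ^ (d + 4) := by rw [sum_const, nsmul_eq_mul]
      _ ≤ ∑ p ∈ Pb, ∑ r ∈ Finset.Icc 2 d,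
          ∑ U ∈ (robsA X θ r).filter (fun U => Dat X θ r p U), mass X lf U := sum_le_sum hone
      _ ≤ ∑ p ∈ P, ∑ r ∈ Finset.Icc 2 d,
          ∑ U ∈ (robsA X θ r).filter (fun U => Dat X θ r p U), mass X lf U := by
          apply sum_le_sum_of_subset_of_nonneg
          · rw [hPb]; exact filter_subset _ _
          · intro p _ _
            exact sum_nonneg (fun r _ => sum_nonneg (fun U _ => hm0 U))
      _ = ∑ r ∈ Finset.Icc 2 d, ∑ p ∈ P,
          ∑ U ∈ (robsA X θ r).filter (fun U => Dat X θ r p U), mass X lf U := sum_comm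
      _ = ∑ r ∈ Finset.Icc 2 d,
          ∑ U ∈ robsA X θ r, ((P.filter (fun p => Dat X θ r p U)).card : ℝ) * mass X lf U := by
          apply sum_congr rfl
          intro r _
          have e1 : ∀ p ∈ P, ∑ U ∈ (robsA X θ r).filter (fun U => Dat X θ r p U), mass X lf U =
              ∑ U ∈ robsA X θ r, if Dat X θ r p U then mass X lf U else 0 := by
            intro p _
            rw [sum_filter]
          rw [sum_congr rfl e1, sum_comm]
          apply sum_congr rfl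
          intro U _
          rw [← sum_filter, sum_const, nsmul_eq_mul]
  have hsplit : ∑ r ∈ Finset.Icc 2 d,
      ∑ U ∈ robsA X θ r, ((P.filter (fun p => Dat X θ r p U)).card : ℝ) * mass X lf U ≤
      ∑ r ∈ Finset.Ico 2 d, Bf r * (W * (X.card * κ ^ (r - 2))) +
        M1 * (W * (X.card * κ ^ (d - 2))) := by
    have e1 : Finset.Icc 2 d = insert d (Finset.Ico 2 d) := by
      ext r
      simp only [mem_Icc, mem_insert, mem_Ico]
      omega
    have e2 : d ∉ Finset.Ico 2 d := by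
      rw [mem_Ico]; omega
    rw [e1, sum_insert e2, add_comm]
    apply add_le_add
    · apply sum_le_sum
      intro r hr
      rw [mem_Ico] at hr
      calc ∑ U ∈ robsA X θ r, ((P.filter (fun p => Dat X θ r p U)).card : ℝ) * mass X lf U ≤
            ∑ U ∈ robsA X θ r, Bf r * mass X lf U := by
            apply sum_le_sum
            intro U _
            exact mul_le_mul_of_nonneg_right (hB r hr.1 hr.2 U) (hm0 U)
        _ = Bf r * ∑ U ∈ robsA X θ r, mass X lf U := by rw [mul_sum]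
        _ ≤ Bf r * (W * (X.card * κ ^ (r - 2))) := by
            apply mul_le_mul_of_nonneg_left _ (hBf r)
            exact hS r hr.1 hr.2.le _ (fun U hU => (mem_robsA hθ0).mp hU)
    · calc ∑ U ∈ robsA X θ d, ((P.filter (fun p => Dat X θ d p U)).card : ℝ) * mass X lf U ≤
            ∑ U ∈ robsA X θ d, M1 * mass X lf U := by
            apply sum_le_sum
            intro U _
            exact mul_le_mul_of_nonneg_right (dat_top P X θ M1 hM1 hg1 U) (hm0 U)
        _ = M1 * ∑ U ∈ robsA X θ d, mass X lf U := by rw [mul_sum]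
        _ ≤ M1 * (W * (X.card * κ ^ (d - 2))) := by
            apply mul_le_mul_of_nonneg_left _ hM1
            exact hS d hd le_rfl _ (fun U hU => (mem_robsA hθ0).mp hU)
  have hfin := hdc.trans hsplit
  have e3 : ∑ r ∈ Finset.Ico 2 d, Bf r * (W * (X.card * κ ^ (r - 2))) +
        M1 * (W * (X.card * κ ^ (d - 2))) =
      (∑ r ∈ Finset.Ico 2 d, W * κ ^ (r - 2) * Bf r + W * κ ^ (d - 2) * M1) * X.card := by
    rw [add_mul, sum_mul]
    congr 1
    · apply sum_congr rfl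
      intro r _
      ring
    · ring
  rw [e3] at hfin
  have e4 : (Pb.card : ℝ) * ((X.card : ℝ) / 2 ^ (d + 4)) = (Pb.card / 2 ^ (d + 4) : ℝ) * X.card := by
    ring
  rw [e4] at hfin
  have h5 := le_of_mul_le_mul_right hfin hXpos
  rw [div_le_iff₀ (by positivity)] at h5
  linarith

end Vale.Agent.P054G
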