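import Vale.Agent.P054.MathlibUsed
import Vale.Agent.P054.Bdl.B2
import Vale.Agent.P054.H438.G.Def
import Vale.Agent.P054.H343.G.Refl
attribute [-instance] ProperSMul.toContinuousSMul IsTopologicalTorsor.toContinuousSMul IdemSemiring.toCanonicallyOrderedAdd IdemSemiring.toMulLeftMono IdemSemiring.toMulRightMono AddQuantale.instAddLeftMono AddQuantale.instAddRightMono Quantale.instMulLeftMono Quantale.instMulRightMono FiniteDimensional.rclike_to_real IsScalarTower.complexToReal FiniteDimensional.complexToReal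

set_option linter.all false
set_option autoImplicit false

open Finset

/-! P054, Theorem G: heavy triangles, the normal lies in the plane of the mirrors' normals. -/

namespace Vale.Agent.P054G

open Vale.Agent.P054K

/-- **heavy triangles**: all triangles of one type, equidistant from `p` -/
theorem tri_plane2 {E : Type*} [NormedAddCommGroup E] [InnerProductSpace ℝ E] (p a0 b0 c0 : E)
    (hab : a0 ≠ b0) (hbc : b0 ≠ c0) (hca : c0 ≠ a0) (h1 : ‖a0 - p‖ = ‖b0 - p‖)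
    (h2 : ‖a0 - p‖ = ‖c0 - p‖) :
    ∃ m : E, m ≠ 0 ∧ m ∈ Submodule.span ℝ {a0 - b0} ⊔ Submodule.span ℝ {a0 - c0} ∧ ((∀ a b c : E, a ≠ b → ‖a - p‖ = ‖b - p‖ → ‖a - p‖ = ‖c - p‖ →
        a - b ∈ Submodule.span ℝ {a0 - b0} → b - c ∈ Submodule.span ℝ {b0 - c0} →
        c - a ∈ Submodule.span ℝ {c0 - a0} →
        inner ℝ m (a - p) = 0 ∧ inner ℝ m (b - p) ≠ 0) ∨
      (∀ a b c : E, a ≠ b → ‖a - p‖ = ‖b - p‖ → ‖a - p‖ = ‖c - p‖ →
        a - b ∈ Submodule.span ℝ {a0 - b0} → b - c ∈ Submodule.span ℝ {b0 - c0} →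
        c - a ∈ Submodule.span ℝ {c0 - a0} →
        inner ℝ m (a - p) = 0 ∧ inner ℝ m (c - p) ≠ 0)) := by
  obtain ⟨w1, hw1⟩ : ∃ w1, w1 = a0 - b0 := ⟨_, rfl⟩
  obtain ⟨w3, hw3⟩ : ∃ w3, w3 = c0 - a0 := ⟨_, rfl⟩
  obtain ⟨w2, hw2⟩ : ∃ w2, w2 = b0 - c0 := ⟨_, rfl⟩
  have hsum : w1 + w2 + w3 = 0 := by rw [hw1, hw2, hw3]; abel
  have n1 : w1 ≠ 0 := by rw [hw1]; exact sub_ne_zero.mpr hab
  have n2 : w2 ≠ 0 := by rw [hw2]; exact sub_ne_zero.mpr hbc
  have n3 : w3 ≠ 0 := by rw [hw3]; exact sub_ne_zero.mpr hca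
  have q1 : ‖w1‖ ^ 2 ≠ 0 := by
    have : 0 < ‖w1‖ := norm_pos_iff.mpr n1
    positivity
  have q3 : ‖w3‖ ^ 2 ≠ 0 := by
    have : 0 < ‖w3‖ := norm_pos_iff.mpr n3
    positivity
  -- the two basic identities
  have id1 : ∀ (a b : E) (s : ℝ), s ≠ 0 → ‖a - p‖ = ‖b - p‖ → a - b = s • w1 →
      2 * inner ℝ (a - p) w1 = s * ‖w1‖ ^ 2 := by
    intro a b s hs h hab'
    have e1 : b - p = (a - p) - s • w1 := by rw [← hab']; abel
    have e2 : ‖b - p‖ ^ 2 = ‖a - p‖ ^ 2 - 2 * (s * inner ℝ (a - p) w1) + s ^ 2 * ‖w1‖ ^ 2 := by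
      rw [e1, norm_sub_sq_real, real_inner_smul_right, norm_smul, mul_pow, Real.norm_eq_abs, sq_abs]
    rw [← h] at e2
    have e3 : s * (2 * inner ℝ (a - p) w1) = s * (s * ‖w1‖ ^ 2) := by linarith
    exact mul_left_cancel₀ hs e3
  have id3 : ∀ (a c : E) (s : ℝ), s ≠ 0 → ‖a - p‖ = ‖c - p‖ → c - a = s • w3 →
      2 * inner ℝ (a - p) w3 = - (s * ‖w3‖ ^ 2) := by
    intro a c s hs h hca'
    have e1 : c - p = (a - p) + s • w3 := by rw [← hca']; abel
    have e2 : ‖c - p‖ ^ 2 = ‖a - p‖ ^ 2 + 2 * (s * inner ℝ (a - p) w3) + s ^ 2 * ‖w3‖ ^ 2 := by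
      rw [e1, norm_add_sq_real, real_inner_smul_right, norm_smul, mul_pow, Real.norm_eq_abs, sq_abs]
    rw [← h] at e2
    have e3 : s * (2 * inner ℝ (a - p) w3) = s * (- (s * ‖w3‖ ^ 2)) := by linarith
    exact mul_left_cancel₀ hs e3
  -- independence
  have indep : ∀ α β : ℝ, α • w1 + β • w3 = 0 → α = 0 ∧ β = 0 := by
    intro α β h
    have i1 := id1 a0 b0 1 one_ne_zero h1 (by rw [one_smul, hw1])
    have i3 := id3 a0 c0 1 one_ne_zero h2 (by rw [one_smul, hw3])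
    by_cases hβ : β = 0
    · rw [hβ, zero_smul, add_zero] at h
      exact ⟨(smul_eq_zero.mp h).resolve_right n1, hβ⟩
    · exfalso
      obtain ⟨lam, hlam⟩ : ∃ lam : ℝ, w3 = lam • w1 := by
        refine ⟨-(α / β), ?_⟩
        have : β • w3 = -(α • w1) := by
          rw [eq_neg_iff_add_eq_zero, add_comm]; exact h
        have h5 : w3 = (1 / β) • (β • w3) := by
          rw [smul_smul, one_div, inv_mul_cancel₀ hβ, one_smul]
        rw [h5, this, smul_neg, smul_smul, neg_smul]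
        congr 2
        ring
      have hl0 : lam ≠ 0 := by
        intro h0
        rw [h0, zero_smul] at hlam
        exact n3 hlam
      rw [hlam, real_inner_smul_right, norm_smul, mul_pow, Real.norm_eq_abs, sq_abs] at i3
      have e1 : lam * (‖w1‖ ^ 2) * (1 + lam) = 0 := by
        have : 2 * (lam * inner ℝ (a0 - p) w1) = lam * (2 * inner ℝ (a0 - p) w1) := by ring
        rw [this, i1] at i3
        linarith
      rcases mul_eq_zero.mp e1 with h6 | h6
      · rcases mul_eq_zero.mp h6 with h7 | h7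
        · exact hl0 h7
        · exact q1 h7
      · have h7 : lam = -1 := by linarith
        apply n2
        rw [hlam, h7, neg_smul, one_smul] at hsum
        have : w1 + w2 + -w1 = w2 := by abel
        rw [this] at hsum
        exact hsum
  -- the common scale
  have scale : ∀ a b c : E, a ≠ b → a - b ∈ Submodule.span ℝ {a0 - b0} →
      b - c ∈ Submodule.span ℝ {b0 - c0} → c - a ∈ Submodule.span ℝ {c0 - a0} →
      ∃ s : ℝ, s ≠ 0 ∧ a - b = s • w1 ∧ c - a = s • w3 := by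
    intro a b c hne ha hb hc
    obtain ⟨s1, hs1⟩ := Submodule.mem_span_singleton.mp ha
    obtain ⟨s2, hs2⟩ := Submodule.mem_span_singleton.mp hb
    obtain ⟨s3, hs3⟩ := Submodule.mem_span_singleton.mp hc
    rw [← hw1] at hs1
    rw [← hw2] at hs2
    rw [← hw3] at hs3
    have e1 : s1 • w1 + s2 • w2 + s3 • w3 = 0 := by rw [hs1, hs2, hs3]; abel
    have e2 : w2 = -w1 - w3 := by
      have : w1 + w2 + w3 = 0 := hsum
      have h5 : w2 = (w1 + w2 + w3) - w1 - w3 := by abel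
      rw [h5, this]; abel
    rw [e2] at e1
    have e3 : (s1 - s2) • w1 + (s3 - s2) • w3 = 0 := by
      rw [← e1, smul_sub, smul_neg, sub_smul, sub_smul]
      abel
    obtain ⟨e4, e5⟩ := indep _ _ e3
    have e6 : s1 = s2 := by linarith
    have e7 : s3 = s2 := by linarith
    refine ⟨s2, ?_, by rw [← hs1, e6], by rw [← hs3, e7]⟩
    intro h0
    rw [e6, h0, zero_smul] at hs1
    exact hne (sub_eq_zero.mp hs1.symm)
  obtain ⟨m, hm⟩ : ∃ m : E, m = (1 / ‖w1‖ ^ 2) • w1 + (1 / ‖w3‖ ^ 2) • w3 := ⟨_, rfl⟩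
  have hm0 : m ≠ 0 := by
    intro h0
    rw [hm] at h0
    have := (indep _ _ h0).1
    exact q1 (by
      have h5 := this
      rw [one_div, inv_eq_zero] at h5
      exact h5)
  have hma : ∀ a b c : E, a ≠ b → ‖a - p‖ = ‖b - p‖ → ‖a - p‖ = ‖c - p‖ →
        a - b ∈ Submodule.span ℝ {a0 - b0} → b - c ∈ Submodule.span ℝ {b0 - c0} →
        c - a ∈ Submodule.span ℝ {c0 - a0} → ∃ s : ℝ, s ≠ 0 ∧ inner ℝ m (a - p) = 0 ∧
          inner ℝ m (b - p) = -(s * (1 + inner ℝ w1 w3 / ‖w3‖ ^ 2)) ∧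
          inner ℝ m (c - p) = s * (1 + inner ℝ w1 w3 / ‖w1‖ ^ 2) := by
    intro a b c hne e1 e2 m1 m2 m3
    obtain ⟨s, hs, t1, t3⟩ := scale a b c hne m1 m2 m3
    have i1 := id1 a b s hs e1 t1
    have i3 := id3 a c s hs e2 t3
    have hz : inner ℝ m (a - p) = 0 := by
      rw [hm, inner_add_left, real_inner_smul_left, real_inner_smul_left,
        real_inner_comm (a - p) w1, real_inner_comm (a - p) w3]
      have i1' : inner ℝ (a - p) w1 = s * ‖w1‖ ^ 2 / 2 := by linarith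
      have i3' : inner ℝ (a - p) w3 = -(s * ‖w3‖ ^ 2 / 2) := by linarith
      rw [i1', i3']
      field_simp
      ring
    have k1 : inner ℝ m w1 = 1 + inner ℝ w1 w3 / ‖w3‖ ^ 2 := by
      rw [hm, inner_add_left, real_inner_smul_left, real_inner_smul_left,
        real_inner_self_eq_norm_sq, real_inner_comm w1 w3]
      field_simp
    have k3 : inner ℝ m w3 = 1 + inner ℝ w1 w3 / ‖w1‖ ^ 2 := by
      rw [hm, inner_add_left, real_inner_smul_left, real_inner_smul_left,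
        real_inner_self_eq_norm_sq]
      field_simp
      ring
    refine ⟨s, hs, hz, ?_, ?_⟩
    · rw [show b - p = (a - p) - (a - b) by abel, t1, inner_sub_right, hz, real_inner_smul_right, k1]
      ring
    · rw [show c - p = (a - p) + (c - a) by abel, t3, inner_add_right, hz, real_inner_smul_right, k3]
      ring
  have hmsp : m ∈ Submodule.span ℝ {a0 - b0} ⊔ Submodule.span ℝ {a0 - c0} := by
    rw [hm]
    apply Submodule.add_mem_sup
    · rw [hw1]
      exact Submodule.smul_mem _ _ (Submodule.mem_span_singleton_self _)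
    · rw [hw3, ← neg_sub a0 c0]
      exact Submodule.smul_mem _ _ (Submodule.neg_mem _ (Submodule.mem_span_singleton_self _))
  refine ⟨m, hm0, hmsp, ?_⟩
  by_cases hcase : 1 + inner ℝ w1 w3 / ‖w3‖ ^ 2 = 0
  · right
    have hc2 : 1 + inner ℝ w1 w3 / ‖w1‖ ^ 2 ≠ 0 := by
      intro h5
      have e1 : inner ℝ w1 w3 = -‖w3‖ ^ 2 := by
        field_simp at hcase
        linarith
      have e2 : inner ℝ w1 w3 = -‖w1‖ ^ 2 := by
        field_simp at h5
        linarith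
      apply n2
      have e3 : ‖w2‖ ^ 2 = 0 := by
        have h6 : w2 = -(w1 + w3) := by
          have h7 : w2 = (w1 + w2 + w3) - (w1 + w3) := by abel
          rw [h7, hsum, zero_sub]
        rw [h6, norm_neg, norm_add_sq_real]
        linarith
      exact norm_eq_zero.mp (pow_eq_zero_iff (two_ne_zero)|>.mp e3)
    intro a b c hne e1 e2 m1 m2 m3
    obtain ⟨s, hs, z0, z1, z2⟩ := hma a b c hne e1 e2 m1 m2 m3
    refine ⟨z0, ?_⟩
    rw [z2]
    exact mul_ne_zero hs hc2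
  · left
    intro a b c hne e1 e2 m1 m2 m3
    obtain ⟨s, hs, z0, z1, z2⟩ := hma a b c hne e1 e2 m1 m2 m3
    refine ⟨z0, ?_⟩
    rw [z1]
    exact neg_ne_zero.mpr (mul_ne_zero hs hcase)

/-- (A1) triangle algebra -/
theorem refl_tri2 {d : ℕ} (p : EuclideanSpace ℝ (Fin d)) (w1 w2 w3 : EuclideanSpace ℝ (Fin d) × ℝ)
    (h1 : w1 ∈ hyp p) (h2 : w2 ∈ hyp p) (h3 : w3 ∈ hyp p) (n1 : w1 ≠ 0) :
    ∃ m : EuclideanSpace ℝ (Fin d), m ≠ 0 ∧
      m ∈ Submodule.span ℝ {w1.1} ⊔ Submodule.span ℝ {w3.1} ∧ ∃ w, (w = w1 ∨ w = w3) ∧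
      ∀ a, a ≠ rf w1 a → rf w1 a ≠ rf w2 (rf w1 a) → rf w2 (rf w1 a) ≠ a →
        rf w3 a = rf w2 (rf w1 a) → inner ℝ m (a - p) = 0 ∧ inner ℝ m (rf w a - p) ≠ 0 := by
  by_cases hex : ∃ a, a ≠ rf w1 a ∧ rf w1 a ≠ rf w2 (rf w1 a) ∧ rf w2 (rf w1 a) ≠ a ∧
      rf w3 a = rf w2 (rf w1 a)
  · obtain ⟨a0, k1, k2, k3, k4⟩ := hex
    have k3' : a0 ≠ rf w3 a0 := by rw [k4]; exact k3.symm
    have k2' : rf w1 a0 ≠ rf w2 (rf w1 a0) := k2
    obtain ⟨m, hm, hmsp, hor⟩ := tri_plane2 p a0 (rf w1 a0) (rf w3 a0) k1 (by rw [k4]; exact k2) k3'.symm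
      (norm_rf w1 p a0 h1).symm (norm_rf w3 p a0 h3).symm
    have hsp : ∀ a, a ≠ rf w1 a → rf w1 a ≠ rf w2 (rf w1 a) → rf w2 (rf w1 a) ≠ a →
        rf w3 a = rf w2 (rf w1 a) →
        a - rf w1 a ∈ Submodule.span ℝ {a0 - rf w1 a0} ∧
        rf w1 a - rf w3 a ∈ Submodule.span ℝ {rf w1 a0 - rf w3 a0} ∧
        rf w3 a - a ∈ Submodule.span ℝ {rf w3 a0 - a0} := by
      intro a _ _ _ e4
      refine ⟨span_rf w1 a0 a k1, ?_, ?_⟩
      · rw [e4, k4]
        exact span_rf w2 (rf w1 a0) (rf w1 a) k2'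
      · rw [← neg_sub a, ← neg_sub a0]
        have := span_rf w3 a0 a k3'
        rw [Submodule.mem_span_singleton] at this ⊢
        obtain ⟨c, hc⟩ := this
        exact ⟨c, by rw [smul_neg, hc]⟩
    have hmsp2 : m ∈ Submodule.span ℝ {w1.1} ⊔ Submodule.span ℝ {w3.1} := by
      have hle1 : Submodule.span ℝ {a0 - rf w1 a0} ≤ Submodule.span ℝ {w1.1} := by
        rw [Submodule.span_singleton_le_iff_mem]
        exact rf_sub_mem w1 a0
      have hle3 : Submodule.span ℝ {a0 - rf w3 a0} ≤ Submodule.span ℝ {w3.1} := by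
        rw [Submodule.span_singleton_le_iff_mem]
        exact rf_sub_mem w3 a0
      have hle := sup_le_sup hle1 hle3
      exact hle hmsp
    refine ⟨m, hm, hmsp2, ?_⟩
    rcases hor with hor | hor
    · refine ⟨w1, Or.inl rfl, ?_⟩
      intro a e1 e2 e3 e4
      obtain ⟨s1, s2, s3⟩ := hsp a e1 e2 e3 e4
      exact hor a (rf w1 a) (rf w3 a) e1 (norm_rf w1 p a h1).symm (norm_rf w3 p a h3).symm s1 s2 s3
    · refine ⟨w3, Or.inr rfl, ?_⟩
      intro a e1 e2 e3 e4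
      obtain ⟨s1, s2, s3⟩ := hsp a e1 e2 e3 e4
      exact hor a (rf w1 a) (rf w3 a) e1 (norm_rf w1 p a h1).symm (norm_rf w3 p a h3).symm s1 s2 s3
  · refine ⟨w1.1, fst_ne_zero w1 p h1 n1,
      Submodule.mem_sup_left (Submodule.mem_span_singleton_self _), w1, Or.inl rfl, ?_⟩
    intro a e1 e2 e3 e4
    exact absurd ⟨a, e1, e2, e3, e4⟩ hex


end Vale.Agent.P054G
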