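import Vale.Agent.P054.MathlibUsed
import Vale.Agent.P054.R2.H524.CountA
import Vale.Agent.P054.H343.G.LocW
import Vale.Agent.P054.H343.G.Tri2
attribute [-instance] ProperSMul.toContinuousSMul IsTopologicalTorsor.toContinuousSMul IdemSemiring.toCanonicallyOrderedAdd IdemSemiring.toMulLeftMono IdemSemiring.toMulRightMono AddQuantale.instAddLeftMono AddQuantale.instAddRightMono Quantale.instMulLeftMono Quantale.instMulRightMono FiniteDimensional.rclike_to_real IsScalarTower.complexToReal FiniteDimensional.complexToReal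

set_option linter.all false
set_option autoImplicit false

open Finset

/-! P054, Theorem G: all patterns of a bad centre, adjacent flats. -/

namespace Vale.Agent.P054G

open Vale.Agent.P054K

/-- the points fixed by the reflection -/
noncomputable def fx {d : ℕ} (w : EuclideanSpace ℝ (Fin d) × ℝ) :
    Submodule ℝ (EuclideanSpace ℝ (Fin d) × ℝ) :=
  LinearMap.ker ((innerₛₗ ℝ w.1).coprod ((-(w.2 / 2)) • (LinearMap.id : ℝ →ₗ[ℝ] ℝ)))

theorem mem_fx {d : ℕ} (w y : EuclideanSpace ℝ (Fin d) × ℝ) :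
    y ∈ fx w ↔ 2 * inner ℝ w.1 y.1 = w.2 * y.2 := by
  unfold fx
  rw [LinearMap.mem_ker, LinearMap.coprod_apply]
  simp only [innerₛₗ_apply_apply, LinearMap.smul_apply, LinearMap.id_coe, id_eq, smul_eq_mul]
  constructor
  · intro h; linarith
  · intro h; linarith

theorem fx_fixed {d : ℕ} (w y : EuclideanSpace ℝ (Fin d) × ℝ) (h : y ∈ fx w) : rfL w y = y := by
  rw [mem_fx] at h
  unfold rfL
  simp only [LinearMap.coe_mk, AddHom.coe_mk]
  rw [h, sub_self, zero_div, zero_smul, sub_zero]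

theorem lf_mem_fx {d : ℕ} (w : EuclideanSpace ℝ (Fin d) × ℝ) (z : EuclideanSpace ℝ (Fin d))
    (h : lf z ∈ fx w) : rf w z = z := by
  have h1 := fx_fixed w (lf z) h
  rw [rfL_lf] at h1
  exact congrArg Prod.fst h1

/-- a kernel of a functional has codimension at most one -/
theorem finrank_inf_ker {V : Type} [AddCommGroup V] [Module ℝ V] [FiniteDimensional ℝ V]
    (U : Submodule ℝ V) (f : V →ₗ[ℝ] ℝ) :
    Module.finrank ℝ U ≤ Module.finrank ℝ (U ⊓ LinearMap.ker f : Submodule ℝ V) + 1 := by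
  have h2 := LinearMap.finrank_range_add_finrank_ker (f.domRestrict U)
  have h3 : Module.finrank ℝ (LinearMap.range (f.domRestrict U)) ≤ 1 := by
    refine (Submodule.finrank_le _).trans ?_
    rw [Module.finrank_self]
  have h4 : Module.finrank ℝ (LinearMap.ker (f.domRestrict U)) =
      Module.finrank ℝ (U ⊓ LinearMap.ker f : Submodule ℝ V) := by
    have h5 : U ⊓ LinearMap.ker f = (LinearMap.ker (f.domRestrict U)).map U.subtype := by
      ext v
      simp only [Submodule.mem_inf, LinearMap.mem_ker, Submodule.mem_map,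
        LinearMap.domRestrict_apply, Submodule.subtype_apply, Subtype.exists,
        exists_and_right, exists_eq_right]
      constructor
      · rintro ⟨a, b⟩; exact ⟨a, b⟩
      · rintro ⟨a, b⟩; exact ⟨a, b⟩
    rw [h5]
    exact (LinearEquiv.finrank_eq (Submodule.equivMapOfInjective U.subtype
      U.injective_subtype _))
  omega

/-- the axis of two mirrors meets a flat of the hyperplane in codimension one -/
theorem axis_codim {d : ℕ} (p m : EuclideanSpace ℝ (Fin d))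
    (w1 w3 : EuclideanSpace ℝ (Fin d) × ℝ) (h1 : w1 ∈ hyp p) (h3 : w3 ∈ hyp p) (hm0 : m ≠ 0)
    (hm : m ∈ Submodule.span ℝ {w1.1} ⊔ Submodule.span ℝ {w3.1})
    (U : Submodule ℝ (EuclideanSpace ℝ (Fin d) × ℝ)) (hU : U ≤ hf m p) :
    Module.finrank ℝ U ≤ Module.finrank ℝ (U ⊓ (fx w1 ⊓ fx w3) :
      Submodule ℝ (EuclideanSpace ℝ (Fin d) × ℝ)) + 1 := by
  have hw1 : 2 * inner ℝ w1.1 p = w1.2 := by
    obtain ⟨u, c⟩ := w1
    rw [mem_hyp] at h1
    simp only
    rw [real_inner_comm]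
    exact h1
  have hw3 : 2 * inner ℝ w3.1 p = w3.2 := by
    obtain ⟨u, c⟩ := w3
    rw [mem_hyp] at h3
    simp only
    rw [real_inner_comm]
    exact h3
  obtain ⟨v1, hv1, v3, hv3, hmv⟩ := Submodule.mem_sup.mp hm
  obtain ⟨α, rfl⟩ := Submodule.mem_span_singleton.mp hv1
  obtain ⟨β, rfl⟩ := Submodule.mem_span_singleton.mp hv3
  -- on `hf m p` one of the two functionals is a multiple of the other
  have hrel : ∀ y ∈ U, α * (2 * inner ℝ w1.1 y.1 - w1.2 * y.2) +
      β * (2 * inner ℝ w3.1 y.1 - w3.2 * y.2) = 0 := by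
    intro y hy
    have h := (mem_hf m p y).mp (hU hy)
    rw [← hmv, inner_add_left, inner_add_left, real_inner_smul_left, real_inner_smul_left,
      real_inner_smul_left, real_inner_smul_left] at h
    rw [← hw1, ← hw3]
    linear_combination 2 * h
  have hne : α ≠ 0 ∨ β ≠ 0 := by
    by_contra hcon
    push Not at hcon
    apply hm0
    rw [← hmv, hcon.1, hcon.2, zero_smul, zero_smul, add_zero]
  rcases hne with hα | hβ
  · have heq : U ⊓ (fx w1 ⊓ fx w3) = U ⊓ fx w3 := by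
      apply le_antisymm
      · exact le_inf inf_le_left (inf_le_right.trans inf_le_right)
      · refine le_inf inf_le_left (le_inf ?_ inf_le_right)
        rintro y ⟨hyU, hy3⟩
        rw [SetLike.mem_coe] at hyU hy3
        have h := hrel y hyU
        rw [mem_fx] at hy3
        rw [hy3, sub_self, mul_zero, add_zero] at h
        rw [mem_fx]
        rcases mul_eq_zero.mp h with h' | h'
        · exact absurd h' hα
        · linarith
    rw [heq]
    exact finrank_inf_ker U _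
  · have heq : U ⊓ (fx w1 ⊓ fx w3) = U ⊓ fx w1 := by
      apply le_antisymm
      · exact le_inf inf_le_left (inf_le_right.trans inf_le_left)
      · refine le_inf inf_le_left (le_inf inf_le_right ?_)
        rintro y ⟨hyU, hy1⟩
        rw [SetLike.mem_coe] at hyU hy1
        have h := hrel y hyU
        rw [mem_fx] at hy1
        rw [hy1, sub_self, mul_zero, zero_add] at h
        rw [mem_fx]
        rcases mul_eq_zero.mp h with h' | h'
        · exact absurd h' hβ
        · linarith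
    rw [heq]
    exact finrank_inf_ker U _

/-- the data attached to a flat of a bad centre, with the common subflat -/
def Dat2 {d : ℕ} (X : Finset (EuclideanSpace ℝ (Fin d))) (θ : ℝ) (r : ℕ)
    (p : EuclideanSpace ℝ (Fin d)) (U : Submodule ℝ (EuclideanSpace ℝ (Fin d) × ℝ)) : Prop :=
  ∃ (w1 w2 w3 : EuclideanSpace ℝ (Fin d) × ℝ), w1 ∈ hyp p ∧ w2 ∈ hyp p ∧
      w3 ∈ hyp p ∧ w1 ≠ 0 ∧ w2 ≠ 0 ∧ w3 ≠ 0 ∧
      w2 ∉ Submodule.span ℝ {w1} ∧ w3 ∉ Submodule.span ℝ {w1} ∧ w3 ∉ Submodule.span ℝ {w2} ∧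
      RobA X θ r U ∧ RobA X θ r (U.map (rfL w1)) ∧ RobA X θ r (U.map (rfL w3)) ∧
      (U.map (rfL w1)).map (rfL w2) = U.map (rfL w3) ∧
      (U.map (rfL w1) ≠ U ∨ U.map (rfL w3) ≠ U) ∧ (r = d → ∃ m, m ≠ 0 ∧ U = hf m p) ∧
      ∃ W : Submodule ℝ (EuclideanSpace ℝ (Fin d) × ℝ), Module.finrank ℝ W + 1 = r ∧ W ≤ U ∧
        W ≤ U.map (rfL w1) ∧ W ≤ U.map (rfL w3)

/-- the flat of one pattern -/
theorem dat_of_pattern2 {d : ℕ} (X A : Finset (EuclideanSpace ℝ (Fin d))) (hAX : A ⊆ X) (θ : ℝ)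
    (hθ0 : 0 < θ) (hθ : θ ≤ (A.card : ℝ) / 2 ^ d) (hAcard : 2 ^ d < A.card)
    (p : EuclideanSpace ℝ (Fin d)) (w1 w2 w3 : EuclideanSpace ℝ (Fin d) × ℝ) (h1 : w1 ∈ hyp p)
    (h2 : w2 ∈ hyp p) (h3 : w3 ∈ hyp p) (n1 : w1 ≠ 0) (n2 : w2 ≠ 0) (n3 : w3 ≠ 0)
    (hA : ∀ a ∈ A, Follows X w1 w2 w3 a) :
    ∃ (r : ℕ) (U : Submodule ℝ (EuclideanSpace ℝ (Fin d) × ℝ)), 2 ≤ r ∧ r ≤ d ∧
      (A.card : ℝ) / 2 ^ d ≤ mass A lf U ∧ Dat2 X θ r p U := by
  classical
  have hAne : A.Nonempty := by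
    rw [← card_pos]
    have : 0 < 2 ^ d := by positivity
    omega
  obtain ⟨a0, ha0⟩ := hAne
  have hA0 := hA a0 ha0
  obtain ⟨-, -, f3, f4, f5, f6⟩ := hA0
  have hs12 : w2 ∉ Submodule.span ℝ {w1} := by
    intro hc
    have e := rf_of_span w2 w1 n2 n1 hc (rf w1 a0)
    rw [rf_rf, f3] at e
    exact f6 e
  have hs13 : w3 ∉ Submodule.span ℝ {w1} := by
    intro hc
    exact f5 (rf_of_span w3 w1 n3 n1 hc a0).symm
  have hs23 : w3 ∉ Submodule.span ℝ {w2} := by
    intro hc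
    have e := rf_of_span w3 w2 n3 n2 hc a0
    rw [← f3] at e
    have e2 := congrArg (rf w2) e
    rw [rf_rf, rf_rf] at e2
    exact f4 e2.symm
  obtain ⟨m, hm, hmsp, w, hw, hmA⟩ := refl_tri2 p w1 w2 w3 h1 h2 h3 n1
  have hmA' : ∀ a ∈ A, inner ℝ m (a - p) = 0 ∧ inner ℝ m (rf w a - p) ≠ 0 := by
    intro a ha
    obtain ⟨-, -, g3, g4, g5, g6⟩ := hA a ha
    exact hmA a g4 (by rw [g3]; exact g5) (by rw [g3]; exact g6) g3.symm
  obtain ⟨r, U, hr2, hrd, hU0, hRob⟩ := min_flatA A (hf m p) (finrank_hf m p hm).le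
    (fun a ha => (lf_mem_hf m p a).mpr (hmA' a ha).1) hAcard
  have hRobA : RobA A θ r U := hRob.mono (Finset.Subset.refl A) hθ
  have hRobR := hRobA.toRob hθ0.le
  obtain ⟨a1, ha1, ha1U⟩ := hRobR.nonempty (by omega) (by positivity)
  have hwne : U.map (rfL w) ≠ U := by
    intro hc
    have e1 : lf (rf w a1) ∈ U := by
      rw [← hc, ← rfL_lf]
      exact Submodule.mem_map_of_mem ha1U
    exact (hmA' a1 ha1).2 ((lf_mem_hf m p _).mp (hU0 e1))
  have hmass : (A.card : ℝ) / 2 ^ d ≤ mass A lf U := by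
    obtain ⟨_, A', hA'A, hA'U, hA'c, _⟩ := hRob
    refine hA'c.trans ?_
    unfold mass
    norm_cast
    apply card_le_card
    intro a ha
    rw [mem_filter]
    exact ⟨hA'A ha, hA'U a ha⟩
  refine ⟨r, U, hr2, hrd, hmass, w1, w2, w3, h1, h2, h3, n1, n2, n3, hs12, hs13, hs23,
    hRobA.mono hAX le_rfl, robA_map A X _ r U w1 hRobA (fun a ha => (hA a ha).1),
    robA_map A X _ r U w3 hRobA (fun a ha => (hA a ha).2.1),
    map_pattern A _ r U hRobR (by positivity) w1 w2 w3 (fun a ha => (hA a ha).2.2.1), ?_, ?_,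
    U ⊓ (fx w1 ⊓ fx w3), ?_, inf_le_left, ?_, ?_⟩
  · rcases hw with rfl | rfl
    · exact Or.inl hwne
    · exact Or.inr hwne
  · intro hr
    refine ⟨m, hm, ?_⟩
    apply Submodule.eq_of_le_of_finrank_eq hU0
    rw [finrank_hf m p hm, hRob.1, hr]
  · have e1 := axis_codim p m w1 w3 h1 h3 hm hmsp U hU0
    have e2 : U ⊓ (fx w1 ⊓ fx w3) < U := by
      refine lt_of_le_of_ne inf_le_left ?_
      intro hc
      have e3 : lf a1 ∈ fx w1 := by
        have : lf a1 ∈ U ⊓ (fx w1 ⊓ fx w3) := by rw [hc]; exact ha1U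
        exact this.2.1
      exact (hA a1 ha1).2.2.2.1 (lf_mem_fx w1 a1 e3).symm
    have e4 := Submodule.finrank_lt_finrank_of_lt e2
    rw [hRob.1] at e1 e4
    omega
  · rintro y ⟨hyU, hy1, hy3⟩
    exact ⟨y, hyU, fx_fixed w1 y hy1⟩
  · rintro y ⟨hyU, hy1, hy3⟩
    exact ⟨y, hyU, fx_fixed w3 y hy3⟩

/-- **the flats of a bad centre**: their total mass is at least `#X / 2 ^ (d + 4)` -/
theorem bad_flats2 {d : ℕ} (X : Finset (EuclideanSpace ℝ (Fin d))) (η : ℝ) (hη : 0 < η)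
    (hX : 2 ^ (d + 4) * η ^ 3 < X.card) (p : EuclideanSpace ℝ (Fin d)) (hp : Bad X η p) :
    ∃ 𝒰 : Finset (Submodule ℝ (EuclideanSpace ℝ (Fin d) × ℝ)),
      (X.card : ℝ) / 2 ^ (d + 4) ≤ ∑ U ∈ 𝒰, mass X lf U ∧
      ∀ U ∈ 𝒰, ∃ r, 2 ≤ r ∧ r ≤ d ∧ Dat2 X ((X.card : ℝ) / (2 ^ (d + 4) * η ^ 3)) r p U := by
  classical
  obtain ⟨G, T, f, hGX, hXG, hT, hfT, hpat⟩ := pat_map X η p hp
  have hXpos : (0:ℝ) < X.card := lt_of_le_of_lt (by positivity) hX
  have hη3 : 0 < η ^ 3 := by positivity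
  obtain ⟨θ, hθ⟩ : ∃ θ : ℝ, θ = (X.card : ℝ) / (2 ^ (d + 4) * η ^ 3) := ⟨_, rfl⟩
  rw [← hθ]
  have hθ0 : 0 < θ := by rw [hθ]; positivity
  -- big patterns
  obtain ⟨Tb, hTb⟩ : ∃ Tb : Finset (Submodule ℝ (EuclideanSpace ℝ (Fin d) × ℝ) ×
        Submodule ℝ (EuclideanSpace ℝ (Fin d) × ℝ) × Submodule ℝ (EuclideanSpace ℝ (Fin d) × ℝ)),
      Tb = T.filter (fun τ => (X.card : ℝ) / (16 * η ^ 3) ≤ (G.filter (fun a => f a = τ)).card) :=
    ⟨_, rfl⟩
  have hsum : (X.card : ℝ) / 16 ≤ ∑ τ ∈ Tb, ((G.filter (fun a => f a = τ)).card : ℝ) := by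
    have h1 : (G.card : ℝ) = ∑ τ ∈ T, ((G.filter (fun a => f a = τ)).card : ℝ) := by
      exact_mod_cast card_eq_sum_card_fiberwise hfT
    have h2 : ∑ τ ∈ T, ((G.filter (fun a => f a = τ)).card : ℝ) =
        ∑ τ ∈ Tb, ((G.filter (fun a => f a = τ)).card : ℝ) +
        ∑ τ ∈ T.filter (fun τ => ¬ (X.card : ℝ) / (16 * η ^ 3) ≤
          (G.filter (fun a => f a = τ)).card), ((G.filter (fun a => f a = τ)).card : ℝ) := by
      rw [hTb, sum_filter_add_sum_filter_not]
    have h3 : ∑ τ ∈ T.filter (fun τ => ¬ (X.card : ℝ) / (16 * η ^ 3) ≤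
          (G.filter (fun a => f a = τ)).card), ((G.filter (fun a => f a = τ)).card : ℝ) ≤
        (X.card : ℝ) / 16 := by
      calc _ ≤ ∑ _τ ∈ T.filter (fun τ => ¬ (X.card : ℝ) / (16 * η ^ 3) ≤
          (G.filter (fun a => f a = τ)).card), (X.card : ℝ) / (16 * η ^ 3) := by
            apply sum_le_sum
            intro τ hτ
            have := (mem_filter.mp hτ).2
            push Not at this
            exact this.le
        _ = ((T.filter (fun τ => ¬ (X.card : ℝ) / (16 * η ^ 3) ≤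
          (G.filter (fun a => f a = τ)).card)).card : ℝ) * ((X.card : ℝ) / (16 * η ^ 3)) := by
            rw [sum_const, nsmul_eq_mul]
        _ ≤ η ^ 3 * ((X.card : ℝ) / (16 * η ^ 3)) := by
            apply mul_le_mul_of_nonneg_right _ (by positivity)
            refine le_trans ?_ hT
            exact_mod_cast card_filter_le _ _
        _ = (X.card : ℝ) / 16 := by field_simp
    linarith
  -- the flats
  have hch : ∀ τ ∈ Tb, ∃ U : Submodule ℝ (EuclideanSpace ℝ (Fin d) × ℝ),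
      ((G.filter (fun a => f a = τ)).card : ℝ) / 2 ^ d ≤ mass (G.filter (fun a => f a = τ)) lf U ∧
      ∃ r, 2 ≤ r ∧ r ≤ d ∧ Dat2 X θ r p U := by
    intro τ hτ
    rw [hTb, mem_filter] at hτ
    have hbig := hτ.2
    have hpos : (0:ℝ) < (G.filter (fun a => f a = τ)).card :=
      lt_of_lt_of_le (by positivity) hbig
    have hne : (G.filter (fun a => f a = τ)).Nonempty := by
      rw [← card_pos]
      exact_mod_cast hpos
    obtain ⟨a', ha'⟩ := hne
    rw [mem_filter] at ha'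
    obtain ⟨w1, h1, w2, h2, w3, h3, n1, n2, n3, hfol⟩ := hpat a' ha'.1
    have hθA : θ ≤ ((G.filter (fun a => f a = τ)).card : ℝ) / 2 ^ d := by
      rw [hθ, le_div_iff₀ (by positivity)]
      refine le_trans (le_of_eq ?_) hbig
      rw [pow_add]
      field_simp
      norm_num
    have hcard : 2 ^ d < (G.filter (fun a => f a = τ)).card := by
      have e1 : (1:ℝ) < θ := by
        rw [hθ, lt_div_iff₀ (by positivity), one_mul]
        exact hX
      have e2 : (1:ℝ) < ((G.filter (fun a => f a = τ)).card : ℝ) / 2 ^ d := lt_of_lt_of_le e1 hθA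
      rw [lt_div_iff₀ (by positivity), one_mul] at e2
      exact_mod_cast e2
    obtain ⟨r, U, hr2, hrd, hm, hD⟩ := dat_of_pattern2 X (G.filter (fun a => f a = τ))
      ((filter_subset _ _).trans hGX) θ hθ0 hθA hcard p w1 w2 w3 h1 h2 h3 n1 n2 n3 (by
        intro a ha
        rw [mem_filter] at ha
        exact hfol a ha.1 (ha.2.trans ha'.2.symm))
    exact ⟨U, hm, r, hr2, hrd, hD⟩
  choose! Uf hUf1 hUf2 using hch
  refine ⟨Tb.image Uf, ?_, ?_⟩
  · have h1 : (X.card : ℝ) / 2 ^ (d + 4) ≤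
        ∑ τ ∈ Tb, mass (G.filter (fun a => f a = τ)) lf (Uf τ) := by
      calc (X.card : ℝ) / 2 ^ (d + 4) = ((X.card : ℝ) / 16) / 2 ^ d := by
            rw [pow_add, div_div]
            congr 1
            ring
        _ ≤ (∑ τ ∈ Tb, ((G.filter (fun a => f a = τ)).card : ℝ)) / 2 ^ d :=
            div_le_div_of_nonneg_right hsum (by positivity)
        _ = ∑ τ ∈ Tb, ((G.filter (fun a => f a = τ)).card : ℝ) / 2 ^ d := by rw [sum_div]
        _ ≤ _ := sum_le_sum hUf1
    refine h1.trans ?_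
    rw [← sum_fiberwise_of_maps_to (s := Tb) (t := Tb.image Uf) (g := Uf)
      (fun τ hτ => mem_image_of_mem _ hτ)]
    apply sum_le_sum
    intro U _
    -- disjoint pieces
    have h2 : ∑ τ ∈ Tb.filter (fun τ => Uf τ = U), mass (G.filter (fun a => f a = τ)) lf (Uf τ) =
        ((∑ τ ∈ Tb.filter (fun τ => Uf τ = U),
          ((G.filter (fun a => f a = τ)).filter (fun a => lf a ∈ U)).card : ℕ) : ℝ) := by
      push_cast
      apply sum_congr rfl
      intro τ hτ
      rw [(mem_filter.mp hτ).2]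
      rfl
    rw [h2]
    unfold mass
    norm_cast
    rw [← card_biUnion]
    · apply card_le_card
      intro a ha
      rw [mem_biUnion] at ha
      obtain ⟨τ, _, ha⟩ := ha
      rw [mem_filter, mem_filter] at ha
      rw [mem_filter]
      exact ⟨hGX ha.1.1, ha.2⟩
    · intro τ _ τ' _ hne
      change Disjoint _ _
      rw [disjoint_left]
      intro a ha ha'
      rw [mem_filter, mem_filter] at ha ha'
      exact hne (ha.1.2.symm.trans ha'.1.2)
  · intro U hU
    rw [mem_image] at hU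
    obtain ⟨τ, hτ, rfl⟩ := hU
    exact hUf2 τ hτ

end Vale.Agent.P054G
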