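import Vale.Agent.P054.MathlibUsed
import Vale.Agent.P054.H239.HFin
import Vale.Agent.P054.H343.G.PatC
attribute [-instance] ProperSMul.toContinuousSMul IsTopologicalTorsor.toContinuousSMul IdemSemiring.toCanonicallyOrderedAdd IdemSemiring.toMulLeftMono IdemSemiring.toMulRightMono AddQuantale.instAddLeftMono AddQuantale.instAddRightMono Quantale.instMulLeftMono Quantale.instMulRightMono FiniteDimensional.rclike_to_real IsScalarTower.complexToReal FiniteDimensional.complexToReal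

set_option linter.all false
set_option autoImplicit false

open Finset

/-! P054, Theorem G: the number of bad centres, with multiplicity and adjacency. -/

namespace Vale.Agent.P054G

open Vale.Agent.P054K

open scoped Classical in
/-- centres on a robust hyperplane -/
theorem dat2_top {d : ℕ} (P X : Finset (EuclideanSpace ℝ (Fin d))) (θ M1 : ℝ) (hM1 : 0 ≤ M1)
    (hg1 : ∀ p0 v : EuclideanSpace ℝ (Fin d), v ≠ 0 →
      ((P.filter (fun z => inner ℝ v (z - p0) = 0)).card : ℝ) ≤ M1)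
    (U : Submodule ℝ (EuclideanSpace ℝ (Fin d) × ℝ)) :
    ((P.filter (fun p => Dat2 X θ d p U)).card : ℝ) ≤ M1 := by
  rcases (P.filter (fun p => Dat2 X θ d p U)).eq_empty_or_nonempty with h0 | ⟨p0, hp0⟩
  · rw [h0, card_empty]
    simpa using hM1
  · rw [mem_filter] at hp0
    obtain ⟨_, w1, w2, w3, _, _, _, _, _, _, _, _, _, _, _, _, _, _, hd, _⟩ := hp0
    obtain ⟨m, hm, hUm⟩ := hd rfl
    refine le_trans ?_ (hg1 p0 m hm)
    norm_cast
    apply card_le_card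
    intro p hp
    rw [mem_filter] at hp ⊢
    refine ⟨hp.1, ?_⟩
    obtain ⟨_, v1, v2, v3, _, _, _, _, _, _, _, _, _, _, _, _, _, _, hd', _⟩ := hp
    obtain ⟨m', hm', hUm'⟩ := hd' rfl
    have h1 : lf p ∈ U := by
      rw [hUm', lf_mem_hf, sub_self, inner_zero_right]
    rw [hUm, lf_mem_hf] at h1
    exact h1

open scoped Classical in
/-- centres of a small robust flat, triples of flats -/
theorem dat2_triples {d : ℕ} (P X : Finset (EuclideanSpace ℝ (Fin d))) (θ M2 : ℝ) (hθ0 : 0 < θ)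
    (hM2 : 0 ≤ M2) (r : ℕ) (hr2 : 2 ≤ r)
    (hg2 : ∀ D : Submodule ℝ (EuclideanSpace ℝ (Fin d) × ℝ), Module.finrank ℝ D = 2 →
      ((P.filter (fun p => D ≤ hyp p)).card : ℝ) ≤ M2)
    (U : Submodule ℝ (EuclideanSpace ℝ (Fin d) × ℝ)) :
    ((P.filter (fun p => Dat2 X θ r p U)).card : ℝ) ≤
      2 * ((robsA X θ r).card * (2 * X.card / θ)) * (12 * M2) := by
  obtain ⟨L, hL2, hL⟩ := mirror_fun d
  -- adjacent pairs
  obtain ⟨T1, hT1⟩ : ∃ T1 : Finset (Submodule ℝ (EuclideanSpace ℝ (Fin d) × ℝ) ×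
      Submodule ℝ (EuclideanSpace ℝ (Fin d) × ℝ)), T1 = (robsA X θ r ×ˢ robsA X θ r).filter
      (fun T => Module.finrank ℝ (U ⊓ T.1 : Submodule ℝ (EuclideanSpace ℝ (Fin d) × ℝ)) + 1 = r ∧
        U ⊓ T.1 ≤ T.2) := ⟨_, rfl⟩
  obtain ⟨T2, hT2⟩ : ∃ T2 : Finset (Submodule ℝ (EuclideanSpace ℝ (Fin d) × ℝ) ×
      Submodule ℝ (EuclideanSpace ℝ (Fin d) × ℝ)), T2 = (robsA X θ r ×ˢ robsA X θ r).filter
      (fun T => Module.finrank ℝ (U ⊓ T.2 : Submodule ℝ (EuclideanSpace ℝ (Fin d) × ℝ)) + 1 = r ∧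
        U ⊓ T.2 ≤ T.1) := ⟨_, rfl⟩
  have hadj : ∀ U' : Submodule ℝ (EuclideanSpace ℝ (Fin d) × ℝ),
      (((robsA X θ r).filter (fun V => Module.finrank ℝ
        (U ⊓ U' : Submodule ℝ (EuclideanSpace ℝ (Fin d) × ℝ)) + 1 = r ∧ U ⊓ U' ≤ V)).card : ℝ) ≤
        2 * X.card / θ := by
    intro U'
    by_cases hc : Module.finrank ℝ (U ⊓ U' : Submodule ℝ (EuclideanSpace ℝ (Fin d) × ℝ)) + 1 = r
    · have h := robA_ext X θ hθ0 1 (U ⊓ U') r ((robsA X θ r).filter (fun V => Module.finrank ℝ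
        (U ⊓ U' : Submodule ℝ (EuclideanSpace ℝ (Fin d) × ℝ)) + 1 = r ∧ U ⊓ U' ≤ V)) hc (by
          intro V hV
          rw [mem_filter, mem_robsA hθ0] at hV
          exact ⟨hV.1.1, hV.2.2, hV.1.2⟩)
      rw [pow_one] at h
      exact h
    · have h0 : (robsA X θ r).filter (fun V => Module.finrank ℝ
        (U ⊓ U' : Submodule ℝ (EuclideanSpace ℝ (Fin d) × ℝ)) + 1 = r ∧ U ⊓ U' ≤ V) = ∅ := by
        rw [filter_eq_empty_iff]
        intro V _ hV
        exact hc hV.1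
      rw [h0, card_empty]
      simp only [Nat.cast_zero]
      positivity
  have hT1c : (T1.card : ℝ) ≤ (robsA X θ r).card * (2 * X.card / θ) := by
    have e1 : T1.card = ∑ U' ∈ robsA X θ r, ((robsA X θ r).filter (fun V => Module.finrank ℝ
        (U ⊓ U' : Submodule ℝ (EuclideanSpace ℝ (Fin d) × ℝ)) + 1 = r ∧ U ⊓ U' ≤ V)).card := by
      rw [hT1]
      simp only [card_filter]
      rw [sum_product]
    rw [e1]
    push_cast
    calc _ ≤ ∑ _U' ∈ robsA X θ r, 2 * (X.card : ℝ) / θ := sum_le_sum (fun U' _ => hadj U')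
      _ = _ := by rw [sum_const, nsmul_eq_mul]
  have hT2c : (T2.card : ℝ) ≤ (robsA X θ r).card * (2 * X.card / θ) := by
    have e1 : T2.card = ∑ U' ∈ robsA X θ r, ((robsA X θ r).filter (fun V => Module.finrank ℝ
        (U ⊓ U' : Submodule ℝ (EuclideanSpace ℝ (Fin d) × ℝ)) + 1 = r ∧ U ⊓ U' ≤ V)).card := by
      rw [hT2]
      simp only [card_filter]
      rw [sum_product, sum_comm]
    rw [e1]
    push_cast
    calc _ ≤ ∑ _U' ∈ robsA X θ r, 2 * (X.card : ℝ) / θ := sum_le_sum (fun U' _ => hadj U')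
      _ = _ := by rw [sum_const, nsmul_eq_mul]
  have hθ2 : 0 < θ / 2 := by positivity
  let S3 : Submodule ℝ (EuclideanSpace ℝ (Fin d) × ℝ) × Submodule ℝ (EuclideanSpace ℝ (Fin d) × ℝ) →
      Finset (Submodule ℝ (EuclideanSpace ℝ (Fin d) × ℝ)) := fun T =>
    (((L U T.1 ×ˢ L T.1 T.2) ∪ (L U T.1 ×ˢ L U T.2) ∪
      (L T.1 T.2 ×ˢ L U T.2)).image (fun q => q.1 ⊔ q.2)).filter
      (fun D => ((P.filter (fun p => D ≤ hyp p)).card : ℝ) ≤ M2)
  have hS3 : ∀ T, ((S3 T).card : ℝ) ≤ 12 := by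
    intro T
    have h1 : (S3 T).card ≤ 12 := by
      calc (S3 T).card ≤ _ := card_filter_le _ _
        _ ≤ _ := card_image_le
        _ ≤ _ := (card_union_le _ _).trans (Nat.add_le_add_right (card_union_le _ _) _)
        _ ≤ 2 * 2 + 2 * 2 + 2 * 2 := by
          rw [card_product, card_product, card_product]
          exact Nat.add_le_add (Nat.add_le_add (Nat.mul_le_mul (hL2 _ _) (hL2 _ _))
            (Nat.mul_le_mul (hL2 _ _) (hL2 _ _))) (Nat.mul_le_mul (hL2 _ _) (hL2 _ _))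
        _ = 12 := by norm_num
    exact_mod_cast h1
  have hcov : P.filter (fun p => Dat2 X θ r p U) ⊆
      (T1 ∪ T2).biUnion fun T =>
          (S3 T).biUnion fun D => P.filter (fun p => D ≤ hyp p) := by
    intro p hp
    rw [mem_filter] at hp
    obtain ⟨hpP, w1, w2, w3, h1, h2, h3, n1, n2, n3, hs12, hs13, hs23, R1, R2, R3, hmap, hne, _,
      Wc, hW1, hWU, hWU1, hWU3⟩ := hp
    have m1 := fst_ne_zero w1 p h1 n1
    have m2 := fst_ne_zero w2 p h2 n2
    have m3 := fst_ne_zero w3 p h3 n3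
    have hz : ∀ U' : Submodule ℝ (EuclideanSpace ℝ (Fin d) × ℝ), RobA X θ r U' →
        ∃ z, z ∈ FU U' := by
      intro U' hU'
      obtain ⟨a, _, ha⟩ := (hU'.toRob hθ0.le).nonempty (by omega) hθ2
      exact ⟨a, ha⟩
    have hFne : ∀ U1 U2 : Submodule ℝ (EuclideanSpace ℝ (Fin d) × ℝ), RobA X θ r U1 →
        RobA X θ r U2 → U1 ≠ U2 → FU U1 ≠ FU U2 := fun U1 U2 a1 a2 hne' =>
      FU_ne (a1.toRob hθ0.le) (a2.toRob hθ0.le) hθ2 hθ2 hne'
    have hspan : ∀ w : EuclideanSpace ℝ (Fin d) × ℝ, w ∈ hyp p → Submodule.span ℝ {w} ≤ hyp p := by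
      intro w hw
      rw [Submodule.span_singleton_le_iff_mem]
      exact hw
    have e12 : U.map (rfL w1) ≠ U → Submodule.span ℝ {w1} ∈ L U (U.map (rfL w1)) := fun hne' =>
      hL _ _ w1 m1 rfl (hFne _ _ R1 R2 (Ne.symm hne')) (hz _ R1)
    have e13 : U.map (rfL w3) ≠ U → Submodule.span ℝ {w3} ∈ L U (U.map (rfL w3)) := fun hne' =>
      hL _ _ w3 m3 rfl (hFne _ _ R1 R3 (Ne.symm hne')) (hz _ R1)
    have e23 : U.map (rfL w1) ≠ U.map (rfL w3) →
        Submodule.span ℝ {w2} ∈ L (U.map (rfL w1)) (U.map (rfL w3)) := fun hne' =>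
      hL _ _ w2 m2 hmap (hFne _ _ R2 R3 hne') (hz _ R2)
    rw [mem_biUnion]
    refine ⟨(U.map (rfL w1), U.map (rfL w3)), ?_, ?_⟩
    · -- the common subflat is the intersection
      have hint : ∀ U' : Submodule ℝ (EuclideanSpace ℝ (Fin d) × ℝ), RobA X θ r U' → U' ≠ U →
          Wc ≤ U' → U ⊓ U' = Wc := by
        intro U' hR' hne' hWU'
        symm
        apply Submodule.eq_of_le_of_finrank_le (le_inf hWU hWU')
        have e2 : U ⊓ U' < U := by
          refine lt_of_le_of_ne inf_le_left ?_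
          intro hc
          apply hne'
          symm
          apply Submodule.eq_of_le_of_finrank_eq (inf_eq_left.mp hc)
          rw [R1.1, hR'.1]
        have e4 := Submodule.finrank_lt_finrank_of_lt e2
        rw [R1.1] at e4
        omega
      rw [mem_union, hT1, hT2, mem_filter, mem_filter, mem_product]
      rcases hne with h | h
      · left
        refine ⟨⟨(mem_robsA hθ0).mpr R2, (mem_robsA hθ0).mpr R3⟩, ?_, ?_⟩
        · simp only
          rw [hint _ R2 h hWU1]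
          exact hW1
        · simp only
          rw [hint _ R2 h hWU1]
          exact hWU3
      · right
        refine ⟨⟨(mem_robsA hθ0).mpr R2, (mem_robsA hθ0).mpr R3⟩, ?_, ?_⟩
        · simp only
          rw [hint _ R3 h hWU3]
          exact hW1
        · simp only
          rw [hint _ R3 h hWU3]
          exact hWU1
    rw [mem_biUnion]
    have fin : ∀ w w' : EuclideanSpace ℝ (Fin d) × ℝ, w ∈ hyp p → w' ∈ hyp p → w ≠ 0 →
        w' ∉ Submodule.span ℝ {w} →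
        (Submodule.span ℝ {w}, Submodule.span ℝ {w'}) ∈
          ((L U (U.map (rfL w1)) ×ˢ L (U.map (rfL w1)) (U.map (rfL w3))) ∪
            (L U (U.map (rfL w1)) ×ˢ L U (U.map (rfL w3))) ∪
            (L (U.map (rfL w1)) (U.map (rfL w3)) ×ˢ L U (U.map (rfL w3)))) →
        ∃ D ∈ S3 (U.map (rfL w1), U.map (rfL w3)), p ∈ P.filter (fun p => D ≤ hyp p) := by
      intro w w' hw hw' hw0 hww hmem
      refine ⟨Submodule.span ℝ {w} ⊔ Submodule.span ℝ {w'}, ?_, ?_⟩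
      · refine mem_filter.mpr ⟨mem_image.mpr ⟨_, hmem, rfl⟩, ?_⟩
        exact card_of_finrank P M2 hg2 _ w w'
          (Submodule.mem_sup_left (Submodule.mem_span_singleton_self w))
          (Submodule.mem_sup_right (Submodule.mem_span_singleton_self w')) hw0 hww
      · rw [mem_filter]
        exact ⟨hpP, sup_le (hspan w hw) (hspan w' hw')⟩
    by_cases c12 : U.map (rfL w1) = U
    · -- then `U.map w3 ≠ U`
      have c13 : U.map (rfL w3) ≠ U := by
        rcases hne with h | h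
        · exact absurd c12 h
        · exact h
      have c23 : U.map (rfL w1) ≠ U.map (rfL w3) := by
        rw [c12]
        exact c13.symm
      refine fin w2 w3 h2 h3 n2 hs23 ?_
      rw [mem_union, mem_union, mem_product, mem_product, mem_product]
      exact Or.inr ⟨e23 c23, e13 c13⟩
    · by_cases c13 : U.map (rfL w3) = U
      · have c23 : U.map (rfL w1) ≠ U.map (rfL w3) := by
          rw [c13]
          exact c12
        refine fin w1 w2 h1 h2 n1 hs12 ?_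
        rw [mem_union, mem_union, mem_product, mem_product, mem_product]
        exact Or.inl (Or.inl ⟨e12 c12, e23 c23⟩)
      · refine fin w1 w3 h1 h3 n1 hs13 ?_
        rw [mem_union, mem_union, mem_product, mem_product, mem_product]
        exact Or.inl (Or.inr ⟨e12 c12, e13 c13⟩)
  have h1 : ((((T1 ∪ T2).biUnion fun T =>
        (S3 T).biUnion fun D => P.filter (fun p => D ≤ hyp p)).card : ℕ) : ℝ) ≤
      (T1 ∪ T2).card * (12 * M2) := by
    apply card_biUnion_le_real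
    intro T _
    calc _ ≤ ((S3 T).card : ℝ) * M2 :=
          card_biUnion_le_real _ _ M2 (fun D hD => (mem_filter.mp hD).2)
      _ ≤ 12 * M2 := mul_le_mul_of_nonneg_right (hS3 T) hM2
  have h2 : ((P.filter (fun p => Dat2 X θ r p U)).card : ℝ) ≤
      ((((T1 ∪ T2).biUnion fun T =>
        (S3 T).biUnion fun D => P.filter (fun p => D ≤ hyp p)).card : ℕ) : ℝ) := by
    exact_mod_cast card_le_card hcov
  refine (h2.trans h1).trans ?_
  apply mul_le_mul_of_nonneg_right _ (by positivity)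
  have h3 : ((T1 ∪ T2).card : ℝ) ≤ T1.card + T2.card := by exact_mod_cast card_union_le _ _
  linarith

open scoped Classical in
/-- **few bad centres, with multiplicity** -/
theorem bad_countC {d : ℕ} (hd : 2 ≤ d) (P X : Finset (EuclideanSpace ℝ (Fin d)))
    (η W M1 : ℝ) (Bf : ℕ → ℝ) (hη : 1 ≤ η) (hX : 2 ^ (d + 4) * η ^ 3 < X.card) (hW : 1 ≤ W)
    (hM1 : 0 ≤ M1) (hBf : ∀ r, 0 ≤ Bf r)
    (hS : ∀ r, 2 ≤ r → r ≤ d → ∀ N : Finset (Submodule ℝ (EuclideanSpace ℝ (Fin d) × ℝ)),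
      (∀ U ∈ N, RobA X ((X.card : ℝ) / (2 ^ (d + 4) * η ^ 3)) r U) →
        ∑ U ∈ N, mass X lf U ≤ W * (X.card * (2 ^ (d + 4) * η ^ 3) ^ (r - 2)))
    (hg1 : ∀ p0 v : EuclideanSpace ℝ (Fin d), v ≠ 0 →
      ((P.filter (fun z => inner ℝ v (z - p0) = 0)).card : ℝ) ≤ M1)
    (hB : ∀ r, 2 ≤ r → r < d → ∀ U : Submodule ℝ (EuclideanSpace ℝ (Fin d) × ℝ),
      ((P.filter (fun p => Dat2 X ((X.card : ℝ) / (2 ^ (d + 4) * η ^ 3)) r p U)).card : ℝ) ≤ Bf r) :
    ((P.filter (fun p => Bad X η p)).card : ℝ) ≤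
      2 ^ (d + 4) * (∑ r ∈ Finset.Ico 2 d, W * (2 ^ (d + 4) * η ^ 3) ^ (r - 2) * Bf r +
        W * (2 ^ (d + 4) * η ^ 3) ^ (d - 2) * M1) := by
  have hη0 : 0 < η := by linarith
  have hη3 : 0 < η ^ 3 := by positivity
  have hXpos : (0:ℝ) < X.card := lt_of_le_of_lt (by positivity) hX
  obtain ⟨κ, hκ⟩ : ∃ κ : ℝ, κ = 2 ^ (d + 4) * η ^ 3 := ⟨_, rfl⟩
  obtain ⟨θ, hθ⟩ : ∃ θ : ℝ, θ = (X.card : ℝ) / κ := ⟨_, rfl⟩
  have hκ0 : 0 < κ := by rw [hκ]; positivity
  have hθ0 : 0 < θ := by rw [hθ]; positivity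
  rw [← hκ, ← hθ] at hS hB
  rw [← hκ]
  obtain ⟨Pb, hPb⟩ : ∃ Pb : Finset (EuclideanSpace ℝ (Fin d)),
    Pb = P.filter (fun p => Bad X η p) := ⟨_, rfl⟩
  rw [← hPb]
  have hm0 : ∀ U : Submodule ℝ (EuclideanSpace ℝ (Fin d) × ℝ), 0 ≤ mass X lf U := by
    intro U; unfold mass; positivity
  -- lower bound for one centre
  have hone : ∀ p ∈ Pb, (X.card : ℝ) / 2 ^ (d + 4) ≤ ∑ r ∈ Finset.Icc 2 d,
      ∑ U ∈ (robsA X θ r).filter (fun U => Dat2 X θ r p U), mass X lf U := by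
    intro p hp
    rw [hPb, mem_filter] at hp
    obtain ⟨𝒰, h1, h2⟩ := bad_flats2 X η hη0 hX p hp.2
    rw [← hκ, ← hθ] at h2
    refine h1.trans ?_
    have h3 : 𝒰 ⊆ (Finset.Icc 2 d).biUnion (fun r => (robsA X θ r).filter (fun U => Dat2 X θ r p U)) := by
      intro U hU
      obtain ⟨r, hr2, hrd, hD⟩ := h2 U hU
      rw [mem_biUnion]
      refine ⟨r, mem_Icc.mpr ⟨hr2, hrd⟩, mem_filter.mpr ⟨?_, hD⟩⟩
      rw [mem_robsA hθ0]
      obtain ⟨w1, w2, w3, _, _, _, _, _, _, _, _, _, hR, _⟩ := hD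
      exact hR
    calc ∑ U ∈ 𝒰, mass X lf U ≤
          ∑ U ∈ (Finset.Icc 2 d).biUnion (fun r => (robsA X θ r).filter (fun U => Dat2 X θ r p U)),
            mass X lf U := sum_le_sum_of_subset_of_nonneg h3 (fun U _ _ => hm0 U)
      _ ≤ _ := by
          apply le_of_eq
          apply sum_biUnion
          intro r _ r' _ hne
          change Disjoint _ _
          rw [disjoint_left]
          intro U hU hU'
          rw [mem_filter, mem_robsA hθ0] at hU hU'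
          exact hne (hU.1.1.symm.trans hU'.1.1)
  -- double counting
  have hdc : (Pb.card : ℝ) * ((X.card : ℝ) / 2 ^ (d + 4)) ≤ ∑ r ∈ Finset.Icc 2 d,
      ∑ U ∈ robsA X θ r, ((P.filter (fun p => Dat2 X θ r p U)).card : ℝ) * mass X lf U := by
    calc (Pb.card : ℝ) * ((X.card : ℝ) / 2 ^ (d + 4)) =
          ∑ _p ∈ Pb, (X.card : ℝ) / 2 ^ (d + 4) := by rw [sum_const, nsmul_eq_mul]
      _ ≤ ∑ p ∈ Pb, ∑ r ∈ Finset.Icc 2 d,
          ∑ U ∈ (robsA X θ r).filter (fun U => Dat2 X θ r p U), mass X lf U := sum_le_sum hone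
      _ ≤ ∑ p ∈ P, ∑ r ∈ Finset.Icc 2 d,
          ∑ U ∈ (robsA X θ r).filter (fun U => Dat2 X θ r p U), mass X lf U := by
          apply sum_le_sum_of_subset_of_nonneg
          · rw [hPb]; exact filter_subset _ _
          · intro p _ _
            exact sum_nonneg (fun r _ => sum_nonneg (fun U _ => hm0 U))
      _ = ∑ r ∈ Finset.Icc 2 d, ∑ p ∈ P,
          ∑ U ∈ (robsA X θ r).filter (fun U => Dat2 X θ r p U), mass X lf U := sum_comm
      _ = ∑ r ∈ Finset.Icc 2 d,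
          ∑ U ∈ robsA X θ r, ((P.filter (fun p => Dat2 X θ r p U)).card : ℝ) * mass X lf U := by
          apply sum_congr rfl
          intro r _
          have e1 : ∀ p ∈ P, ∑ U ∈ (robsA X θ r).filter (fun U => Dat2 X θ r p U), mass X lf U =
              ∑ U ∈ robsA X θ r, if Dat2 X θ r p U then mass X lf U else 0 := by
            intro p _
            rw [sum_filter]
          rw [sum_congr rfl e1, sum_comm]
          apply sum_congr rfl
          intro U _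
          rw [← sum_filter, sum_const, nsmul_eq_mul]
  have hsplit : ∑ r ∈ Finset.Icc 2 d,
      ∑ U ∈ robsA X θ r, ((P.filter (fun p => Dat2 X θ r p U)).card : ℝ) * mass X lf U ≤
      ∑ r ∈ Finset.Ico 2 d, Bf r * (W * (X.card * κ ^ (r - 2))) +
        M1 * (W * (X.card * κ ^ (d - 2))) := by
    have e1 : Finset.Icc 2 d = insert d (Finset.Ico 2 d) := by
      ext r
      simp only [mem_Icc, mem_insert, mem_Ico]
      omega
    have e2 : d ∉ Finset.Ico 2 d := by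
      rw [mem_Ico]; omega
    rw [e1, sum_insert e2, add_comm]
    apply add_le_add
    · apply sum_le_sum
      intro r hr
      rw [mem_Ico] at hr
      calc ∑ U ∈ robsA X θ r, ((P.filter (fun p => Dat2 X θ r p U)).card : ℝ) * mass X lf U ≤
            ∑ U ∈ robsA X θ r, Bf r * mass X lf U := by
            apply sum_le_sum
            intro U _
            exact mul_le_mul_of_nonneg_right (hB r hr.1 hr.2 U) (hm0 U)
        _ = Bf r * ∑ U ∈ robsA X θ r, mass X lf U := by rw [mul_sum]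
        _ ≤ Bf r * (W * (X.card * κ ^ (r - 2))) := by
            apply mul_le_mul_of_nonneg_left _ (hBf r)
            exact hS r hr.1 hr.2.le _ (fun U hU => (mem_robsA hθ0).mp hU)
    · calc ∑ U ∈ robsA X θ d, ((P.filter (fun p => Dat2 X θ d p U)).card : ℝ) * mass X lf U ≤
            ∑ U ∈ robsA X θ d, M1 * mass X lf U := by
            apply sum_le_sum
            intro U _
            exact mul_le_mul_of_nonneg_right (dat2_top P X θ M1 hM1 hg1 U) (hm0 U)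
        _ = M1 * ∑ U ∈ robsA X θ d, mass X lf U := by rw [mul_sum]
        _ ≤ M1 * (W * (X.card * κ ^ (d - 2))) := by
            apply mul_le_mul_of_nonneg_left _ hM1
            exact hS d hd le_rfl _ (fun U hU => (mem_robsA hθ0).mp hU)
  have hfin := hdc.trans hsplit
  have e3 : ∑ r ∈ Finset.Ico 2 d, Bf r * (W * (X.card * κ ^ (r - 2))) +
        M1 * (W * (X.card * κ ^ (d - 2))) =
      (∑ r ∈ Finset.Ico 2 d, W * κ ^ (r - 2) * Bf r + W * κ ^ (d - 2) * M1) * X.card := by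
    rw [add_mul, sum_mul]
    congr 1
    · apply sum_congr rfl
      intro r _
      ring
    · ring
  rw [e3] at hfin
  have e4 : (Pb.card : ℝ) * ((X.card : ℝ) / 2 ^ (d + 4)) = (Pb.card / 2 ^ (d + 4) : ℝ) * X.card := by
    ring
  rw [e4] at hfin
  have h5 := le_of_mul_le_mul_right hfin hXpos
  rw [div_le_iff₀ (by positivity)] at h5
  linarith

end Vale.Agent.P054G

namespace Vale.Agent.P054I

open Vale.Agent.P054K Vale.Agent.P054G

/-- common part of the two final forms -/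
theorem loc_commonC (d : ℕ) (hd : 2 ≤ d) : ∃ (K : ℝ) (c : ℕ), 1 ≤ K ∧
    ∀ (X P : Finset (EuclideanSpace ℝ (Fin d))) (l : ℕ) (k M1 : ℝ) (Bf : ℕ → ℝ), 1 ≤ k →
    20 * (Real.log ((X.card : ℝ) + 3) + 1) ≤ l → K * (l:ℝ) ^ c * k ^ 6 ≤ X.card →
    0 ≤ M1 → (∀ r, 0 ≤ Bf r) → (∀ p ∈ P, Bad X k p) →
    (∀ p0 v : EuclideanSpace ℝ (Fin d), v ≠ 0 →
      open scoped Classical in
      ((P.filter (fun z => inner ℝ v (z - p0) = 0)).card : ℝ) ≤ M1) →
    (∀ r, 2 ≤ r → r < d →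
      ((robsA X ((X.card : ℝ) / (2 ^ (d + 4) * k ^ 3)) r).card : ℝ) ≤
        K * (l:ℝ) ^ c * (2 ^ (d + 4) * k ^ 3) ^ (r - 1) →
      ∀ U : Submodule ℝ (EuclideanSpace ℝ (Fin d) × ℝ),
      open scoped Classical in
      ((P.filter (fun p => Dat2 X ((X.card : ℝ) / (2 ^ (d + 4) * k ^ 3)) r p U)).card : ℝ) ≤ Bf r) →
    (P.card : ℝ) ≤
      2 ^ (d + 4) * (∑ r ∈ Finset.Ico 2 d, K * (l:ℝ) ^ c * (2 ^ (d + 4) * k ^ 3) ^ (r - 2) * Bf r +
        K * (l:ℝ) ^ c * (2 ^ (d + 4) * k ^ 3) ^ (d - 2) * M1) := by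
  classical
  obtain ⟨K1, c1, hK1, hcnt⟩ := robA_count d
  obtain ⟨K2, c2, hK2, hwt⟩ := robA_weight d
  refine ⟨(K1 + K2) * (2 ^ (d + 4)) ^ 2, c1 + c2, ?_, ?_⟩
  · have : (1:ℝ) ≤ (2 ^ (d + 4)) ^ 2 := one_le_pow₀ (one_le_pow₀ (by norm_num))
    nlinarith
  intro X P l k M1 Bf hk hl hX hM1 hBf hP hg1 hB
  have hk0 : 0 < k := by linarith
  have hlog : 0 ≤ Real.log ((X.card : ℝ) + 3) := Real.log_nonneg (by
    have : (0:ℝ) ≤ X.card := by positivity
    linarith)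
  have hl1 : (1:ℝ) ≤ l := by linarith
  have hl0 : (0:ℝ) < l := by linarith
  obtain ⟨W, hW⟩ : ∃ W : ℝ, W = (K1 + K2) * (2 ^ (d + 4)) ^ 2 * (l:ℝ) ^ (c1 + c2) := ⟨_, rfl⟩
  rw [← hW] at hX hB ⊢
  obtain ⟨κ, hκ⟩ : ∃ κ : ℝ, κ = 2 ^ (d + 4) * k ^ 3 := ⟨_, rfl⟩
  have hκ1 : 1 ≤ κ := by
    rw [hκ]
    exact one_le_mul_of_one_le_of_one_le (one_le_pow₀ (by norm_num)) (one_le_pow₀ hk)
  have hκ0 : 0 < κ := by linarith
  have h2 : (1:ℝ) ≤ (2 ^ (d + 4)) ^ 2 := one_le_pow₀ (one_le_pow₀ (by norm_num))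
  have hlc1 : (l:ℝ) ^ c1 ≤ (l:ℝ) ^ (c1 + c2) := pow_le_pow_right₀ hl1 (by omega)
  have hlc2 : (l:ℝ) ^ c2 ≤ (l:ℝ) ^ (c1 + c2) := pow_le_pow_right₀ hl1 (by omega)
  have hKl : 0 < (l:ℝ) ^ (c1 + c2) := by positivity
  -- `Ki l^ci * 4^.. ≤ W`
  have hW1 : K1 * (l:ℝ) ^ c1 * (2 ^ (d + 4)) ^ 2 ≤ W := by
    rw [hW]
    calc K1 * (l:ℝ) ^ c1 * (2 ^ (d + 4)) ^ 2 ≤ (K1 + K2) * (l:ℝ) ^ (c1 + c2) * (2 ^ (d + 4)) ^ 2 := by
          apply mul_le_mul_of_nonneg_right _ (by positivity)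
          exact mul_le_mul (by linarith) hlc1 (by positivity) (by linarith)
      _ = _ := by ring
  have hW2 : K2 * (l:ℝ) ^ c2 * (2 ^ (d + 4)) ^ 2 ≤ W := by
    rw [hW]
    calc K2 * (l:ℝ) ^ c2 * (2 ^ (d + 4)) ^ 2 ≤ (K1 + K2) * (l:ℝ) ^ (c1 + c2) * (2 ^ (d + 4)) ^ 2 := by
          apply mul_le_mul_of_nonneg_right _ (by positivity)
          exact mul_le_mul (by linarith) hlc2 (by positivity) (by linarith)
      _ = _ := by ring
  have hW1' : K1 * (l:ℝ) ^ c1 ≤ W := by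
    refine le_trans ?_ hW1
    exact le_mul_of_one_le_right (by positivity) h2
  have hW2' : K2 * (l:ℝ) ^ c2 ≤ W := by
    refine le_trans ?_ hW2
    exact le_mul_of_one_le_right (by positivity) h2
  have hWone : 1 ≤ W := le_trans (one_le_mul_of_one_le_of_one_le hK1 (one_le_pow₀ hl1)) hW1'
  -- `Ki l^ci κ² ≤ x`
  have hside1 : K1 * (l:ℝ) ^ c1 * κ ^ 2 ≤ X.card := by
    refine le_trans ?_ hX
    have e1 : κ ^ 2 = (2 ^ (d + 4)) ^ 2 * k ^ 6 := by rw [hκ]; ring
    rw [e1, ← mul_assoc]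
    exact mul_le_mul_of_nonneg_right hW1 (by positivity)
  have hside2 : K2 * (l:ℝ) ^ c2 * κ ^ 2 ≤ X.card := by
    refine le_trans ?_ hX
    have e1 : κ ^ 2 = (2 ^ (d + 4)) ^ 2 * k ^ 6 := by rw [hκ]; ring
    rw [e1, ← mul_assoc]
    exact mul_le_mul_of_nonneg_right hW2 (by positivity)
  have hXκ : κ < X.card := by
    have h3 : (1:ℝ) < 2 ^ (d + 4) := one_lt_pow₀ (by norm_num) (by omega)
    have h4 : (1:ℝ) ≤ K1 * (l:ℝ) ^ c1 := one_le_mul_of_one_le_of_one_le hK1 (one_le_pow₀ hl1)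
    have h5 : 1 < κ := by
      rw [hκ]
      exact lt_of_lt_of_le h3 (le_mul_of_one_le_right (by positivity) (one_le_pow₀ hk))
    have h6 : κ * κ ≤ X.card := by
      calc κ * κ = 1 * κ ^ 2 := by ring
        _ ≤ K1 * (l:ℝ) ^ c1 * κ ^ 2 := mul_le_mul_of_nonneg_right h4 (by positivity)
        _ ≤ X.card := hside1
    nlinarith
  have hX0 : (0:ℝ) < X.card := by linarith
  have hρ : 0 < (X.card : ℝ) / κ := by positivity
  have hdiv : (X.card : ℝ) / ((X.card : ℝ) / κ) = κ := by field_simp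
  have hs : ∀ (K : ℝ) (c : ℕ), 1 ≤ K → K * (l:ℝ) ^ c * κ ^ 2 ≤ X.card →
      K * (l:ℝ) ^ c * X.card ≤ ((X.card : ℝ) / κ) ^ 2 ∧ K * (l:ℝ) ^ c ≤ (X.card : ℝ) / κ := by
    intro K c hK h
    constructor
    · rw [div_pow, le_div_iff₀ (by positivity)]
      calc K * (l:ℝ) ^ c * (X.card : ℝ) * κ ^ 2 = (K * (l:ℝ) ^ c * κ ^ 2) * (X.card : ℝ) := by ring
        _ ≤ (X.card : ℝ) * (X.card : ℝ) := mul_le_mul_of_nonneg_right h hX0.le
        _ = (X.card : ℝ) ^ 2 := by ring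
    · rw [le_div_iff₀ hκ0]
      refine le_trans ?_ h
      apply mul_le_mul_of_nonneg_left _ (by positivity)
      exact le_self_pow₀ hκ1 (by norm_num)
  obtain ⟨a1, a2⟩ := hs K1 c1 hK1 hside1
  obtain ⟨b1, b2⟩ := hs K2 c2 hK2 hside2
  have h1 := bad_countC hd P X k W M1 Bf hk (by rw [← hκ]; exact hXκ) hWone hM1 hBf (by
    intro r hr2 hrd N hN
    rw [← hκ] at hN ⊢
    have h3 := hwt X r ((X.card : ℝ) / κ) l N hr2 hrd hN hl b1 b2
    rw [hdiv] at h3
    exact h3.trans (mul_le_mul_of_nonneg_right hW2' (by positivity))) hg1 (by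
    intro r hr2 hrd U
    apply hB r hr2 hrd
    rw [← hκ]
    have h3 := hcnt X r ((X.card : ℝ) / κ) l (robsA X ((X.card : ℝ) / κ) r) hr2 hrd.le
      (fun U hU => (mem_robsA hρ).mp hU) hl a1 a2
    rw [hdiv] at h3
    exact h3.trans (mul_le_mul_of_nonneg_right hW1' (by positivity)))
  rw [filter_true_of_mem hP] at h1
  exact h1

/-- **local lemma**, adjacent triples of flats: `k^(6(d-2))` times codimension two plus `k^(3(d-2))`
times hyperplanes -/
theorem locGen_adj (d : ℕ) (hd : 2 ≤ d) : ∃ (C : ℝ) (c : ℕ), 1 ≤ C ∧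
    LocGen d C c 6 (3 * (d - 2)) (6 * (d - 2)) := by
  classical
  obtain ⟨K, c, hK, hcom⟩ := loc_commonC d hd
  have hd1 : (1:ℝ) ≤ d := by exact_mod_cast (by omega : 1 ≤ d)
  refine ⟨48 * d * K ^ 2 * 2 ^ (3 * d * (d + 4)), 2 * c, ?_, ?_⟩
  · have h1 : (1:ℝ) ≤ 48 * d := by linarith
    exact one_le_mul_of_one_le_of_one_le (one_le_mul_of_one_le_of_one_le h1 (one_le_pow₀ hK))
      (one_le_pow₀ (by norm_num))
  intro X P t l k M1 M2 hk hl hX hM1 hM2 hP hy1 hy2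
  have hk0 : 0 < k := by linarith
  have hlog : 0 ≤ Real.log ((X.card : ℝ) + 3) := Real.log_nonneg (by
    have : (0:ℝ) ≤ X.card := by positivity
    linarith)
  have hl1 : (1:ℝ) ≤ l := by linarith
  obtain ⟨W, hW⟩ : ∃ W : ℝ, W = K * (l:ℝ) ^ c := ⟨_, rfl⟩
  have hW1 : 1 ≤ W := by rw [hW]; exact one_le_mul_of_one_le_of_one_le hK (one_le_pow₀ hl1)
  have hW0 : 0 < W := by linarith
  have hW3 : W ^ 2 = K ^ 2 * (l:ℝ) ^ (2 * c) := by rw [hW, mul_pow, ← pow_mul, mul_comm c 2]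
  have hWW3 : W ≤ W ^ 2 := le_self_pow₀ hW1 (by norm_num)
  have h12 : 1 ≤ 48 * (d:ℝ) := by linarith
  have hCC : (48 * d * K ^ 2 * 2 ^ (3 * d * (d + 4)) : ℝ) * (l:ℝ) ^ (2 * c) =
      48 * d * W ^ 2 * 2 ^ (3 * d * (d + 4)) := by rw [hW3]; ring
  rw [hCC] at hX ⊢
  obtain ⟨κ, hκ⟩ : ∃ κ : ℝ, κ = 2 ^ (d + 4) * k ^ 3 := ⟨_, rfl⟩
  have hκ1 : 1 ≤ κ := by
    rw [hκ]
    exact one_le_mul_of_one_le_of_one_le (one_le_pow₀ (by norm_num)) (one_le_pow₀ hk)
  have hκ0 : 0 < κ := by linarith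
  have hX' : K * (l:ℝ) ^ c * k ^ 6 ≤ X.card := by
    refine le_trans ?_ hX
    rw [← hW]
    apply mul_le_mul_of_nonneg_right _ (by positivity)
    calc W = 1 * W * 1 := by ring
      _ ≤ 48 * d * W ^ 2 * 2 ^ (3 * d * (d + 4)) := by
          apply mul_le_mul _ (one_le_pow₀ (by norm_num)) (by norm_num) (by positivity)
          exact mul_le_mul h12 hWW3 hW0.le (by positivity)
  have h1 := hcom X P l k M1 (fun r => 2 * ((W * κ ^ (r - 1)) * (2 * κ)) * (12 * M2)) hk hl hX' hM1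
    (fun r => by positivity) hP hy1 (by
    intro r hr2 hrd hcnt U
    rw [← hκ, ← hW] at hcnt
    rw [← hκ]
    have hX0 : (0:ℝ) < X.card := by
      have : (0:ℝ) < K * (l:ℝ) ^ c * k ^ 6 := by rw [← hW]; positivity
      linarith
    refine (dat2_triples P X ((X.card : ℝ) / κ) M2 (by positivity) hM2 r hr2 hy2 U).trans ?_
    have hdiv : 2 * (X.card : ℝ) / ((X.card : ℝ) / κ) = 2 * κ := by field_simp
    rw [hdiv]
    apply mul_le_mul_of_nonneg_right _ (by positivity)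
    apply mul_le_mul_of_nonneg_left _ (by norm_num)
    exact mul_le_mul_of_nonneg_right hcnt (by positivity))
  rw [← hκ, ← hW] at h1
  refine h1.trans ?_
  have hsum : ∑ r ∈ Finset.Ico 2 d, W * κ ^ (r - 2) * (2 * ((W * κ ^ (r - 1)) * (2 * κ)) * (12 * M2)) ≤
      d * (48 * W ^ 2 * κ ^ (2 * (d - 2)) * M2) := by
    calc ∑ r ∈ Finset.Ico 2 d, W * κ ^ (r - 2) * (2 * ((W * κ ^ (r - 1)) * (2 * κ)) * (12 * M2)) ≤
          ∑ _r ∈ Finset.Ico 2 d, 48 * W ^ 2 * κ ^ (2 * (d - 2)) * M2 := by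
          apply sum_le_sum
          intro r hr
          rw [mem_Ico] at hr
          have e1 : W * κ ^ (r - 2) * (2 * ((W * κ ^ (r - 1)) * (2 * κ)) * (12 * M2)) =
              48 * W ^ 2 * κ ^ (r - 2 + (r - 1) + 1) * M2 := by
            rw [pow_succ, pow_add]
            ring
          rw [e1]
          apply mul_le_mul_of_nonneg_right _ hM2
          apply mul_le_mul_of_nonneg_left _ (by positivity)
          exact pow_le_pow_right₀ hκ1 (by omega)
      _ = (Finset.Ico 2 d).card * (48 * W ^ 2 * κ ^ (2 * (d - 2)) * M2) := by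
          rw [sum_const, nsmul_eq_mul]
      _ ≤ _ := by
          apply mul_le_mul_of_nonneg_right _ (by positivity)
          rw [Nat.card_Ico]
          exact_mod_cast (by omega : d - 2 ≤ d)
  have hκe : ∀ e, κ ^ e = 2 ^ ((d + 4) * e) * k ^ (3 * e) := by
    intro e
    rw [hκ, mul_pow, ← pow_mul, ← pow_mul]
  have hp1 : (2:ℝ) ^ (d + 4) * 2 ^ ((d + 4) * (2 * (d - 2))) ≤ 2 ^ (3 * d * (d + 4)) := by
    rw [← pow_add]
    apply pow_le_pow_right₀ (by norm_num)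
    have : (d + 4) + (d + 4) * (2 * (d - 2)) = (1 + (2 * (d - 2))) * (d + 4) := by ring
    rw [this]
    exact Nat.mul_le_mul_right _ (by omega)
  have hp2 : (2:ℝ) ^ (d + 4) * 2 ^ ((d + 4) * (d - 2)) ≤ 2 ^ (3 * d * (d + 4)) := by
    rw [← pow_add]
    apply pow_le_pow_right₀ (by norm_num)
    have : (d + 4) + (d + 4) * (d - 2) = (1 + (d - 2)) * (d + 4) := by ring
    rw [this]
    exact Nat.mul_le_mul_right _ (by omega)
  calc 2 ^ (d + 4) * (∑ r ∈ Finset.Ico 2 d, W * κ ^ (r - 2) * (2 * ((W * κ ^ (r - 1)) * (2 * κ)) * (12 * M2)) +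
        W * κ ^ (d - 2) * M1) ≤
      2 ^ (d + 4) * (d * (48 * W ^ 2 * κ ^ (2 * (d - 2)) * M2) + W * κ ^ (d - 2) * M1) := by
        apply mul_le_mul_of_nonneg_left _ (by positivity)
        linarith
    _ = (48 * d * W ^ 2 * (2 ^ (d + 4) * 2 ^ ((d + 4) * (2 * (d - 2))))) *
          (k ^ (6 * (d - 2)) * M2) +
        (1 * W * (2 ^ (d + 4) * 2 ^ ((d + 4) * (d - 2)))) * (k ^ (3 * (d - 2)) * M1) := by
        rw [hκe, hκe, show 3 * (2 * (d - 2)) = 6 * (d - 2) by ring]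
        ring
    _ ≤ (48 * d * W ^ 2 * 2 ^ (3 * d * (d + 4))) * (k ^ (6 * (d - 2)) * M2) +
        (48 * d * W ^ 2 * 2 ^ (3 * d * (d + 4))) * (k ^ (3 * (d - 2)) * M1) := by
        apply add_le_add
        · apply mul_le_mul_of_nonneg_right _ (by positivity)
          exact mul_le_mul_of_nonneg_left hp1 (by positivity)
        · apply mul_le_mul_of_nonneg_right _ (by positivity)
          apply mul_le_mul _ hp2 (by positivity) (by positivity)
          exact mul_le_mul h12 hWW3 hW0.le (by positivity)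
    _ = _ := by ring


end Vale.Agent.P054I
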