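import Vale.Agent.P054.MathlibUsed
import Vale.Agent.P054.H449.RM.Defs
import Vale.Agent.P054.H449.IM.DataA
import Vale.Agent.P054.H449.IM.Defs3
attribute [-instance] ProperSMul.toContinuousSMul IsTopologicalTorsor.toContinuousSMul IdemSemiring.toCanonicallyOrderedAdd IdemSemiring.toMulLeftMono IdemSemiring.toMulRightMono AddQuantale.instAddLeftMono AddQuantale.instAddRightMono Quantale.instMulLeftMono Quantale.instMulRightMono FiniteDimensional.rclike_to_real IsScalarTower.complexToReal FiniteDimensional.complexToReal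

set_option linter.all false
set_option autoImplicit false

open Finset Vale.Agent.P054K

namespace Vale.Agent.P054I

open scoped Classical in
theorem select3 {α ι β V : Type} [AddCommGroup V] [Module ℝ V] [FiniteDimensional ℝ V]
    {Q : Finset α} {S : Finset ι} {Rg : ι → α → Bool}
    {s s' x R : ℕ} {g' : Fin s' → ι} {g : Fin R → Fin s → ι} {F : Fin R → Finset (Finset α)}
    (h : Rounds Q S Rg s s' x R g' g F) (hR : 1 ≤ R) (hs : 1 ≤ s) (hQ : Q.Nonempty)
    (B : Finset β) (ψ : α → V) (Hf : β → Submodule ℝ V) (e : ℕ → ℕ) (κ FF : ℝ) (D : ℕ)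
    (hD : Module.finrank ℝ V ≤ D) (hκ : 1 ≤ κ) (hFF : 1 ≤ FF)
    (hψ : ∀ q ∈ Q, ∀ q' ∈ Q, ψ q = ψ q' → q = q')
    (hval : ∀ p ∈ B, (R * Q.card : ℝ) / 8 ≤ mass (idx F) (fun i => ψ i.2.1 - ψ i.2.2) (Hf p))
    (hpat : open scoped Classical in
      ∀ A : Submodule ℝ V, A ≠ ⊥ → (∃ p ∈ B, A ≤ Hf p) → ∀ τ, ∀ v ∈ Q.image (fun q => A.mkQ (ψ q)),
      (((Q.filter (fun q => A.mkQ (ψ q) = v)).image
        (fun q => ((fun k => Rg (g τ k) q), (fun k => Rg (g' k) q)))).card : ℝ)
        ≤ κ * (s:ℝ) ^ (e (Module.finrank ℝ A)))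
    (p : β) (hp : p ∈ B) (J : Finset (Fin R × (α × α))) (hJ : J ⊆ idx F)
    (hbad : open scoped Classical in mass (idx F \ J) (fun i => ψ i.2.1 - ψ i.2.2) (Hf p) ≤
      R * Q.card / (2048 * κ)) :
    ∃ (j w : ℕ) (A : Submodule ℝ V), A ≤ Hf p ∧ Module.finrank ℝ A = w ∧ 1 ≤ w ∧
      (2:ℝ) ^ j ≤ Q.card ∧
      (R * Q.card * 2 ^ j / (1024 * (2 * κ))) * (FF ^ w / FF ^ D) ≤
        mass J (fun i => ψ i.2.1 - ψ i.2.2) A ∧
      (∀ B' : Submodule ℝ V, B' < A → FF * mass J (fun i => ψ i.2.1 - ψ i.2.2) B' ≤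
        mass J (fun i => ψ i.2.1 - ψ i.2.2) A) ∧
      (∀ Φ ⊆ B, p ∈ Φ → ∀ A' : Submodule ℝ V, A' = (⨅ p' ∈ Φ, Hf p') → A' ≠ ⊥ →
        (Q.card : ℝ) ≤ 2 * 2 ^ j * ((ncos Q ψ A' : ℝ) * (s:ℝ) ^ (e (Module.finrank ℝ A')))) ∧
      ((2:ℝ) ^ j ≤ 128 * κ ∨ ∃ A' : Submodule ℝ V, A' ≤ Hf p ∧
        ∑ τ, ∑ X ∈ F τ, ((X.image (fun q => A'.mkQ (ψ q))).card : ℝ) ≤
          κ * (R * Q.card) / 2 ^ j) := by
  classical
  set v : Fin R × (α × α) → V := fun i => ψ i.2.1 - ψ i.2.2 with hv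
  have hn1 : (1:ℝ) ≤ Q.card := by exact_mod_cast hQ.card_pos
  have hs1 : (1:ℝ) ≤ s := by exact_mod_cast hs
  have hR1 : (1:ℝ) ≤ R := by exact_mod_cast hR
  set n : ℝ := (Q.card : ℝ) with hn
  set ϑ : Submodule ℝ V → ℝ := fun A =>
    (ncos Q ψ A : ℝ) * (s:ℝ) ^ (e (Module.finrank ℝ A)) / n with hϑ
  have hncos : ∀ A, 1 ≤ ncos Q ψ A := by
    intro A
    unfold ncos
    exact (hQ.image _).card_pos
  have hϑ1 : ∀ A, 1 / n ≤ ϑ A := by
    intro A
    simp only [hϑ]
    apply div_le_div_of_nonneg_right _ (by linarith only [hn1])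
    have h1 : (1:ℝ) ≤ ncos Q ψ A := by exact_mod_cast hncos A
    have h2 : (1:ℝ) ≤ (s:ℝ) ^ (e (Module.finrank ℝ A)) := one_le_pow₀ hs1
    nlinarith only [h1, h2]
  set 𝒞 : Finset (Submodule ℝ V) := ((B.powerset.filter (fun Φ => p ∈ Φ)).image
    (fun Φ => ⨅ p' ∈ Φ, Hf p')).filter (fun A => A ≠ ⊥) with h𝒞
  set vals : Finset ℝ := insert 1 (𝒞.image ϑ) with hvals
  have hvne : vals.Nonempty := ⟨1, mem_insert_self _ _⟩
  set θ : ℝ := vals.min' hvne with hθ
  have hθmem : θ ∈ vals := Finset.min'_mem _ _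
  have hθ1 : θ ≤ 1 := Finset.min'_le _ _ (mem_insert_self _ _)
  have hθ𝒞 : ∀ A ∈ 𝒞, θ ≤ ϑ A := fun A hA =>
    Finset.min'_le _ _ (mem_insert_of_mem (mem_image_of_mem ϑ hA))
  have hθn : 1 / n ≤ θ := by
    rw [hvals, mem_insert] at hθmem
    rcases hθmem with h1 | h1
    · rw [h1]
      rw [div_le_one (by linarith only [hn1])]
      exact hn1
    · obtain ⟨A, _, hA⟩ := mem_image.mp h1
      rw [← hA]; exact hϑ1 A
  have hθ0 : 0 < θ := lt_of_lt_of_le (by (clear * - hQ; positivity)) hθn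
  obtain ⟨j, hj1, hj2⟩ := exists_nat_pow_near_of_lt_one hθ0 hθ1 (show (0:ℝ) < 1 / 2 by norm_num)
    (by norm_num)
  have hpow : ∀ k : ℕ, (1 / 2 : ℝ) ^ k * 2 ^ k = 1 := by
    intro k
    rw [← mul_pow]; norm_num
  have h2j : (0:ℝ) < 2 ^ j := by positivity
  have hj3 : θ * 2 ^ j ≤ 1 := by
    have := mul_le_mul_of_nonneg_right hj2 h2j.le
    rwa [hpow j] at this
  have hj4 : 1 < θ * (2 * 2 ^ j) := by
    have h1 : (0:ℝ) < 2 * 2 ^ j := by positivity
    have h2 := mul_lt_mul_of_pos_right hj1 h1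
    have h3 : (1 / 2 : ℝ) ^ (j + 1) * (2 * 2 ^ j) = 1 := by
      rw [← pow_succ' 2 j]
      exact hpow (j + 1)
    rwa [h3] at h2
  -- the number of cosets
  have hcos : (2:ℝ) ^ j ≤ 128 * κ ∨ ∃ A' : Submodule ℝ V, A' ≤ Hf p ∧
        ∑ τ, ∑ X ∈ F τ, ((X.image (fun q => A'.mkQ (ψ q))).card : ℝ) ≤
          κ * (R * Q.card) / 2 ^ j := by
    have hθmem' := hθmem
    rw [hvals, mem_insert] at hθmem'
    rcases hθmem' with h1 | h1
    · left
      rw [h1, one_mul] at hj3
      linarith only [hκ, hj3]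
    · right
      obtain ⟨A, hA, hAθ⟩ := mem_image.mp h1
      have hA' := hA
      rw [h𝒞, mem_filter, mem_image] at hA'
      obtain ⟨⟨Φ, hΦ, hΦA⟩, hAne⟩ := hA'
      rw [mem_filter, mem_powerset] at hΦ
      have hAp : A ≤ Hf p := by
        rw [← hΦA]
        exact iInf₂_le p hΦ.2
      refine ⟨A, hAp, ?_⟩
      have hθA : ncos Q ψ A * (s:ℝ) ^ (e (Module.finrank ℝ A)) = θ * n := by
        rw [← hAθ]
        simp only [hϑ]
        field_simp
      have h2 : ∀ τ, ∑ X ∈ F τ, ((X.image (fun q => A.mkQ (ψ q))).card : ℝ) ≤ κ * (θ * n) := by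
        intro τ
        have h3 : (∑ X ∈ F τ, ((X.image (fun q => A.mkQ (ψ q))).card : ℝ)) ≤
            ∑ v ∈ Q.image (fun q => A.mkQ (ψ q)),
              (((Q.filter (fun q => A.mkQ (ψ q) = v)).image
              (fun q => ((fun k => Rg (g τ k) q), (fun k => Rg (g' k) q)))).card : ℝ) := by
          exact_mod_cast image_count h (fun q => A.mkQ (ψ q)) τ
        refine h3.trans ?_
        calc _ ≤ ∑ v ∈ Q.image (fun q => A.mkQ (ψ q)), κ * (s:ℝ) ^ (e (Module.finrank ℝ A)) :=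
              Finset.sum_le_sum (fun v hv => hpat A hAne ⟨p, hp, hAp⟩ τ v hv)
          _ = (Q.image (fun q => A.mkQ (ψ q))).card * (κ * (s:ℝ) ^ (e (Module.finrank ℝ A))) := by
              rw [Finset.sum_const, nsmul_eq_mul]
          _ = κ * (θ * n) := by
              rw [← hθA]
              unfold ncos
              ring
      calc ∑ τ, ∑ X ∈ F τ, ((X.image (fun q => A.mkQ (ψ q))).card : ℝ) ≤
            ∑ _τ : Fin R, κ * (θ * n) := Finset.sum_le_sum (fun τ _ => h2 τ)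
        _ = R * (κ * (θ * n)) := by
            rw [Finset.sum_const, Finset.card_univ, Fintype.card_fin, nsmul_eq_mul]
        _ ≤ κ * (R * Q.card) / 2 ^ j := by
            rw [le_div_iff₀ h2j]
            calc (R:ℝ) * (κ * (θ * n)) * 2 ^ j = (κ * (R * n)) * (θ * 2 ^ j) := by ring
              _ ≤ (κ * (R * n)) * 1 := mul_le_mul_of_nonneg_left hj3 (by (clear * - hκ hR hn1; positivity))
              _ = κ * (R * Q.card) := by rw [mul_one]
  -- the rich subspace
  have hrich : ∃ A₀ : Submodule ℝ V, A₀ ≤ Hf p ∧ R * n * 2 ^ j / (1024 * κ) ≤ mass (idx F) v A₀ := by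
    have hdef : 2 ^ j ≤ 128 * κ → ∃ A₀ : Submodule ℝ V, A₀ ≤ Hf p ∧
        R * n * 2 ^ j / (1024 * κ) ≤ mass (idx F) v A₀ := by
      intro h1
      refine ⟨Hf p, le_rfl, le_trans ?_ (hval p hp)⟩
      rw [div_le_div_iff₀ (by positivity) (by norm_num)]
      have : R * n * 2 ^ j ≤ R * n * (128 * κ) := mul_le_mul_of_nonneg_left h1 (by (clear * - hR hQ; positivity))
      linarith only [this]
    rw [hvals, mem_insert] at hθmem
    rcases hθmem with h1 | h1
    · apply hdef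
      rw [h1, one_mul] at hj3
      linarith only [hκ, hj3]
    · obtain ⟨A, hA, hAθ⟩ := mem_image.mp h1
      have hA' := hA
      rw [h𝒞, mem_filter, mem_image] at hA'
      obtain ⟨⟨Φ, hΦ, hΦA⟩, hAne⟩ := hA'
      rw [mem_filter, mem_powerset] at hΦ
      have hAp : A ≤ Hf p := by
        rw [← hΦA]
        exact iInf₂_le p hΦ.2
      set Kp : ℝ := κ * (s:ℝ) ^ (e (Module.finrank ℝ A)) with hKp
      have hKp0 : 0 < Kp := by positivity
      have hθA : ncos Q ψ A * (s:ℝ) ^ (e (Module.finrank ℝ A)) = θ * n := by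
        rw [← hAθ]
        simp only [hϑ]
        field_simp
      by_cases hbig : 128 * Kp * (ncos Q ψ A : ℝ) ≤ n
      · refine ⟨A, hAp, ?_⟩
        have h2 := label_pairs h (fun q => A.mkQ (ψ q)) Kp hKp0 (fun τ v' hv' =>
          hpat A hAne ⟨p, hp, hAp⟩ τ v' hv') hbig
        have h3 : mass (idx F) v A = ∑ τ, ∑ X ∈ F τ,
            ((X.offDiag.filter (fun π => A.mkQ (ψ π.1) = A.mkQ (ψ π.2))).card : ℝ) := by
          rw [← idx_filter h]
          unfold mass
          congr 2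
          apply Finset.filter_congr
          intro i _
          simp only [hv]
          rw [Submodule.mkQ_apply, Submodule.mkQ_apply, Submodule.Quotient.eq]
        rw [← h3] at h2
        have h4 : 128 * Kp * (((Q.image (fun q => A.mkQ (ψ q))).card : ℕ) : ℝ) = 128 * κ * (θ * n) := by
          rw [← hθA, hKp]
          unfold ncos
          ring
        rw [h4] at h2
        -- R n n ≤ 128 κ θ n mass
        have h5 : R * n ≤ 128 * κ * θ * mass (idx F) v A := by
          have h6 : (R * n) * n ≤ (128 * κ * θ * mass (idx F) v A) * n := by linarith only [h2]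
          exact le_of_mul_le_mul_right h6 (by linarith only [hn1])
        rw [div_le_iff₀ (by positivity)]
        have hm0 := mass_nonneg (idx F) v A
        calc R * n * 2 ^ j ≤ (128 * κ * θ * mass (idx F) v A) * 2 ^ j :=
              mul_le_mul_of_nonneg_right h5 h2j.le
          _ = (128 * κ * mass (idx F) v A) * (θ * 2 ^ j) := by ring
          _ ≤ (128 * κ * mass (idx F) v A) * 1 := mul_le_mul_of_nonneg_left hj3 (by (clear * - hκ hm0; positivity))
          _ ≤ mass (idx F) v A * (1024 * κ) := by linarith only [mul_nonneg hm0 (by linarith only [hκ] : (0:ℝ) ≤ κ)]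
      · apply hdef
        push Not at hbig
        have h2 : n < 128 * κ * (θ * n) := by
          rw [← hθA]
          calc n < 128 * Kp * (ncos Q ψ A : ℝ) := hbig
            _ = _ := by rw [hKp]; ring
        have h3 : 1 < 128 * κ * θ := by
          have h4 : 1 * n < (128 * κ * θ) * n := by linarith only [h2]
          exact lt_of_mul_lt_mul_right h4 (by linarith only [hn1])
        by_contra hcon
        push Not at hcon
        have h4 : 128 * κ * θ ≤ 2 ^ j * θ := mul_le_mul_of_nonneg_right hcon.le hθ0.le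
        linarith only [hj3, h3, h4]
  obtain ⟨A₀, hA₀, hA₀m'⟩ := hrich
  have hA₀m : R * n * 2 ^ j / (1024 * (2 * κ)) ≤ mass J v A₀ := by
    have h1 : mass (idx F) v A₀ ≤ mass J v A₀ + mass (idx F \ J) v (Hf p) := by
      refine le_trans ?_ (add_le_add le_rfl (mass_mono (Finset.Subset.refl _) v hA₀))
      unfold mass
      have h2 : (idx F).filter (fun i => v i ∈ A₀) ⊆
          J.filter (fun i => v i ∈ A₀) ∪ (idx F \ J).filter (fun i => v i ∈ A₀) := by
        intro i hi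
        rw [mem_filter] at hi
        rw [mem_union, mem_filter, mem_filter, mem_sdiff]
        by_cases h3 : i ∈ J
        · exact Or.inl ⟨h3, hi.2⟩
        · exact Or.inr ⟨⟨hi.1, h3⟩, hi.2⟩
      have h3 := (card_le_card h2).trans (card_union_le _ _)
      exact_mod_cast h3
    have h4 : R * n / (2048 * κ) ≤ R * n * 2 ^ j / (2048 * κ) := by
      apply div_le_div_of_nonneg_right _ (by positivity)
      exact le_mul_of_one_le_right (by positivity) (one_le_pow₀ (by norm_num))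
    have h5 : R * n * 2 ^ j / (1024 * κ) = R * n * 2 ^ j / (2048 * κ) + R * n * 2 ^ j / (2048 * κ) := by
      field_simp
      norm_num
    have h6 : R * n * 2 ^ j / (1024 * (2 * κ)) = R * n * 2 ^ j / (2048 * κ) := by
      congr 1
      ring
    rw [h6]
    have h7 : mass (idx F \ J) v (Hf p) ≤ R * n / (2048 * κ) := hbad
    linarith only [h1, h4, h5, h7, hA₀m']
  set Θ : ℕ → ℝ := fun w => (R * n * 2 ^ j / (1024 * (2 * κ))) * (FF ^ w / FF ^ D) with hΘ
  have hΘpos : ∀ w, 0 < Θ w := fun w => by simp only [hΘ]; (clear * - hR hQ hκ hFF; positivity)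
  have hΘsucc : ∀ w, FF * Θ w = Θ (w + 1) := by
    intro w; simp only [hΘ]; rw [pow_succ]; ring
  have hΘmono : ∀ w w', w ≤ w' → Θ w ≤ Θ w' := by
    intro w w' hww
    simp only [hΘ]
    apply mul_le_mul_of_nonneg_left _ (by (clear * - hR hQ hκ; positivity))
    apply div_le_div_of_nonneg_right _ (by positivity)
    exact pow_le_pow_right₀ hFF hww
  have hd0 : Module.finrank ℝ A₀ ≤ D := (Submodule.finrank_le A₀).trans hD
  obtain ⟨w, _, A, hA, hAw, hAm, hAmin⟩ := exists_minimal_rich J v A₀ (Module.finrank ℝ A₀) rfl Θ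
    (by
      refine le_trans ((hΘmono _ _ hd0).trans ?_) hA₀m
      simp only [hΘ]
      rw [div_self (by positivity), mul_one])
  refine ⟨j, w, A, hA.trans hA₀, hAw, ?_, ?_, hAm, ?_, ?_, hcos⟩
  · by_contra hw
    have hw0 : Module.finrank ℝ A = 0 := by omega
    have h1 := mass_of_finrank_zero J v (by
      intro i hi
      have hi := hJ hi
      rw [mem_idx] at hi
      obtain ⟨X, hX, hi⟩ := hi
      rw [mem_offDiag] at hi
      simp only [hv]
      rw [sub_ne_zero]
      intro h2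
      exact hi.2.2 (hψ _ (h.sub _ X hX hi.1) _ (h.sub _ X hX hi.2.1) h2)) A hw0
    rw [h1] at hAm
    exact absurd (hΘpos w) (not_lt.mpr hAm)
  · have h1 : 2 ^ j * (1 / n) ≤ 2 ^ j * θ := mul_le_mul_of_nonneg_left hθn h2j.le
    have h2 : 2 ^ j * (1 / n) ≤ 1 := by linarith only [hj3, h1]
    rw [mul_one_div, div_le_one (by linarith only [hn1])] at h2
    exact h2
  · intro B' hB'
    obtain ⟨h1, h2⟩ := hAmin B' hB'
    calc FF * mass J v B' ≤ FF * Θ (Module.finrank ℝ B') :=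
          mul_le_mul_of_nonneg_left h2.le (by linarith only [hFF])
      _ = Θ (Module.finrank ℝ B' + 1) := hΘsucc _
      _ ≤ Θ w := hΘmono _ _ h1
      _ ≤ mass J v A := hAm
  · intro Φ hΦ hpΦ A' hA' hA'ne
    have h1 : A' ∈ 𝒞 := by
      rw [h𝒞, mem_filter, mem_image]
      refine ⟨⟨Φ, ?_, hA'.symm⟩, hA'ne⟩
      rw [mem_filter, mem_powerset]
      exact ⟨hΦ, hpΦ⟩
    have h2 := hθ𝒞 A' h1
    simp only [hϑ] at h2
    have h3 : θ * n ≤ (ncos Q ψ A' : ℝ) * (s:ℝ) ^ (e (Module.finrank ℝ A')) := by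
      rw [le_div_iff₀ (by linarith only [hn1])] at h2
      exact h2
    calc n = 1 * n := (one_mul n).symm
      _ ≤ (θ * (2 * 2 ^ j)) * n := mul_le_mul_of_nonneg_right hj4.le (by linarith only [hn1])
      _ = (2 * 2 ^ j) * (θ * n) := by ring
      _ ≤ (2 * 2 ^ j) * ((ncos Q ψ A' : ℝ) * (s:ℝ) ^ (e (Module.finrank ℝ A'))) :=
          mul_le_mul_of_nonneg_left h3 (by positivity)

open scoped Classical in
/-- the adaptive choice with the number of cosets -/
theorem dataB_of (d : ℕ) (hd : 1 ≤ d) (C1 : ℕ) (hC1 : 1 ≤ C1)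
    (P : Finset (EuclideanSpace ℝ (Fin d))) (t1 l I : ℕ)
    (N : ℝ) (ht1 : 1 ≤ t1) (hpin : ∀ p ∈ P, (P.image (dist p)).card ≤ t1)
    (hN : 1 ≤ N) (h4 : 2 * Real.log N + 1 ≤ l) (h5 : 2 ^ (I + 1) ≤ l)
    (h6 : 16 * (2 * Real.log N + 1) * ((((C1 * t1 : ℕ)) : ℝ) + 2) ≤ (l:ℝ) ^ I)
    (h7 : 2 * (P.card : ℝ) ^ 2 ≤ N)
    (hbig : 2 ^ (2 * I + 17) * (2 * Real.log N + 1) * (((C1 * t1 : ℕ)) : ℝ) < P.card)
    (κ : ℝ) (hκ : κ = 2 * (5 * (l:ℝ)) ^ (d + 1))
    (hgd : ∀ s : ℕ, 16 * (2 * Real.log N + 1) * ((((C1 * t1 : ℕ)) : ℝ) + 2) ≤ s →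
      ¬ Gd P P (S2 P) rng s 2) :
    ∃ (s x : ℕ) (Q : Finset (EuclideanSpace ℝ (Fin d)))
      (F : Fin s → Finset (Finset (EuclideanSpace ℝ (Fin d))))
      (jp : EuclideanSpace ℝ (Fin d) → ℕ),
      DataB P Q s x l t1 I C1 (2 * Real.log N + 1) κ F jp := by
  obtain ⟨T, hT⟩ : ∃ T : ℕ, T = C1 * t1 := ⟨_, rfl⟩
  rw [← hT] at h6 hbig hgd
  have hTt : t1 ≤ T := by rw [hT]; exact Nat.le_mul_of_pos_left _ hC1
  have hT1 : 1 ≤ T := ht1.trans hTt
  set Λ : ℝ := 2 * Real.log N + 1 with hΛ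
  have hlogN : 0 ≤ Real.log N := Real.log_nonneg hN
  have hΛ1 : 1 ≤ Λ := by rw [hΛ]; linarith only [hlogN]
  have htR : (1:ℝ) ≤ T := by exact_mod_cast hT1
  have hPpos : (0:ℝ) < P.card := lt_of_le_of_lt (by positivity) hbig
  have hP : P.Nonempty := by rw [← card_pos]; exact_mod_cast hPpos
  have hl1 : 1 ≤ l := Nat.one_le_two_pow.trans h5
  have hlR : (1:ℝ) ≤ l := by exact_mod_cast hl1
  have hl0 : (0:ℝ) < l := by linarith only [h4, hlogN]
  have hIl : (2:ℝ) ^ I ≤ l := by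
    have h5R : (2:ℝ) ^ (I + 1) ≤ l := by exact_mod_cast h5
    have : (2:ℝ) ^ (I + 1) = 2 * 2 ^ I := by ring
    rw [this] at h5R
    have h2 : (0:ℝ) < 2 ^ I := by positivity
    linarith only [h5R]
  have hn1 : (1:ℝ) ≤ P.card := by exact_mod_cast hP.card_pos
  have hPN : (P.card : ℝ) ≤ N := by nlinarith only [h7, hn1]
  have hS : (S2 P).Nonempty := by
    rw [← card_pos, card_S2]
    have := hP.card_pos
    (clear * - this; positivity)
  have hSlog : Real.log (S2 P).card ≤ Λ := by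
    have h1 : ((S2 P).card : ℝ) ≤ N := by
      rw [card_S2]; push_cast; exact h7
    have h2 : (0:ℝ) < (S2 P).card := by exact_mod_cast hS.card_pos
    have h3 := Real.log_le_log h2 h1
    rw [hΛ]; linarith only [hlogN, h3]
  have hZlog : 2 * Real.log P.card + 1 ≤ Λ := by
    have := Real.log_le_log (by linarith only [hPpos]) hPN
    rw [hΛ]; linarith only [this]
  obtain ⟨s, x, Q, g', g, F, hQZ, hs1, hs2, hx8, hxlow, hxup, hZQ, hg', hcell, hR, hsep⟩ :=
    adaptive P (S2 P) rng T l I Λ hP hS hl1 hT1 hZlog hSlog hΛ1 h6 hgd hbig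
  have hs1R : (1:ℝ) ≤ s := by exact_mod_cast hs1
  have hs0 : (0:ℝ) < s := by linarith only [hs1R]
  have hQne : Q.Nonempty := by
    rw [← card_pos]
    rcases Nat.eq_zero_or_pos Q.card with h | h
    · rw [h, mul_zero] at hZQ
      have := hP.card_pos
      omega
    · exact h
  have hPQ : (P.card : ℝ) ≤ l * Q.card := by
    have h1 : P.card ≤ l * Q.card := hZQ.trans (Nat.mul_le_mul_right _ h5)
    exact_mod_cast h1
  have hx1 : 1 ≤ x := by omega
  have hcellnum := cell_num d l s I (by omega) hl1 hs1 P.card Q.card x Λ T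
    (L2_cells d Q l s x g' (fun y hy => by convert hcell y hy)) hPQ
    (by positivity) hxup h4 (by linarith only [hlogN]) (by linarith only [htR]) hIl
  have hκ1 : 1 ≤ κ := by
    have : (1:ℝ) ≤ (5 * (l:ℝ)) ^ (d + 1) := one_le_pow₀ (by linarith only [h4, hlogN])
    rw [hκ]; linarith only [this]
  have hval : ∀ p ∈ P, (s * Q.card : ℝ) / 8 ≤ mass (idx F) vv (hyp p) := by
    intro p hp
    have h1 := value_pairs hR (dist p) T (((card_le_card (image_subset_image hQZ)).trans (hpin p hp)).trans hTt)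
      (by
        intro c hc
        rw [mem_image] at hc
        obtain ⟨z, hz, rfl⟩ := hc
        refine ⟨((p, z), true), ?_, ?_⟩
        · unfold S2
          rw [mem_product, mem_product]
          exact ⟨⟨hp, hQZ hz⟩, mem_univ _⟩
        · intro q _
          exact rng_ball p z q) (Λ / s) (by (clear * - hlogN hs1; positivity)) hsep hx8 hxlow
    rw [← idx_filter hR] at h1
    refine h1.trans (le_of_eq ?_)
    unfold mass
    congr 2
    apply Finset.filter_congr
    intro i _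
    unfold vv
    rw [para_sub, dualVec_mem_hyp]
  have hoff : ∀ i ∈ idx F, i.2 ∈ P.offDiag := by
    intro i hi
    rw [mem_idx] at hi
    obtain ⟨X, hX, hi⟩ := hi
    rw [mem_offDiag] at hi ⊢
    exact ⟨hQZ (hR.sub _ X hX hi.1), hQZ (hR.sub _ X hX hi.2.1), hi.2.2⟩
  have hlineF : ∀ i ∈ idx F, mass (idx F) vv (Submodule.span ℝ {vv i}) ≤ 8 * Q.card * Λ := by
    intro i hi
    have hi' := hoff i hi
    rw [mem_offDiag] at hi'
    have hσ : ((i.2.1, i.2.2), false) ∈ S2 P := by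
      unfold S2
      rw [mem_product, mem_product]
      exact ⟨⟨hi'.1, hi'.2.1⟩, mem_univ _⟩
    have h1 := mirror_mass hR hx1
      (fun π => dualVec π ∈ Submodule.span ℝ {dualVec (i.2.1, i.2.2)}) ((i.2.1, i.2.2), false)
      (Λ / s) (hsep _ hσ) (fun X => mirror_count X i.2.1 i.2.2 hi'.2.2)
    have h2 : 8 * (s:ℝ) * Q.card * (Λ / s) = 8 * Q.card * Λ := by
      (clear * - hs0; field_simp)
    rw [h2] at h1
    exact h1
  have hsel := fun p (hp : p ∈ P) => select3 hR hs1 hs1 hQne P para hyp (fun w => w - 1) κ 1 (d + 1)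
    finrank_V.le hκ1 le_rfl
    (by
      intro q _ q' _ h
      exact congrArg Prod.fst h) (fun p hp => hval p hp)
    (by
      intro A hAne hAp τ v' hv'
      obtain ⟨p, _, hAp⟩ := hAp
      rw [mem_image] at hv'
      obtain ⟨q₀, _, hq₀⟩ := hv'
      have hA1 : 1 ≤ Module.finrank ℝ A := by
        by_contra h0
        have h1 : Module.finrank ℝ A = 0 := by omega
        exact hAne (Submodule.finrank_eq_zero.mp h1)
      have h1 := parab_two_patterns A p hAp hA1 (Q.filter (fun q => A.mkQ (para q) = v')) q₀ (by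
        intro y hy
        have h2 := (mem_filter.mp hy).2
        rw [← hq₀, Submodule.mkQ_apply, Submodule.mkQ_apply, Submodule.Quotient.eq] at h2
        exact h2) s (l * s) (g τ) g'
      have h2 : Module.finrank ℝ A ≤ d + 1 := (Submodule.finrank_le A).trans finrank_V.le
      have h3 := kappa_num (d + 1) (Module.finrank ℝ A - 1) l s (by omega) hs1 hl1
      rw [← hκ] at h3
      refine le_trans ?_ h3
      exact_mod_cast h1) p hp (idx F) (Finset.Subset.refl _)
    (by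
      refine le_trans (le_of_eq (mass_sdiff_self _ _ _ _)) ?_
      (clear * - hκ1; positivity))
  choose! jp wp Ap hA1 hA2 hA3 hA4 hA5 hA6 hA7 hA8 using hsel
  have hBcard : ((Bl F).card : ℝ) = ∑ τ, ((F τ).card : ℝ) := by
    rw [card_Bl]; push_cast; rfl
  refine ⟨s, x, Q, F, jp, ⟨⟨hs1, hx8, hΛ1, hκ1, ?_, ?_, ?_, hQZ, hQne, hPQ, ?_, hR.sub, hR.card, ?_, ?_, ?_,
    idx_card_le hR, ?_, hoff, hlineF, hA4, ?_, hA7⟩, ?_⟩⟩
  · have h1 : 16 * Λ * ((T:ℝ) + 2) ≤ 48 * l * T := by nlinarith only [h4, htR]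
    have h2 : (T:ℝ) = C1 * t1 := by rw [hT]; push_cast; ring
    calc (s:ℝ) ≤ 16 * Λ * ((T:ℝ) + 2) := hs2.le
      _ ≤ 48 * l * T := h1
      _ = 48 * C1 * (l:ℝ) * t1 := by rw [h2]; ring
  · rw [hT] at hxlow
    push_cast at hxlow
    exact hxlow
  · rw [hT] at hxup
    push_cast at hxup
    exact hxup
  · rw [hT] at hcellnum
    push_cast at hcellnum
    exact hcellnum
  · intro τ X hX X' hX' a ha ha'
    exact hR.uniq τ X hX X' hX' a ha a ha' rfl rfl
  · have h1 := hR.le_sum_const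
    have h2 : ∑ τ, ∑ _X ∈ F τ, (x:ℝ) = x * (Bl F).card := by
      rw [hBcard, Finset.mul_sum]
      apply Finset.sum_congr rfl
      intro τ _
      rw [Finset.sum_const, nsmul_eq_mul]; ring
    rw [h2] at h1
    linarith only [h1]
  · have h1 := hR.sum_const_le
    have h2 : ∑ τ, ∑ _X ∈ F τ, (x:ℝ) = x * (Bl F).card := by
      rw [hBcard, Finset.mul_sum]
      apply Finset.sum_congr rfl
      intro τ _
      rw [Finset.sum_const, nsmul_eq_mul]; ring
    rw [h2] at h1
    exact h1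
  · intro σ hσ
    refine (hsep σ hσ).trans (le_of_eq ?_)
    (clear * - hs0; field_simp)
  · intro p hp
    have h1 := hA5 p hp
    have h2 : mass (idx F) vv (Ap p) ≤ mass (idx F) vv (hyp p) :=
      mass_mono (Finset.Subset.refl _) vv (hA1 p hp)
    refine le_trans (le_of_eq ?_) (h1.trans h2)
    rw [one_pow, one_pow, div_one, mul_one]
    congr 1
    ring
  · intro p hp
    rcases hA8 p hp with h1 | ⟨A', h1, h2⟩
    · exact Or.inl h1
    · refine Or.inr ⟨A', h1, ?_⟩
      unfold Bl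
      rw [Finset.sum_sigma]
      exact h2

/-- (U1) -/
theorem has_dataB (d : ℕ) (hd : 1 ≤ d) : HasDataB d := by
  intro C1 P t1 l I N κ hC1 ht1 hpin hN h4 h5 h6 h7 hbig hκ hgd
  exact dataB_of d hd C1 hC1 P t1 l I N ht1 hpin hN h4 h5 h6 h7 hbig κ hκ hgd

end Vale.Agent.P054I
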