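import Vale.Agent.P054.MathlibUsed
import Vale.Agent.P054.H449.IM.Defs
attribute [-instance] ProperSMul.toContinuousSMul IsTopologicalTorsor.toContinuousSMul IdemSemiring.toCanonicallyOrderedAdd IdemSemiring.toMulLeftMono IdemSemiring.toMulRightMono AddQuantale.instAddLeftMono AddQuantale.instAddRightMono Quantale.instMulLeftMono Quantale.instMulRightMono FiniteDimensional.rclike_to_real IsScalarTower.complexToReal FiniteDimensional.complexToReal

set_option linter.all false
set_option autoImplicit false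

open Finset Vale.Agent.P054K

namespace Vale.Agent.P054I

open scoped Classical in
/-- (G3) few blocks have many points in pairs of a set of pairs of small mass -/
theorem bad_blocks (d : ℕ) : BadBlocks d := by
  intro P Q s x l t1 I C1 Λ κ F jp D ε hε J hJ p hmass
  obtain ⟨S, hS⟩ : ∃ S : (Σ _ : Fin s, Finset (EuclideanSpace ℝ (Fin d))) →
      Finset (EuclideanSpace ℝ (Fin d)), S = fun B => B.2.filter (fun q => ∃ q' ∈ B.2,
      (B.1, (q, q')) ∈ J ∧ dualVec (q, q') ∈ hyp p) := ⟨_, rfl⟩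
  obtain ⟨T, hT⟩ : ∃ T : Finset (Fin s × (EuclideanSpace ℝ (Fin d) × EuclideanSpace ℝ (Fin d))),
      T = J.filter (fun i => vv i ∈ hyp p) := ⟨_, rfl⟩
  have hTm : (T.card : ℝ) ≤ ε / 128 * (s * Q.card) := by rw [hT]; exact hmass
  have hmemS : ∀ B q, q ∈ S B ↔ q ∈ B.2 ∧ ∃ q' ∈ B.2,
      (B.1, (q, q')) ∈ J ∧ dualVec (q, q') ∈ hyp p := by
    intro B q
    rw [hS]
    simp only [Finset.mem_filter]
  -- injection
  have hinj : ∑ B ∈ Bl F, (S B).card ≤ T.card := by
    rw [← Finset.card_sigma]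
    have hch : ∀ y : (Σ _ : (Σ _ : Fin s, Finset (EuclideanSpace ℝ (Fin d))),
        EuclideanSpace ℝ (Fin d)), y ∈ (Bl F).sigma S →
        ∃ q' ∈ y.1.2, (y.1.1, (y.2, q')) ∈ J ∧ dualVec (y.2, q') ∈ hyp p := by
      intro y hy
      rw [Finset.mem_sigma, hmemS] at hy
      exact hy.2.2
    obtain ⟨f, hf⟩ : ∃ f : (Σ _ : (Σ _ : Fin s, Finset (EuclideanSpace ℝ (Fin d))),
        EuclideanSpace ℝ (Fin d)) → EuclideanSpace ℝ (Fin d), ∀ y ∈ (Bl F).sigma S,
        f y ∈ y.1.2 ∧ (y.1.1, (y.2, f y)) ∈ J ∧ dualVec (y.2, f y) ∈ hyp p := by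
      refine ⟨fun y => if h : y ∈ (Bl F).sigma S then (hch y h).choose else 0, ?_⟩
      intro y hy
      simp only [dif_pos hy]
      exact (hch y hy).choose_spec
    apply Finset.card_le_card_of_injOn (fun y => (y.1.1, (y.2, f y)))
    · intro y hy
      have h := hf y hy
      rw [Finset.mem_coe, hT, Finset.mem_filter]
      exact ⟨h.2.1, h.2.2⟩
    · intro y hy y' hy' hyy
      rw [Finset.mem_coe] at hy hy'
      simp only [Prod.mk.injEq] at hyy
      obtain ⟨e1, e2, _⟩ := hyy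
      have m1 : y ∈ (Bl F).sigma S := hy
      have m2 : y' ∈ (Bl F).sigma S := hy'
      rw [Finset.mem_sigma, hmemS] at m1 m2
      obtain ⟨⟨τ, X⟩, q⟩ := y
      obtain ⟨⟨τ', X'⟩, q'⟩ := y'
      simp only at e1 e2 m1 m2
      subst e1
      subst e2
      have hX : X ∈ F τ := by
        have := m1.1
        unfold Bl at this
        rw [Finset.mem_sigma] at this
        exact this.2
      have hX' : X' ∈ F τ := by
        have := m2.1
        unfold Bl at this
        rw [Finset.mem_sigma] at this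
        exact this.2
      have hXX := D.hFdis τ X hX X' hX' q m1.2.1 m2.2.1
      subst hXX
      rfl
  obtain ⟨Bad, hBad⟩ : ∃ Bad : Finset (Σ _ : Fin s, Finset (EuclideanSpace ℝ (Fin d))),
      Bad = (Bl F).filter (fun B => ε * x / 2 < ((B.2.filter (fun q => ∃ q' ∈ B.2,
      (B.1, (q, q')) ∈ J ∧ dualVec (q, q') ∈ hyp p)).card : ℝ)) := ⟨_, rfl⟩
  rw [← hBad]
  have h1 : (Bad.card : ℝ) * (ε * x / 2) ≤ ∑ B ∈ Bad, ((S B).card : ℝ) := by
    rw [← nsmul_eq_mul]
    apply Finset.card_nsmul_le_sum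
    intro B hB
    rw [hBad, Finset.mem_filter] at hB
    rw [hS]
    exact le_of_lt hB.2
  have h2 : ∑ B ∈ Bad, ((S B).card : ℝ) ≤ ∑ B ∈ Bl F, ((S B).card : ℝ) := by
    apply Finset.sum_le_sum_of_subset_of_nonneg
    · rw [hBad]; exact Finset.filter_subset _ _
    · intro _ _ _; positivity
  have h3 : ∑ B ∈ Bl F, ((S B).card : ℝ) ≤ T.card := by exact_mod_cast hinj
  have h4 := D.hBlow
  have hx : (0:ℝ) < x := by
    have := D.hx8
    have h5 : 0 < x := by omega
    exact_mod_cast h5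
  have h6 : (Bad.card : ℝ) * (ε * x / 2) ≤ ε / 128 * (8 * x * (Bl F).card) := by
    refine (h1.trans (h2.trans (h3.trans hTm))).trans ?_
    exact mul_le_mul_of_nonneg_left h4 (by positivity)
  have h7 : (8 * (Bad.card : ℝ)) * (ε * x / 16) ≤ ((Bl F).card : ℝ) * (ε * x / 16) := by
    calc (8 * (Bad.card : ℝ)) * (ε * x / 16) = (Bad.card : ℝ) * (ε * x / 2) := by ring
      _ ≤ ε / 128 * (8 * x * (Bl F).card) := h6
      _ = ((Bl F).card : ℝ) * (ε * x / 16) := by ring
  have h8 : 8 * (Bad.card : ℝ) ≤ (Bl F).card := le_of_mul_le_mul_right h7 (by positivity)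
  exact_mod_cast h8

end Vale.Agent.P054I
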