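import Vale.Agent.P054.MathlibUsed
import Vale.Agent.P054.H449.IM.Defs2
import Vale.Agent.P054.H343.G.BadB
attribute [-instance] ProperSMul.toContinuousSMul IsTopologicalTorsor.toContinuousSMul IdemSemiring.toCanonicallyOrderedAdd IdemSemiring.toMulLeftMono IdemSemiring.toMulRightMono AddQuantale.instAddLeftMono AddQuantale.instAddRightMono Quantale.instMulLeftMono Quantale.instMulRightMono FiniteDimensional.rclike_to_real IsScalarTower.complexToReal FiniteDimensional.complexToReal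

set_option linter.all false
set_option autoImplicit false

open Finset Vale.Agent.P054K

namespace Vale.Agent.P054I

open scoped Classical in
/-- one block: window + few poor pairs + few heavy mirrors give `FewM` -/
theorem few_block {d s : ℕ} (F : Fin s → Finset (Finset (EuclideanSpace ℝ (Fin d)))) (x l : ℕ)
    (μ : ℕ → ℝ) (p : EuclideanSpace ℝ (Fin d)) (τ : Fin s) (X : Finset (EuclideanSpace ℝ (Fin d)))
    (hX : X ∈ F τ) (hx : X.card = x) (hxl : x < 2 ^ l) (K : ℝ)
    (hwin : Win X ((x:ℝ) / 16) p)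
    (hbad : ((X.filter (fun q => ∃ q' ∈ X, (τ, (q, q')) ∈
      (range l).biUnion (fun a => Jt F a (μ a)) ∧ dualVec (q, q') ∈ hyp p)).card : ℝ) ≤
      (x:ℝ) / 16)
    (hv : ∑ a ∈ range l, ((vb F a (μ a) p X).card : ℝ) ≤ K) :
    FewM X ((X.card : ℝ) / 8) K p := by
  obtain ⟨Y0, hY0, hY1, hY2⟩ := hwin
  obtain ⟨Bd, hBd⟩ : ∃ Bd : Finset (EuclideanSpace ℝ (Fin d)), Bd = X.filter (fun q => ∃ q' ∈ X,
      (τ, (q, q')) ∈ (range l).biUnion (fun a => Jt F a (μ a)) ∧ dualVec (q, q') ∈ hyp p) :=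
    ⟨_, rfl⟩
  rw [← hBd] at hbad
  -- a normal for every line
  obtain ⟨nL, hnL⟩ : ∃ nL : Submodule ℝ (EuclideanSpace ℝ (Fin d) × ℝ) → EuclideanSpace ℝ (Fin d),
      ∀ L, (∃ w : EuclideanSpace ℝ (Fin d) × ℝ, w.1 ≠ 0 ∧ L = Submodule.span ℝ {w}) →
        ∃ w : EuclideanSpace ℝ (Fin d) × ℝ, w.1 ≠ 0 ∧ L = Submodule.span ℝ {w} ∧ nL L = w.1 := by
    refine ⟨fun L => if h : ∃ w : EuclideanSpace ℝ (Fin d) × ℝ, w.1 ≠ 0 ∧
      L = Submodule.span ℝ {w} then h.choose.1 else 0, ?_⟩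
    intro L h
    refine ⟨h.choose, h.choose_spec.1, h.choose_spec.2, ?_⟩
    simp only [dif_pos h]
  obtain ⟨VL, hVL⟩ : ∃ VL : Finset (Submodule ℝ (EuclideanSpace ℝ (Fin d) × ℝ)),
      VL = (range l).biUnion (fun a => vb F a (μ a) p X) := ⟨_, rfl⟩
  have hline : ∀ L ∈ VL, ∃ w : EuclideanSpace ℝ (Fin d) × ℝ, w.1 ≠ 0 ∧
      L = Submodule.span ℝ {w} := by
    intro L hL
    rw [hVL, Finset.mem_biUnion] at hL
    obtain ⟨a, _, hL⟩ := hL
    unfold vb rl at hL
    rw [Finset.mem_filter, Finset.mem_image] at hL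
    obtain ⟨⟨i, hi, hiL⟩, _⟩ := hL
    rw [Finset.mem_filter] at hi
    have h1 := hi.1
    unfold Jl at h1
    rw [Finset.mem_filter] at h1
    obtain ⟨X', _, hoff, _⟩ := h1.2
    rw [Finset.mem_offDiag] at hoff
    refine ⟨vv i, ?_, hiL.symm⟩
    change i.2.1 - i.2.2 ≠ 0
    exact sub_ne_zero.mpr hoff.2.2
  refine ⟨Y0 \ Bd, VL.image nL, ?_, ?_, ?_, ?_, ?_, ?_⟩
  · exact (Finset.sdiff_subset).trans hY0
  · have h1 : X \ (Y0 \ Bd) ⊆ (X \ Y0) ∪ Bd := by
      intro z hz
      rw [Finset.mem_sdiff] at hz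
      rw [Finset.mem_union, Finset.mem_sdiff]
      by_cases hzY : z ∈ Y0
      · right
        by_contra hzB
        exact hz.2 (Finset.mem_sdiff.mpr ⟨hzY, hzB⟩)
      · left; exact ⟨hz.1, hzY⟩
    have h2 : ((X \ (Y0 \ Bd)).card : ℝ) ≤ (X \ Y0).card + Bd.card := by
      exact_mod_cast (Finset.card_le_card h1).trans (Finset.card_union_le _ _)
    rw [hx]
    linarith
  · have h1 : ((Y0 \ Bd).image (dist p)).card ≤ (Y0.image (dist p)).card :=
      Finset.card_le_card (Finset.image_subset_image Finset.sdiff_subset)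
    have h2 : (((Y0 \ Bd).image (dist p)).card : ℝ) ≤ (Y0.image (dist p)).card := by
      exact_mod_cast h1
    have h3 : (0:ℝ) ≤ x := Nat.cast_nonneg _
    rw [hx]
    linarith
  · have h1 : ((VL.image nL).card : ℝ) ≤ VL.card := by exact_mod_cast Finset.card_image_le
    have h2 : (VL.card : ℝ) ≤ ∑ a ∈ range l, ((vb F a (μ a) p X).card : ℝ) := by
      rw [hVL]
      exact_mod_cast Finset.card_biUnion_le
    linarith
  · intro v hv'
    rw [Finset.mem_image] at hv'
    obtain ⟨L, hL, rfl⟩ := hv'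
    obtain ⟨w, hw, _, hn⟩ := hnL L (hline L hL)
    rw [hn]; exact hw
  · intro y hy y' hy' hne hdist
    rw [Finset.mem_sdiff] at hy hy'
    have hyX := hY0 hy.1
    have hyX' := hY0 hy'.1
    have hdv : dualVec (y, y') ∈ hyp p := (dualVec_mem_hyp p (y, y')).mpr hdist
    have hoff : (y, y') ∈ X.offDiag := Finset.mem_offDiag.mpr ⟨hyX, hyX', hne⟩
    have hidx : ((τ, (y, y')) : Fin s × (EuclideanSpace ℝ (Fin d) × EuclideanSpace ℝ (Fin d))) ∈
        idx F := (mem_idx F _).mpr ⟨X, hX, hoff⟩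
    -- the level
    obtain ⟨A, hA⟩ : ∃ A : ℕ, A = (X.filter (fun z => dist z y < dist z y')).card := ⟨_, rfl⟩
    obtain ⟨B, hB⟩ : ∃ B : ℕ, B = (X.filter (fun z => dist z y' < dist z y)).card := ⟨_, rfl⟩
    have hpos : 0 < dist y y' := dist_pos.mpr hne
    have hA1 : 1 ≤ A := by
      rw [hA]
      apply Finset.card_pos.mpr
      refine ⟨y, Finset.mem_filter.mpr ⟨hyX, ?_⟩⟩
      rw [dist_self]; exact hpos
    have hB1 : 1 ≤ B := by
      rw [hB]
      apply Finset.card_pos.mpr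
      refine ⟨y', Finset.mem_filter.mpr ⟨hyX', ?_⟩⟩
      rw [dist_self, dist_comm]; exact hpos
    have hAx : A ≤ x := by rw [hA, ← hx]; exact Finset.card_filter_le _ _
    obtain ⟨a, ha⟩ : ∃ a : ℕ, a = Nat.log 2 (min A B) := ⟨_, rfl⟩
    have hmin : min A B ≠ 0 := by
      have : 1 ≤ min A B := le_min hA1 hB1
      omega
    have ha1 : 2 ^ a ≤ min A B := by rw [ha]; exact Nat.pow_log_le_self 2 hmin
    have ha2 : min A B < 2 ^ (a + 1) := by
      rw [ha]; exact Nat.lt_pow_succ_log_self (by norm_num) _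
    have hal : a < l := by
      have h1 : 2 ^ a < 2 ^ l := by
        calc 2 ^ a ≤ min A B := ha1
          _ ≤ A := min_le_left _ _
          _ ≤ x := hAx
          _ < 2 ^ l := hxl
      exact (Nat.pow_lt_pow_iff_right (by norm_num)).mp h1
    have hH1 : Heavy X (2 ^ a) (y, y') := by
      refine ⟨?_, ?_⟩
      · have := ha1.trans (min_le_left A B)
        rw [hA] at this
        exact this
      · have := ha1.trans (min_le_right A B)
        rw [hB] at this
        exact this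
    have hH2 : ¬ Heavy X (2 ^ (a + 1)) (y, y') := by
      rintro ⟨h1, h2⟩
      simp only at h1 h2
      have h3 : 2 ^ (a + 1) ≤ min A B := by
        apply le_min
        · rw [hA]; exact h1
        · rw [hB]; exact h2
      omega
    have hJl : ((τ, (y, y')) : Fin s × (EuclideanSpace ℝ (Fin d) × EuclideanSpace ℝ (Fin d))) ∈
        Jl F a := by
      unfold Jl
      rw [Finset.mem_filter]
      exact ⟨hidx, X, hX, hoff, hH1, hH2⟩
    -- the line is not poor
    have hrich : μ a ≤ mass (Jl F a) vv (Submodule.span ℝ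
        {vv ((τ, (y, y')) : Fin s × (EuclideanSpace ℝ (Fin d) × EuclideanSpace ℝ (Fin d)))}) := by
      by_contra hcon
      push Not at hcon
      apply hy.2
      rw [hBd, Finset.mem_filter]
      refine ⟨hyX, y', hyX', ?_, hdv⟩
      rw [Finset.mem_biUnion]
      refine ⟨a, Finset.mem_range.mpr hal, ?_⟩
      unfold Jt
      rw [Finset.mem_filter]
      exact ⟨hJl, hcon⟩
    have hL : Submodule.span ℝ {dualVec (y, y')} ∈ VL := by
      rw [hVL, Finset.mem_biUnion]
      refine ⟨a, Finset.mem_range.mpr hal, ?_⟩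
      unfold vb rl
      rw [Finset.mem_filter, Finset.mem_image]
      refine ⟨⟨(τ, (y, y')), ?_, rfl⟩, (y, y'), hne, rfl, hH1⟩
      rw [Finset.mem_filter]
      exact ⟨hJl, hdv, hrich⟩
    obtain ⟨w, hw, hLw, hn⟩ := hnL _ (hline _ hL)
    refine ⟨_, Finset.mem_image_of_mem nL hL, ?_⟩
    rw [hn]
    have h1 : dualVec (y, y') ∈ Submodule.span ℝ {w} := by
      rw [← hLw]; exact Submodule.mem_span_singleton_self _
    obtain ⟨c, hc⟩ := Submodule.mem_span_singleton.mp h1
    rw [Submodule.mem_span_singleton]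
    refine ⟨c, ?_⟩
    have h2 := congrArg Prod.fst hc
    rw [Prod.smul_fst] at h2
    exact h2

open scoped Classical in
/-- (G5) -/
theorem few_blocks (d : ℕ) (hW : WinBlocks d) (hH : HeavyBlocks d) : FewBlocks d := by
  intro P Q s x l t1 I Λ κ F jp D hl hxl hx32 η μ hη p hp hpin hrl hmass
  have hl0 : (0:ℝ) < l := by exact_mod_cast hl
  have hx0 : (32:ℝ) ≤ x := by exact_mod_cast hx32
  -- the three kinds of bad blocks
  have h1 := hW P Q s x l t1 I 256 Λ κ F jp D (1 / 8) (by norm_num) (by norm_num) (by linarith)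
    p hp hpin
  have h2 := hH P Q s x l t1 I 256 Λ κ F jp D hl η μ hη p hp hrl
  obtain ⟨J, hJ⟩ : ∃ J : Finset (Fin s × (EuclideanSpace ℝ (Fin d) × EuclideanSpace ℝ (Fin d))),
      J = (range l).biUnion (fun a => Jt F a (μ a)) := ⟨_, rfl⟩
  have hJsub : J ⊆ idx F := by
    intro i hi
    rw [hJ, Finset.mem_biUnion] at hi
    obtain ⟨a, _, hi⟩ := hi
    unfold Jt Jl at hi
    rw [Finset.mem_filter, Finset.mem_filter] at hi
    exact hi.1.1
  have hJm : mass J vv (hyp p) ≤ (1 / 8) / 128 * (s * Q.card) := by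
    have e1 : mass J vv (hyp p) ≤ ∑ a ∈ range l, mass (Jt F a (μ a)) vv (hyp p) := by
      unfold mass
      rw [hJ, Finset.filter_biUnion]
      exact_mod_cast Finset.card_biUnion_le
    have e2 : ∑ a ∈ range l, mass (Jt F a (μ a)) vv (hyp p) ≤
        ∑ a ∈ range l, ((s:ℝ) * Q.card / (1024 * l)) := by
      apply Finset.sum_le_sum
      intro a ha
      exact hmass a (Finset.mem_range.mp ha)
    rw [Finset.sum_const, Finset.card_range, nsmul_eq_mul] at e2
    have e3 : (l:ℝ) * ((s:ℝ) * Q.card / (1024 * l)) = (1 / 8) / 128 * (s * Q.card) := by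
      field_simp
      ring
    linarith
  have h3 := bad_blocks d P Q s x l t1 I 256 Λ κ F jp D (1 / 8) (by norm_num) J hJsub p hJm
  obtain ⟨S1, hS1⟩ : ∃ S1 : Finset (Σ _ : Fin s, Finset (EuclideanSpace ℝ (Fin d))),
      S1 = (Bl F).filter (fun B => ¬ Win B.2 ((1 / 8 : ℝ) * x / 2) p) := ⟨_, rfl⟩
  obtain ⟨S2', hS2⟩ : ∃ S2' : Finset (Σ _ : Fin s, Finset (EuclideanSpace ℝ (Fin d))),
      S2' = (Bl F).filter (fun B => 256 * l * Λ * η <
      ∑ a ∈ range l, ((vb F a (μ a) p B.2).card : ℝ)) := ⟨_, rfl⟩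
  obtain ⟨S3, hS3⟩ : ∃ S3 : Finset (Σ _ : Fin s, Finset (EuclideanSpace ℝ (Fin d))),
      S3 = (Bl F).filter (fun B => (1 / 8 : ℝ) * x / 2 < ((B.2.filter (fun q => ∃ q' ∈ B.2,
      (B.1, (q, q')) ∈ J ∧ dualVec (q, q') ∈ hyp p)).card : ℝ)) := ⟨_, rfl⟩
  rw [← hS1] at h1
  rw [← hS2] at h2
  rw [← hS3] at h3
  have hsub : (Bl F).filter (fun B => ¬ FewM B.2 ((x:ℝ) / 8) (256 * l * Λ * η) p) ⊆
      (S1 ∪ S2') ∪ S3 := by
    intro B hB
    rw [Finset.mem_filter] at hB
    by_contra hcon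
    rw [Finset.mem_union, Finset.mem_union] at hcon
    push Not at hcon
    obtain ⟨⟨c1, c2⟩, c3⟩ := hcon
    apply hB.2
    have m1 : Win B.2 ((x:ℝ) / 16) p := by
      by_contra h
      apply c1
      rw [hS1, Finset.mem_filter]
      refine ⟨hB.1, ?_⟩
      rw [show (1 / 8 : ℝ) * x / 2 = (x:ℝ) / 16 by ring]
      exact h
    have m2 : ∑ a ∈ range l, ((vb F a (μ a) p B.2).card : ℝ) ≤ 256 * l * Λ * η := by
      by_contra h
      push Not at h
      apply c2
      rw [hS2, Finset.mem_filter]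
      exact ⟨hB.1, h⟩
    have m3 : ((B.2.filter (fun q => ∃ q' ∈ B.2,
      (B.1, (q, q')) ∈ J ∧ dualVec (q, q') ∈ hyp p)).card : ℝ) ≤ (x:ℝ) / 16 := by
      by_contra h
      push Not at h
      apply c3
      rw [hS3, Finset.mem_filter]
      refine ⟨hB.1, ?_⟩
      rw [show (1 / 8 : ℝ) * x / 2 = (x:ℝ) / 16 by ring]
      exact h
    have hBF : B.2 ∈ F B.1 := by
      have := hB.1
      unfold Bl at this
      rw [Finset.mem_sigma] at this
      exact this.2
    have hBx := D.hFcard B.1 B.2 hBF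
    rw [hJ] at m3
    have h5 := few_block F x l μ p B.1 B.2 hBF hBx hxl _ m1 m3 m2
    rw [hBx] at h5
    exact h5
  have hc := Finset.card_le_card hsub
  have hc2 := Finset.card_union_le (S1 ∪ S2') S3
  have hc3 := Finset.card_union_le S1 S2'
  omega

open scoped Classical in
/-- (G6) -/
theorem one_block (d : ℕ) : OneBlock d := by
  intro s F P0 δ k hpos hP0
  by_contra hcon
  push Not at hcon
  have h1 : ∑ B ∈ Bl F, 2 * (P0.filter (fun p => FewM B.2 δ k p)).card <
      ∑ B ∈ Bl F, P0.card := by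
    apply Finset.sum_lt_sum_of_nonempty (Finset.card_pos.mp hpos)
    intro B hB
    exact hcon B hB
  rw [← Finset.mul_sum, Finset.sum_const, smul_eq_mul] at h1
  have h2 : ∑ B ∈ Bl F, (P0.filter (fun p => FewM B.2 δ k p)).card =
      ∑ p ∈ P0, ((Bl F).filter (fun B => FewM B.2 δ k p)).card := by
    simp only [Finset.card_filter]
    rw [Finset.sum_comm]
  have h3 : ∀ p ∈ P0, 5 * (Bl F).card ≤ 8 * ((Bl F).filter (fun B => FewM B.2 δ k p)).card := by
    intro p hp
    have h4 := hP0 p hp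
    have h5 := Finset.card_filter_add_card_filter_not (s := Bl F) (fun B => FewM B.2 δ k p)
    omega
  have h6 := Finset.sum_le_sum h3
  rw [Finset.sum_const, smul_eq_mul, ← Finset.mul_sum, ← h2] at h6
  nlinarith [Nat.zero_le (P0.card * (Bl F).card)]

end Vale.Agent.P054I
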