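import Vale.Agent.P054.MathlibUsed
import Vale.Agent.P054.H239.HFin
import Vale.Agent.P054.H343.G.LocW
attribute [-instance] ProperSMul.toContinuousSMul IsTopologicalTorsor.toContinuousSMul IdemSemiring.toCanonicallyOrderedAdd IdemSemiring.toMulLeftMono IdemSemiring.toMulRightMono AddQuantale.instAddLeftMono AddQuantale.instAddRightMono Quantale.instMulLeftMono Quantale.instMulRightMono FiniteDimensional.rclike_to_real IsScalarTower.complexToReal FiniteDimensional.complexToReal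

set_option linter.all false
set_option autoImplicit false

open Finset Vale.Agent.P054K Vale.Agent.P054G

/-! P054, Theorem G: the local lemma with multiplicity, final forms. -/

namespace Vale.Agent.P054I

/-- common part of the two final forms -/
theorem loc_common (d : ℕ) (hd : 2 ≤ d) : ∃ (K : ℝ) (c : ℕ), 1 ≤ K ∧
    ∀ (X P : Finset (EuclideanSpace ℝ (Fin d))) (l : ℕ) (k M1 : ℝ) (Bf : ℕ → ℝ), 1 ≤ k →
    20 * (Real.log ((X.card : ℝ) + 3) + 1) ≤ l → K * (l:ℝ) ^ c * k ^ 6 ≤ X.card →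
    0 ≤ M1 → (∀ r, 0 ≤ Bf r) → (∀ p ∈ P, Bad X k p) →
    (∀ p0 v : EuclideanSpace ℝ (Fin d), v ≠ 0 →
      open scoped Classical in
      ((P.filter (fun z => inner ℝ v (z - p0) = 0)).card : ℝ) ≤ M1) →
    (∀ r, 2 ≤ r → r < d →
      ((robsA X ((X.card : ℝ) / (2 ^ (d + 4) * k ^ 3)) r).card : ℝ) ≤
        K * (l:ℝ) ^ c * (2 ^ (d + 4) * k ^ 3) ^ (r - 1) →
      ∀ U : Submodule ℝ (EuclideanSpace ℝ (Fin d) × ℝ),
      open scoped Classical in
      ((P.filter (fun p => Dat X ((X.card : ℝ) / (2 ^ (d + 4) * k ^ 3)) r p U)).card : ℝ) ≤ Bf r) →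
    (P.card : ℝ) ≤
      2 ^ (d + 4) * (∑ r ∈ Finset.Ico 2 d, K * (l:ℝ) ^ c * (2 ^ (d + 4) * k ^ 3) ^ (r - 2) * Bf r +
        K * (l:ℝ) ^ c * (2 ^ (d + 4) * k ^ 3) ^ (d - 2) * M1) := by
  classical
  obtain ⟨K1, c1, hK1, hcnt⟩ := robA_count d
  obtain ⟨K2, c2, hK2, hwt⟩ := robA_weight d
  refine ⟨(K1 + K2) * (2 ^ (d + 4)) ^ 2, c1 + c2, ?_, ?_⟩
  · have : (1:ℝ) ≤ (2 ^ (d + 4)) ^ 2 := one_le_pow₀ (one_le_pow₀ (by norm_num))
    nlinarith
  intro X P l k M1 Bf hk hl hX hM1 hBf hP hg1 hB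
  have hk0 : 0 < k := by linarith
  have hlog : 0 ≤ Real.log ((X.card : ℝ) + 3) := Real.log_nonneg (by
    have : (0:ℝ) ≤ X.card := by positivity
    linarith)
  have hl1 : (1:ℝ) ≤ l := by linarith
  have hl0 : (0:ℝ) < l := by linarith
  obtain ⟨W, hW⟩ : ∃ W : ℝ, W = (K1 + K2) * (2 ^ (d + 4)) ^ 2 * (l:ℝ) ^ (c1 + c2) := ⟨_, rfl⟩
  rw [← hW] at hX hB ⊢
  obtain ⟨κ, hκ⟩ : ∃ κ : ℝ, κ = 2 ^ (d + 4) * k ^ 3 := ⟨_, rfl⟩
  have hκ1 : 1 ≤ κ := by
    rw [hκ]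
    exact one_le_mul_of_one_le_of_one_le (one_le_pow₀ (by norm_num)) (one_le_pow₀ hk)
  have hκ0 : 0 < κ := by linarith
  have h2 : (1:ℝ) ≤ (2 ^ (d + 4)) ^ 2 := one_le_pow₀ (one_le_pow₀ (by norm_num))
  have hlc1 : (l:ℝ) ^ c1 ≤ (l:ℝ) ^ (c1 + c2) := pow_le_pow_right₀ hl1 (by omega)
  have hlc2 : (l:ℝ) ^ c2 ≤ (l:ℝ) ^ (c1 + c2) := pow_le_pow_right₀ hl1 (by omega)
  have hKl : 0 < (l:ℝ) ^ (c1 + c2) := by positivity
  -- `Ki l^ci * 4^.. ≤ W`
  have hW1 : K1 * (l:ℝ) ^ c1 * (2 ^ (d + 4)) ^ 2 ≤ W := by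
    rw [hW]
    calc K1 * (l:ℝ) ^ c1 * (2 ^ (d + 4)) ^ 2 ≤ (K1 + K2) * (l:ℝ) ^ (c1 + c2) * (2 ^ (d + 4)) ^ 2 := by
          apply mul_le_mul_of_nonneg_right _ (by positivity)
          exact mul_le_mul (by linarith) hlc1 (by positivity) (by linarith)
      _ = _ := by ring
  have hW2 : K2 * (l:ℝ) ^ c2 * (2 ^ (d + 4)) ^ 2 ≤ W := by
    rw [hW]
    calc K2 * (l:ℝ) ^ c2 * (2 ^ (d + 4)) ^ 2 ≤ (K1 + K2) * (l:ℝ) ^ (c1 + c2) * (2 ^ (d + 4)) ^ 2 := by
          apply mul_le_mul_of_nonneg_right _ (by positivity)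
          exact mul_le_mul (by linarith) hlc2 (by positivity) (by linarith)
      _ = _ := by ring
  have hW1' : K1 * (l:ℝ) ^ c1 ≤ W := by
    refine le_trans ?_ hW1
    exact le_mul_of_one_le_right (by positivity) h2
  have hW2' : K2 * (l:ℝ) ^ c2 ≤ W := by
    refine le_trans ?_ hW2
    exact le_mul_of_one_le_right (by positivity) h2
  have hWone : 1 ≤ W := le_trans (one_le_mul_of_one_le_of_one_le hK1 (one_le_pow₀ hl1)) hW1'
  -- `Ki l^ci κ² ≤ x`
  have hside1 : K1 * (l:ℝ) ^ c1 * κ ^ 2 ≤ X.card := by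
    refine le_trans ?_ hX
    have e1 : κ ^ 2 = (2 ^ (d + 4)) ^ 2 * k ^ 6 := by rw [hκ]; ring
    rw [e1, ← mul_assoc]
    exact mul_le_mul_of_nonneg_right hW1 (by positivity)
  have hside2 : K2 * (l:ℝ) ^ c2 * κ ^ 2 ≤ X.card := by
    refine le_trans ?_ hX
    have e1 : κ ^ 2 = (2 ^ (d + 4)) ^ 2 * k ^ 6 := by rw [hκ]; ring
    rw [e1, ← mul_assoc]
    exact mul_le_mul_of_nonneg_right hW2 (by positivity)
  have hXκ : κ < X.card := by
    have h3 : (1:ℝ) < 2 ^ (d + 4) := one_lt_pow₀ (by norm_num) (by omega)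
    have h4 : (1:ℝ) ≤ K1 * (l:ℝ) ^ c1 := one_le_mul_of_one_le_of_one_le hK1 (one_le_pow₀ hl1)
    have h5 : 1 < κ := by
      rw [hκ]
      exact lt_of_lt_of_le h3 (le_mul_of_one_le_right (by positivity) (one_le_pow₀ hk))
    have h6 : κ * κ ≤ X.card := by
      calc κ * κ = 1 * κ ^ 2 := by ring
        _ ≤ K1 * (l:ℝ) ^ c1 * κ ^ 2 := mul_le_mul_of_nonneg_right h4 (by positivity)
        _ ≤ X.card := hside1
    nlinarith
  have hX0 : (0:ℝ) < X.card := by linarith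
  have hρ : 0 < (X.card : ℝ) / κ := by positivity
  have hdiv : (X.card : ℝ) / ((X.card : ℝ) / κ) = κ := by field_simp
  have hs : ∀ (K : ℝ) (c : ℕ), 1 ≤ K → K * (l:ℝ) ^ c * κ ^ 2 ≤ X.card →
      K * (l:ℝ) ^ c * X.card ≤ ((X.card : ℝ) / κ) ^ 2 ∧ K * (l:ℝ) ^ c ≤ (X.card : ℝ) / κ := by
    intro K c hK h
    constructor
    · rw [div_pow, le_div_iff₀ (by positivity)]
      calc K * (l:ℝ) ^ c * (X.card : ℝ) * κ ^ 2 = (K * (l:ℝ) ^ c * κ ^ 2) * (X.card : ℝ) := by ring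
        _ ≤ (X.card : ℝ) * (X.card : ℝ) := mul_le_mul_of_nonneg_right h hX0.le
        _ = (X.card : ℝ) ^ 2 := by ring
    · rw [le_div_iff₀ hκ0]
      refine le_trans ?_ h
      apply mul_le_mul_of_nonneg_left _ (by positivity)
      exact le_self_pow₀ hκ1 (by norm_num)
  obtain ⟨a1, a2⟩ := hs K1 c1 hK1 hside1
  obtain ⟨b1, b2⟩ := hs K2 c2 hK2 hside2
  have h1 := bad_countW hd P X k W M1 Bf hk (by rw [← hκ]; exact hXκ) hWone hM1 hBf (by
    intro r hr2 hrd N hN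
    rw [← hκ] at hN ⊢
    have h3 := hwt X r ((X.card : ℝ) / κ) l N hr2 hrd hN hl b1 b2
    rw [hdiv] at h3
    exact h3.trans (mul_le_mul_of_nonneg_right hW2' (by positivity))) hg1 (by
    intro r hr2 hrd U
    apply hB r hr2 hrd
    rw [← hκ]
    have h3 := hcnt X r ((X.card : ℝ) / κ) l (robsA X ((X.card : ℝ) / κ) r) hr2 hrd.le
      (fun U hU => (mem_robsA hρ).mp hU) hl a1 a2
    rw [hdiv] at h3
    exact h3.trans (mul_le_mul_of_nonneg_right hW1' (by positivity)))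
  rw [filter_true_of_mem hP] at h1
  exact h1

/-- local lemma, triples of flats: `k^(3(3(d-1)-4))` times codimension two plus `k^(3(d-2))`
times hyperplanes -/
theorem locGen_triples (d : ℕ) (hd : 2 ≤ d) : ∃ (C : ℝ) (c : ℕ), 1 ≤ C ∧
    LocGen d C c 6 (3 * (d - 2)) (3 * (3 * (d - 1) - 4)) := by
  classical
  obtain ⟨K, c, hK, hcom⟩ := loc_common d hd
  have hd1 : (1:ℝ) ≤ d := by exact_mod_cast (by omega : 1 ≤ d)
  refine ⟨12 * d * K ^ 3 * 2 ^ (3 * d * (d + 4)), 3 * c, ?_, ?_⟩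
  · have h1 : (1:ℝ) ≤ 12 * d := by linarith
    exact one_le_mul_of_one_le_of_one_le (one_le_mul_of_one_le_of_one_le h1 (one_le_pow₀ hK))
      (one_le_pow₀ (by norm_num))
  intro X P t l k M1 M2 hk hl hX hM1 hM2 hP hy1 hy2
  have hk0 : 0 < k := by linarith
  have hlog : 0 ≤ Real.log ((X.card : ℝ) + 3) := Real.log_nonneg (by
    have : (0:ℝ) ≤ X.card := by positivity
    linarith)
  have hl1 : (1:ℝ) ≤ l := by linarith
  obtain ⟨W, hW⟩ : ∃ W : ℝ, W = K * (l:ℝ) ^ c := ⟨_, rfl⟩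
  have hW1 : 1 ≤ W := by rw [hW]; exact one_le_mul_of_one_le_of_one_le hK (one_le_pow₀ hl1)
  have hW0 : 0 < W := by linarith
  have hW3 : W ^ 3 = K ^ 3 * (l:ℝ) ^ (3 * c) := by rw [hW, mul_pow, ← pow_mul, mul_comm c 3]
  have hWW3 : W ≤ W ^ 3 := le_self_pow₀ hW1 (by norm_num)
  have h12 : 1 ≤ 12 * (d:ℝ) := by linarith
  have hCC : (12 * d * K ^ 3 * 2 ^ (3 * d * (d + 4)) : ℝ) * (l:ℝ) ^ (3 * c) =
      12 * d * W ^ 3 * 2 ^ (3 * d * (d + 4)) := by rw [hW3]; ring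
  rw [hCC] at hX ⊢
  obtain ⟨κ, hκ⟩ : ∃ κ : ℝ, κ = 2 ^ (d + 4) * k ^ 3 := ⟨_, rfl⟩
  have hκ1 : 1 ≤ κ := by
    rw [hκ]
    exact one_le_mul_of_one_le_of_one_le (one_le_pow₀ (by norm_num)) (one_le_pow₀ hk)
  have hκ0 : 0 < κ := by linarith
  have hX' : K * (l:ℝ) ^ c * k ^ 6 ≤ X.card := by
    refine le_trans ?_ hX
    rw [← hW]
    apply mul_le_mul_of_nonneg_right _ (by positivity)
    calc W = 1 * W * 1 := by ring
      _ ≤ 12 * d * W ^ 3 * 2 ^ (3 * d * (d + 4)) := by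
          apply mul_le_mul _ (one_le_pow₀ (by norm_num)) (by norm_num) (by positivity)
          exact mul_le_mul h12 hWW3 hW0.le (by positivity)
  have h1 := hcom X P l k M1 (fun r => (W * κ ^ (r - 1)) ^ 2 * (12 * M2)) hk hl hX' hM1
    (fun r => by positivity) hP hy1 (by
    intro r hr2 hrd hcnt U
    rw [← hκ, ← hW] at hcnt
    rw [← hκ]
    have hX0 : (0:ℝ) < X.card := by
      have : (0:ℝ) < K * (l:ℝ) ^ c * k ^ 6 := by rw [← hW]; positivity
      linarith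
    refine (dat_triples P X ((X.card : ℝ) / κ) M2 (by positivity) hM2 r hr2 hy2 U).trans ?_
    apply mul_le_mul_of_nonneg_right _ (by positivity)
    exact pow_le_pow_left₀ (by positivity) hcnt 2)
  rw [← hκ, ← hW] at h1
  refine h1.trans ?_
  have hsum : ∑ r ∈ Finset.Ico 2 d, W * κ ^ (r - 2) * ((W * κ ^ (r - 1)) ^ 2 * (12 * M2)) ≤
      d * (12 * W ^ 3 * κ ^ (3 * (d - 1) - 4) * M2) := by
    calc ∑ r ∈ Finset.Ico 2 d, W * κ ^ (r - 2) * ((W * κ ^ (r - 1)) ^ 2 * (12 * M2)) ≤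
          ∑ _r ∈ Finset.Ico 2 d, 12 * W ^ 3 * κ ^ (3 * (d - 1) - 4) * M2 := by
          apply sum_le_sum
          intro r hr
          rw [mem_Ico] at hr
          have e1 : W * κ ^ (r - 2) * ((W * κ ^ (r - 1)) ^ 2 * (12 * M2)) =
              12 * W ^ 3 * κ ^ (r - 2 + 2 * (r - 1)) * M2 := by
            rw [mul_pow, ← pow_mul, mul_comm (r - 1) 2, pow_add]
            ring
          rw [e1]
          apply mul_le_mul_of_nonneg_right _ hM2
          apply mul_le_mul_of_nonneg_left _ (by positivity)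
          exact pow_le_pow_right₀ hκ1 (by omega)
      _ = (Finset.Ico 2 d).card * (12 * W ^ 3 * κ ^ (3 * (d - 1) - 4) * M2) := by
          rw [sum_const, nsmul_eq_mul]
      _ ≤ _ := by
          apply mul_le_mul_of_nonneg_right _ (by positivity)
          rw [Nat.card_Ico]
          exact_mod_cast (by omega : d - 2 ≤ d)
  have hκe : ∀ e, κ ^ e = 2 ^ ((d + 4) * e) * k ^ (3 * e) := by
    intro e
    rw [hκ, mul_pow, ← pow_mul, ← pow_mul]
  have hp1 : (2:ℝ) ^ (d + 4) * 2 ^ ((d + 4) * (3 * (d - 1) - 4)) ≤ 2 ^ (3 * d * (d + 4)) := by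
    rw [← pow_add]
    apply pow_le_pow_right₀ (by norm_num)
    have : (d + 4) + (d + 4) * (3 * (d - 1) - 4) = (1 + (3 * (d - 1) - 4)) * (d + 4) := by ring
    rw [this]
    exact Nat.mul_le_mul_right _ (by omega)
  have hp2 : (2:ℝ) ^ (d + 4) * 2 ^ ((d + 4) * (d - 2)) ≤ 2 ^ (3 * d * (d + 4)) := by
    rw [← pow_add]
    apply pow_le_pow_right₀ (by norm_num)
    have : (d + 4) + (d + 4) * (d - 2) = (1 + (d - 2)) * (d + 4) := by ring
    rw [this]
    exact Nat.mul_le_mul_right _ (by omega)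
  calc 2 ^ (d + 4) * (∑ r ∈ Finset.Ico 2 d, W * κ ^ (r - 2) * ((W * κ ^ (r - 1)) ^ 2 * (12 * M2)) +
        W * κ ^ (d - 2) * M1) ≤
      2 ^ (d + 4) * (d * (12 * W ^ 3 * κ ^ (3 * (d - 1) - 4) * M2) + W * κ ^ (d - 2) * M1) := by
        apply mul_le_mul_of_nonneg_left _ (by positivity)
        linarith
    _ = (12 * d * W ^ 3 * (2 ^ (d + 4) * 2 ^ ((d + 4) * (3 * (d - 1) - 4)))) *
          (k ^ (3 * (3 * (d - 1) - 4)) * M2) +
        (1 * W * (2 ^ (d + 4) * 2 ^ ((d + 4) * (d - 2)))) * (k ^ (3 * (d - 2)) * M1) := by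
        rw [hκe, hκe]
        ring
    _ ≤ (12 * d * W ^ 3 * 2 ^ (3 * d * (d + 4))) * (k ^ (3 * (3 * (d - 1) - 4)) * M2) +
        (12 * d * W ^ 3 * 2 ^ (3 * d * (d + 4))) * (k ^ (3 * (d - 2)) * M1) := by
        apply add_le_add
        · apply mul_le_mul_of_nonneg_right _ (by positivity)
          exact mul_le_mul_of_nonneg_left hp1 (by positivity)
        · apply mul_le_mul_of_nonneg_right _ (by positivity)
          apply mul_le_mul _ hp2 (by positivity) (by positivity)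
          exact mul_le_mul h12 hWW3 hW0.le (by positivity)
    _ = _ := by ring

/-- local lemma, pairs of flats: hyperplanes only -/
theorem locGen_pairs (d : ℕ) (hd : 2 ≤ d) : ∃ (C : ℝ) (c : ℕ), 1 ≤ C ∧
    LocGen d C c 6 (3 * (2 * d - 5)) 0 := by
  classical
  obtain ⟨K, c, hK, hcom⟩ := loc_common d hd
  have hd1 : (1:ℝ) ≤ d := by exact_mod_cast (by omega : 1 ≤ d)
  refine ⟨3 * d * K ^ 2 * 2 ^ (2 * d * (d + 4)), 2 * c, ?_, ?_⟩
  · have h1 : (1:ℝ) ≤ 3 * d := by linarith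
    exact one_le_mul_of_one_le_of_one_le (one_le_mul_of_one_le_of_one_le h1 (one_le_pow₀ hK))
      (one_le_pow₀ (by norm_num))
  intro X P t l k M1 M2 hk hl hX hM1 hM2 hP hy1 hy2
  have hk0 : 0 < k := by linarith
  have hlog : 0 ≤ Real.log ((X.card : ℝ) + 3) := Real.log_nonneg (by
    have : (0:ℝ) ≤ X.card := by positivity
    linarith)
  have hl1 : (1:ℝ) ≤ l := by linarith
  obtain ⟨W, hW⟩ : ∃ W : ℝ, W = K * (l:ℝ) ^ c := ⟨_, rfl⟩
  have hW1 : 1 ≤ W := by rw [hW]; exact one_le_mul_of_one_le_of_one_le hK (one_le_pow₀ hl1)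
  have hW0 : 0 < W := by linarith
  have hW2 : W ^ 2 = K ^ 2 * (l:ℝ) ^ (2 * c) := by rw [hW, mul_pow, ← pow_mul, mul_comm c 2]
  have hWW2 : W ≤ W ^ 2 := le_self_pow₀ hW1 (by norm_num)
  have h3 : 1 ≤ 3 * (d:ℝ) := by linarith
  have hCC : (3 * d * K ^ 2 * 2 ^ (2 * d * (d + 4)) : ℝ) * (l:ℝ) ^ (2 * c) =
      3 * d * W ^ 2 * 2 ^ (2 * d * (d + 4)) := by rw [hW2]; ring
  rw [hCC] at hX ⊢
  obtain ⟨κ, hκ⟩ : ∃ κ : ℝ, κ = 2 ^ (d + 4) * k ^ 3 := ⟨_, rfl⟩
  have hκ1 : 1 ≤ κ := by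
    rw [hκ]
    exact one_le_mul_of_one_le_of_one_le (one_le_pow₀ (by norm_num)) (one_le_pow₀ hk)
  have hκ0 : 0 < κ := by linarith
  have hX' : K * (l:ℝ) ^ c * k ^ 6 ≤ X.card := by
    refine le_trans ?_ hX
    rw [← hW]
    apply mul_le_mul_of_nonneg_right _ (by positivity)
    calc W = 1 * W * 1 := by ring
      _ ≤ 3 * d * W ^ 2 * 2 ^ (2 * d * (d + 4)) := by
          apply mul_le_mul _ (one_le_pow₀ (by norm_num)) (by norm_num) (by positivity)
          exact mul_le_mul h3 hWW2 hW0.le (by positivity)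
  have h1 := hcom X P l k M1 (fun r => 2 * (W * κ ^ (r - 1)) * M1) hk hl hX' hM1
    (fun r => by positivity) hP hy1 (by
    intro r hr2 hrd hcnt U
    rw [← hκ, ← hW] at hcnt
    rw [← hκ]
    have hX0 : (0:ℝ) < X.card := by
      have : (0:ℝ) < K * (l:ℝ) ^ c * k ^ 6 := by rw [← hW]; positivity
      linarith
    refine (dat_pairs P X ((X.card : ℝ) / κ) M1 (by positivity) hM1 r hr2 hy1 U).trans ?_
    apply mul_le_mul_of_nonneg_right _ hM1
    linarith)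
  rw [← hκ, ← hW] at h1
  refine h1.trans ?_
  have hsum : ∑ r ∈ Finset.Ico 2 d, W * κ ^ (r - 2) * (2 * (W * κ ^ (r - 1)) * M1) ≤
      d * (2 * W ^ 2 * κ ^ (2 * d - 5) * M1) := by
    calc ∑ r ∈ Finset.Ico 2 d, W * κ ^ (r - 2) * (2 * (W * κ ^ (r - 1)) * M1) ≤
          ∑ _r ∈ Finset.Ico 2 d, 2 * W ^ 2 * κ ^ (2 * d - 5) * M1 := by
          apply sum_le_sum
          intro r hr
          rw [mem_Ico] at hr
          have e1 : W * κ ^ (r - 2) * (2 * (W * κ ^ (r - 1)) * M1) =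
              2 * W ^ 2 * κ ^ (r - 2 + (r - 1)) * M1 := by
            rw [pow_add]
            ring
          rw [e1]
          apply mul_le_mul_of_nonneg_right _ hM1
          apply mul_le_mul_of_nonneg_left _ (by positivity)
          exact pow_le_pow_right₀ hκ1 (by omega)
      _ = (Finset.Ico 2 d).card * (2 * W ^ 2 * κ ^ (2 * d - 5) * M1) := by
          rw [sum_const, nsmul_eq_mul]
      _ ≤ _ := by
          apply mul_le_mul_of_nonneg_right _ (by positivity)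
          rw [Nat.card_Ico]
          exact_mod_cast (by omega : d - 2 ≤ d)
  have hκe : ∀ e, κ ^ e = 2 ^ ((d + 4) * e) * k ^ (3 * e) := by
    intro e
    rw [hκ, mul_pow, ← pow_mul, ← pow_mul]
  have hp1 : (2:ℝ) ^ (d + 4) * 2 ^ ((d + 4) * (2 * d - 5)) ≤ 2 ^ (2 * d * (d + 4)) := by
    rw [← pow_add]
    apply pow_le_pow_right₀ (by norm_num)
    have : (d + 4) + (d + 4) * (2 * d - 5) = (1 + (2 * d - 5)) * (d + 4) := by ring
    rw [this]
    exact Nat.mul_le_mul_right _ (by omega)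
  have hκd : κ ^ (d - 2) ≤ κ ^ (2 * d - 5) := by
    rcases Nat.lt_or_ge d 3 with h | h
    · have : d = 2 := by omega
      subst this
      norm_num
    · exact pow_le_pow_right₀ hκ1 (by omega)
  calc 2 ^ (d + 4) * (∑ r ∈ Finset.Ico 2 d, W * κ ^ (r - 2) * (2 * (W * κ ^ (r - 1)) * M1) +
        W * κ ^ (d - 2) * M1) ≤
      2 ^ (d + 4) * (d * (2 * W ^ 2 * κ ^ (2 * d - 5) * M1) +
        (d * W ^ 2) * κ ^ (2 * d - 5) * M1) := by
        apply mul_le_mul_of_nonneg_left _ (by positivity)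
        apply add_le_add hsum
        apply mul_le_mul_of_nonneg_right _ hM1
        apply mul_le_mul _ hκd (by positivity) (by positivity)
        calc W = 1 * W := by ring
          _ ≤ d * W ^ 2 := mul_le_mul hd1 hWW2 hW0.le (by positivity)
    _ = (3 * d * W ^ 2 * (2 ^ (d + 4) * 2 ^ ((d + 4) * (2 * d - 5)))) *
          (k ^ (3 * (2 * d - 5)) * M1) := by
        rw [hκe]
        ring
    _ ≤ (3 * d * W ^ 2 * 2 ^ (2 * d * (d + 4))) * (k ^ (3 * (2 * d - 5)) * M1) := by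
        apply mul_le_mul_of_nonneg_right _ (by positivity)
        exact mul_le_mul_of_nonneg_left hp1 (by positivity)
    _ ≤ (3 * d * W ^ 2 * 2 ^ (2 * d * (d + 4))) * (k ^ (3 * (2 * d - 5)) * M1 + k ^ 0 * M2) := by
        apply mul_le_mul_of_nonneg_left _ (by positivity)
        rw [pow_zero, one_mul]
        linarith

end Vale.Agent.P054I
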